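import Crest.Agent.R110.KCmp

/-!
# R110 piece GPoint: pointwise lemmas of the general case

`point`: `conj_le_of_ps_eq_zero` with `x = ξ`: `ξ⋆ξ - (5/9) |(T1+T2)ξ|² ≤ (1/10) ξ⋆ξ` (using `k'ξ = ξ`), so `(9/10)‖ξ‖² ≤ (5/9)(a+b)²‖ξ‖² ≤ (125/144)‖ξ‖²`.
`good_vec`: `x := ps τ X`, `ps_conj_ge`: `τ x² ≤ x X x = |kx|² - M |Tx|²`.
`exists_v`: `V := ps (1/10) X`, `b := star (k' V) * (k' V)`; `Dom V b` (if `φ(k'V) = 0` then `(1/10) φ(V)² ≤ φ(V X V) = - (5/9)|φ(T V)|² ≤ 0`), so `Dom a b`,
`compare`: `d`; `m := V d`; `d⋆ V X V d ≥ 0` gives `(5/9) |T m|² ≤ |k' m|²`.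
-/

set_option autoImplicit false

namespace Crest.Agent.R110

universe u
variable {Q : Type u} [NonUnitalCStarAlgebra Q]

private theorem XT_conj (k T V : Q) (M : ℝ) :
    star V * XT k T M * V = star (k * V) * (k * V) - M • (star (T * V) * (T * V)) := by
  simp only [XT, star_mul, mul_sub, sub_mul, mul_smul_comm, smul_mul_assoc, mul_assoc]

private theorem XT_sa (k T : Q) (M : ℝ) : star (XT k T M) = XT k T M := by
  simp [XT, star_sub, star_mul, star_smul]

theorem exists_v (hA : PI Q) {a k' T : Q} (ha : 0 ≤ a) (hk : star k' = k')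
    (h : Dom a (ps (1 / 10) (XT k' T (5 / 9)))) (ε : ℝ) (hε : 0 < ε) :
    ∃ m : Q, ‖star (k' * m) * (k' * m) - a‖ ≤ ε ∧ ‖T * m‖ ^ 2 ≤ (9 / 5) * ‖k' * m‖ ^ 2 := by
  set X := XT k' T (5 / 9) with hX
  have hXs : star X = X := XT_sa _ _ _
  set V := ps (1 / 10) X with hV
  have hVs : star V = V := ps_sa X
  have hge : (1 / 10 : ℝ) • (V * V) ≤ V * X * V := ps_conj_ge (by norm_num) hXs
  have hVX : V * X * V = star (k' * V) * (k' * V) - (5 / 9 : ℝ) • (star (T * V) * (T * V)) := by
    have := XT_conj k' T V (5 / 9)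
    rwa [hVs] at this
  set b := star (k' * V) * (k' * V) with hb
  have hdom : Dom a b := by
    intro Q' _ φ hφ
    refine h Q' φ ?_
    have h0 : φ (k' * V) = 0 := by
      have h1 : star (φ (k' * V)) * φ (k' * V) = 0 := by
        rw [← map_star, ← map_mul]; exact hφ
      exact CStarRing.star_mul_self_eq_zero_iff _ |>.1 h1
    have h2 : φ ((1 / 10 : ℝ) • (V * V)) ≤ φ (V * X * V) := by
      rw [← sub_nonneg, ← map_sub]
      obtain ⟨x, hx⟩ := CStarAlgebra.nonneg_iff_eq_star_mul_self.1 (sub_nonneg.2 hge)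
      rw [hx, map_mul, map_star]
      exact star_mul_self_nonneg _
    have h3 : φ (V * X * V) ≤ 0 := by
      rw [hVX, map_sub, hφ, zero_sub, neg_nonpos]
      have : φ ((5 / 9 : ℝ) • (star (T * V) * (T * V))) = (5 / 9 : ℝ) • (star (φ (T * V)) * φ (T * V)) := by
        rw [← map_star, ← map_mul]
        exact map_real_smul φ (map_continuous φ) _ _
      rw [this]
      exact smul_nonneg (by norm_num) (star_mul_self_nonneg _)
    have h4 : φ ((1 / 10 : ℝ) • (V * V)) = (1 / 10 : ℝ) • (star (φ V) * φ V) := by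
      rw [← map_star, hVs, ← map_mul]
      exact map_real_smul φ (map_continuous φ) _ _
    have h5 : (1 / 10 : ℝ) • (star (φ V) * φ V) = 0 := by
      apply le_antisymm
      · rw [← h4]; exact h2.trans h3
      · exact smul_nonneg (by norm_num) (star_mul_self_nonneg _)
    have h6 : star (φ V) * φ V = 0 := by
      rcases smul_eq_zero.1 h5 with h | h
      · norm_num at h
      · exact h
    exact CStarRing.star_mul_self_eq_zero_iff _ |>.1 h6
  obtain ⟨d, hd⟩ := compare hA ha (star_mul_self_nonneg (k' * V)) hdom ε hε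
  refine ⟨V * d, ?_, ?_⟩
  · have : star (k' * (V * d)) * (k' * (V * d)) = star d * b * d := by
      rw [hb]; simp only [star_mul, mul_assoc]
    rw [this]; exact hd.le
  · apply norm_sq_le_of_star_mul_le (by norm_num)
    have h1 : 0 ≤ star d * (V * X * V) * d := by
      refine star_left_conjugate_nonneg (le_trans ?_ hge) d
      refine smul_nonneg (by norm_num) ?_
      have := star_mul_self_nonneg V
      rwa [hVs] at this
    have h2 : star d * (V * X * V) * d
        = star (k' * (V * d)) * (k' * (V * d)) - (5 / 9 : ℝ) • (star (T * (V * d)) * (T * (V * d))) := by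
      rw [hVX, hb]
      simp only [star_mul, mul_sub, sub_mul, mul_smul_comm, smul_mul_assoc, mul_assoc]
    rw [h2, sub_nonneg] at h1
    have h3 := smul_le_smul_of_nonneg_left h1 (show (0 : ℝ) ≤ 9 / 5 by norm_num)
    rwa [smul_smul, show (9 / 5 : ℝ) * (5 / 9) = 1 by norm_num, one_smul] at h3

end Crest.Agent.R110
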