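import Crest.Agent.R110.GOm
import Crest.Agent.R110.GVec

/-!
# R110 pieces Contr, Iter, Final

`contr`: `L := (y-x)/10`; `exists_omega`; `w := (1/√2) (ω1 + ω2)`, `w⋆w ≈ ct (x+5L) (x+6L) β`; `k' := ct (x+L) (x+2L) α`, `T := (ω1+ω2)⋆ z⋆ k'`,
`a := ct (x+8L) (x+9L) α` (`Dom a (ps (1/10) X)`); `exists_v`: `m`; `v := k' m`.  `‖w⋆z⋆v‖² = (1/2)‖T m‖² ≤ (9/10) ‖v‖² ≤ (9/10)(1+ε)`.
`iter`: induction on `n` (generalising `z, x, y, ε`): `n = 0`: `contr`-like (or take `contr` and `49/50 ≤ 1`);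
`n+1`: `contr` on `[x, (x+y)/2]` with a small error, `z1 := (50/49)^1 • star v1 * z * w1`..., `iter n` for `z1` on `[(x+y)/2, y]`: `v2, w2`; `v := v1 v2`, `w := w1 w2`:
`star v * v = v2⋆ (v1⋆v1) v2 ≈ v2⋆ (ct u u' α) v2 = v2⋆v2` (`Lev (ps ((x+y)/2) α) v2` applied to `c = ct u u' α`).
-/

set_option autoImplicit false

namespace Crest.Agent.R110

universe u
variable {A : Type u} [NonUnitalCStarAlgebra A]

/-- `ct (x+L) (x+2L) α` lies in the right ideal generated by `ps x α` -/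
theorem contr_ct_factor {x L : ℝ} (hx : 0 ≤ x) (hL : 0 < L) (α : A) :
    ∃ h : A, ct (x + L) (x + 2 * L) α = ps x α * h := by
  have hg : Continuous (fun t : ℝ => cut (x + L) (x + 2 * L) t / max (t - x) L) := by
    refine (continuous_cut _ _).div (by fun_prop) fun t => ?_
    have : 0 < max (t - x) L := lt_max_of_lt_right hL
    exact this.ne'
  have hg0 : (fun t : ℝ => cut (x + L) (x + 2 * L) t / max (t - x) L) 0 = 0 := by
    simp only
    rw [cut_zero (by linarith) (by linarith), zero_div]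
  refine ⟨cfcₙ (fun t : ℝ => cut (x + L) (x + 2 * L) t / max (t - x) L) α, ?_⟩
  unfold ct ps
  rw [← cfcₙ_mul (pp x) _ α (continuous_pp x).continuousOn (pp_zero hx) hg.continuousOn hg0]
  refine cfcₙ_congr fun t _ => ?_
  rcases le_total t (x + L) with h1 | h1
  · rw [cut_of_le (by linarith) h1, zero_div, mul_zero]
  · have h2 : max (t - x) L = t - x := max_eq_left (by linarith)
    have h3 : pp x t = t - x := pp_of_ge (by linarith)
    rw [h2, h3, mul_div_cancel₀]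
    have : 0 < t - x := by linarith
    exact this.ne'

theorem contr (hA : PI A) {α β z : A} (hα : 0 ≤ α) (hαn : ‖α‖ ≤ 1) (hβ : 0 ≤ β) (hβn : ‖β‖ ≤ 1) (hz : ‖z‖ ≤ 1)
    {x y : ℝ} (hx : 0 ≤ x) (hxy : x < y) (ε : ℝ) (hε : 0 < ε) :
    ∃ v w : A, Lev (ps x α) v ∧ Lev (ps x β) w ∧ ‖star v * z * w‖ ≤ 49 / 50 ∧
      (∃ u u' : ℝ, x ≤ u ∧ u < u' ∧ u' ≤ y ∧ ‖star v * v - ct u u' α‖ ≤ ε) ∧
      (∃ u u' : ℝ, x ≤ u ∧ u < u' ∧ u' ≤ y ∧ ‖star w * w - ct u u' β‖ ≤ ε) := by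
  obtain ⟨L, hLdef⟩ : ∃ L : ℝ, L = (y - x) / 10 := ⟨_, rfl⟩
  have hL : 0 < L := by rw [hLdef]; linarith
  obtain ⟨ω1, ω2, hlev1, hlev2, h11, h22, h12, hdom⟩ :=
    exists_omega hA hα hαn hβ hβn hz hx hL (ε / 2) (half_pos hε)
  set k' : A := ct (x + L) (x + 2 * L) α with hk'
  set T : A := (star ω1 + star ω2) * star z * k' with hT
  set a : A := ct (x + 8 * L) (x + 9 * L) α with ha
  have ha0 : 0 ≤ a := ct_nonneg α
  have hDom : Dom a (ps (1 / 10) (XT k' T (5 / 9))) := by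
    intro Q _ φ hφ
    have h1 := hdom Q φ hφ
    have hφα : 0 ≤ φ α := map_nonneg φ hα
    have hsa : star α = α := (IsSelfAdjoint.of_nonneg hα).star_eq
    rw [map_ps φ (by linarith) hsa, ps_eq_zero_iff (by linarith) hφα] at h1
    rw [ha, map_ct φ (by linarith) (by linarith) hsa]
    exact ct_eq_zero (by linarith) (by linarith) hφα h1
  obtain ⟨m, hm1, hm2⟩ := exists_v hA ha0 (ct_sa α) hDom (min ε (1 / 20))
    (lt_min hε (by norm_num))
  have hs2 : (0 : ℝ) < Real.sqrt 2 := Real.sqrt_pos.2 (by norm_num)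
  have hss : (Real.sqrt 2)⁻¹ * (Real.sqrt 2)⁻¹ = (1 / 2 : ℝ) := by
    rw [← mul_inv, Real.mul_self_sqrt (by norm_num)]; norm_num
  set s : ℝ := (Real.sqrt 2)⁻¹ with hs
  have hs0 : 0 < s := inv_pos.2 hs2
  refine ⟨k' * m, s • (ω1 + ω2), ?_, ?_, ?_, ⟨x + 8 * L, x + 9 * L, by linarith, by linarith,
    by rw [hLdef]; linarith, hm1.trans (min_le_left _ _)⟩, ⟨x + 5 * L, x + 6 * L, by linarith,
    by linarith, by rw [hLdef]; linarith, ?_⟩⟩
  · intro c hc
    obtain ⟨h, hh⟩ := contr_ct_factor hx hL α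
    have : c * k' = k' := by rw [hk', hh, ← mul_assoc, hc]
    rw [← mul_assoc, this]
  · intro c hc
    rw [mul_smul_comm, mul_add, hlev1 c hc, hlev2 c hc]
  · have e1 : star (k' * m) * z * (s • (ω1 + ω2)) = star (s • (T * m)) := by
      have hk's : star k' = k' := ct_sa α
      rw [hT]
      simp only [star_mul, star_smul, star_add, star_star, hk's, mul_smul_comm, star_trivial,
        mul_assoc]
    rw [e1, norm_star, norm_smul, Real.norm_of_nonneg hs0.le]
    have hv : ‖k' * m‖ ^ 2 ≤ 21 / 20 := by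
      rw [sq, ← CStarRing.norm_star_mul_self]
      have h3 : ‖a‖ ≤ 1 := norm_ct_le α
      have h4 := hm1.trans (min_le_right _ _)
      calc ‖star (k' * m) * (k' * m)‖ = ‖(star (k' * m) * (k' * m) - a) + a‖ := by
            rw [sub_add_cancel]
        _ ≤ ‖star (k' * m) * (k' * m) - a‖ + ‖a‖ := norm_add_le _ _
        _ ≤ 21 / 20 := by linarith
    have h5 : (s * ‖T * m‖) ^ 2 ≤ (49 / 50) ^ 2 := by
      have : (s * ‖T * m‖) ^ 2 = (s * s) * ‖T * m‖ ^ 2 := by ring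
      rw [this, hss]
      nlinarith
    exact abs_le_of_sq_le_sq' h5 (by norm_num) |>.2
  · have e2 : star (s • (ω1 + ω2)) * (s • (ω1 + ω2)) - ct (x + 5 * L) (x + 6 * L) β =
        (1 / 2 : ℝ) • ((star ω1 * ω1 - ct (x + 5 * L) (x + 6 * L) β) +
          (star ω2 * ω2 - ct (x + 5 * L) (x + 6 * L) β) + star ω1 * ω2 + star (star ω1 * ω2)) := by
      rw [star_smul, star_trivial, smul_mul_smul_comm, hss, star_add, star_mul, star_star]
      simp only [add_mul, mul_add]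
      have : ct (x + 5 * L) (x + 6 * L) β = (1 / 2 : ℝ) • (ct (x + 5 * L) (x + 6 * L) β +
          ct (x + 5 * L) (x + 6 * L) β) := by
        rw [← two_smul ℝ, smul_smul]; norm_num
      conv_lhs => rw [this]
      rw [← smul_sub]
      congr 1
      abel
    rw [e2, norm_smul, Real.norm_of_nonneg (by norm_num)]
    have h6 : ‖star (star ω1 * ω2)‖ ≤ ε / 2 := by rw [norm_star]; exact h12
    have := norm_add_le ((star ω1 * ω1 - ct (x + 5 * L) (x + 6 * L) β) +
          (star ω2 * ω2 - ct (x + 5 * L) (x + 6 * L) β) + star ω1 * ω2) (star (star ω1 * ω2))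
    have := norm_add_le ((star ω1 * ω1 - ct (x + 5 * L) (x + 6 * L) β) +
          (star ω2 * ω2 - ct (x + 5 * L) (x + 6 * L) β)) (star ω1 * ω2)
    have := norm_add_le (star ω1 * ω1 - ct (x + 5 * L) (x + 6 * L) β)
          (star ω2 * ω2 - ct (x + 5 * L) (x + 6 * L) β)
    linarith

end Crest.Agent.R110
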