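import Crest.Agent.R110.Iter

/-!
# R110 piece Final: from `iter` to S0145

`a, b ≥ 0`, `c` arbitrary.  First reduce to `‖a‖, ‖b‖ ≤ 1` (replace `a` by `λ a`: `star s * (λ a) * s - λ a = λ (star s * a * s - a)`).
Fix `x := ε/8`, `y := ε/4` (or smaller).  `n(t) := sqrt (cut (x/2) x t / t)` (`0` for `t ≤ x/2`), continuous, `n(0) = 0`, and `n(t)² t = 1` for `t ≥ x`:
`na := cfcₙ n a`: `na * a * na * v = v` whenever `Lev (ps x a) v` (since `na a na (ps x a) = ps x a`).
`z := K⁻¹ • (na * c * nb)`, `K := 1 + ‖na * c * nb‖`.  `iter` with `n` large (`K (49/50)^n ‖a‖^{1/2}.. ≤ ε/2`), tiny `ε'`: `v, w`.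
`s := na * v * CFC.sqrt a`, `t := nb * w * CFC.sqrt b`: `star s * a * s = sqrt a * (v⋆v) * sqrt a ≈ sqrt a * ct u u' a * sqrt a`, and `‖a - sqrt a (ct u u' a) sqrt a‖ ≤ u' ≤ y`
(`norm_sub_ct_mul_le`).  `star s * c * t = K • sqrt a * (v⋆ z w) * sqrt b`.
-/

set_option autoImplicit false

namespace Crest.Agent.R110

universe u
variable {A : Type u} [NonUnitalCStarAlgebra A]

namespace FinalAux

/-- `n(t)² t = cut (x/2) x t` -/
noncomputable def nf (x : ℝ) (t : ℝ) : ℝ := Real.sqrt (cut (x / 2) x t / max t (x / 2))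

theorem nf_cont {x : ℝ} (hx : 0 < x) : Continuous (nf x) := by
  unfold nf
  refine Real.continuous_sqrt.comp ?_
  refine (continuous_cut _ _).div (continuous_id.max continuous_const) fun t => ?_
  have : x / 2 ≤ max t (x / 2) := le_max_right _ _
  have h2 : 0 < x / 2 := by linarith
  exact (lt_of_lt_of_le h2 this).ne'

theorem nf_zero {x : ℝ} (hx : 0 < x) : nf x 0 = 0 := by
  unfold nf
  rw [cut_zero (by linarith) (by linarith), zero_div, Real.sqrt_zero]

theorem nf_mul {x : ℝ} (hx : 0 < x) (t : ℝ) : nf x t * t * nf x t = cut (x / 2) x t := by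
  have h2 : 0 < x / 2 := by linarith
  have hm : x / 2 ≤ max t (x / 2) := le_max_right _ _
  have hm0 : 0 < max t (x / 2) := lt_of_lt_of_le h2 hm
  have h0 : 0 ≤ cut (x / 2) x t / max t (x / 2) := div_nonneg (cut_nonneg _ _ _) hm0.le
  have : nf x t * t * nf x t = (nf x t * nf x t) * t := by ring
  rw [this]
  unfold nf
  rw [Real.mul_self_sqrt h0]
  rcases le_total t (x / 2) with ht | ht
  · rw [cut_of_le (by linarith) ht]
    simp
  · rw [max_eq_left ht]
    have : t ≠ 0 := (lt_of_lt_of_le h2 ht).ne'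
    field_simp

theorem exists_na {x : ℝ} (hx : 0 < x) {a : A} (ha : 0 ≤ a) :
    ∃ na : A, star na = na ∧ na * a * na = ct (x / 2) x a := by
  refine ⟨cfcₙ (nf x) a, (cfcₙ_predicate (nf x) a : IsSelfAdjoint _), ?_⟩
  have hsa : IsSelfAdjoint a := IsSelfAdjoint.of_nonneg ha
  have h1 : cfcₙ (nf x) a * a = cfcₙ (fun t => nf x t * t) a := by
    rw [cfcₙ_mul (nf x) (fun t => t) a (nf_cont hx).continuousOn (nf_zero hx)
      continuous_id.continuousOn rfl, cfcₙ_id' ℝ a]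
  rw [h1, ← cfcₙ_mul (fun t => nf x t * t) (nf x) a
    ((nf_cont hx).mul continuous_id).continuousOn (by simp) (nf_cont hx).continuousOn (nf_zero hx)]
  unfold ct
  congr 1
  funext t
  exact nf_mul hx t

theorem exists_ra {a : A} (ha : 0 ≤ a) :
    ∃ ra : A, star ra = ra ∧ ra * ra = a ∧
      ∀ x y : ℝ, 0 ≤ x → x < y → ra * ct x y a * ra = ct x y a * a := by
  refine ⟨cfcₙ Real.sqrt a, (cfcₙ_predicate Real.sqrt a : IsSelfAdjoint _), ?_, ?_⟩
  · have hsa : IsSelfAdjoint a := IsSelfAdjoint.of_nonneg ha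
    rw [← cfcₙ_mul Real.sqrt Real.sqrt a Real.continuous_sqrt.continuousOn Real.sqrt_zero
      Real.continuous_sqrt.continuousOn Real.sqrt_zero]
    conv_rhs => rw [← cfcₙ_id' ℝ a]
    refine cfcₙ_congr fun t ht => ?_
    exact Real.mul_self_sqrt (quasispectrum_nonneg_of_nonneg a ha t ht)
  · intro x y hx hxy
    have hsa : IsSelfAdjoint a := IsSelfAdjoint.of_nonneg ha
    have h1 : ct x y a * a = cfcₙ (fun t => cut x y t * t) a := by
      rw [cfcₙ_mul (cut x y) (fun t => t) a (continuous_cut x y).continuousOn (cut_zero hx hxy)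
        continuous_id.continuousOn rfl, cfcₙ_id' ℝ a]
      rfl
    have h2 : cfcₙ Real.sqrt a * ct x y a = cfcₙ (fun t => Real.sqrt t * cut x y t) a := by
      rw [cfcₙ_mul Real.sqrt (cut x y) a Real.continuous_sqrt.continuousOn Real.sqrt_zero
        (continuous_cut x y).continuousOn (cut_zero hx hxy)]
      rfl
    rw [h1, h2, ← cfcₙ_mul (fun t => Real.sqrt t * cut x y t) Real.sqrt a
      (Real.continuous_sqrt.mul (continuous_cut x y)).continuousOn (by simp)
      Real.continuous_sqrt.continuousOn Real.sqrt_zero]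
    refine cfcₙ_congr fun t ht => ?_
    have := Real.mul_self_sqrt (quasispectrum_nonneg_of_nonneg a ha t ht)
    calc Real.sqrt t * cut x y t * Real.sqrt t = cut x y t * (Real.sqrt t * Real.sqrt t) := by ring
      _ = cut x y t * t := by rw [this]

theorem norm_ra_le {a ra : A} (han : ‖a‖ ≤ 1) (h1 : star ra = ra) (h2 : ra * ra = a) : ‖ra‖ ≤ 1 := by
  have h : ‖ra‖ * ‖ra‖ = ‖a‖ := by
    rw [← CStarRing.norm_star_mul_self, h1, h2]
  nlinarith [norm_nonneg ra]

/-- one side: the error of `s⋆ a s` -/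
theorem side {x y : ℝ} (hx : 0 < x) {a : A} (ha : 0 ≤ a) {na ra v : A} (hna : star na = na)
    (hna2 : na * a * na = ct (x / 2) x a) (hra : star ra = ra) (hran : ‖ra‖ ≤ 1)
    (hr : ∀ x y : ℝ, 0 ≤ x → x < y → ra * ct x y a * ra = ct x y a * a)
    (hv : Lev (ps x a) v) {u u' ε : ℝ} (hu : x ≤ u) (huu : u < u') (hu' : u' ≤ y)
    (h : ‖star v * v - ct u u' a‖ ≤ ε) :
    ‖star (na * v * ra) * a * (na * v * ra) - a‖ ≤ ε + y := by
  have hlev : ct (x / 2) x a * v = v :=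
    hv _ (ct_mul_ps (by linarith) (by linarith) le_rfl ha)
  have e1 : star (na * v * ra) * a * (na * v * ra) = ra * (star v * v) * ra := by
    calc star (na * v * ra) * a * (na * v * ra)
        = ra * (star v * ((na * a * na) * v)) * ra := by
          simp only [star_mul, hna, hra, mul_assoc]
      _ = ra * (star v * v) * ra := by rw [hna2, hlev]
  have e2 : star (na * v * ra) * a * (na * v * ra) - a
      = ra * (star v * v - ct u u' a) * ra - (a - ct u u' a * a) := by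
    rw [e1, ← hr u u' (by linarith) huu]
    noncomm_ring
  rw [e2]
  have hu0 : 0 ≤ u := by linarith
  have b1 : ‖ra * (star v * v - ct u u' a) * ra‖ ≤ ε := by
    calc ‖ra * (star v * v - ct u u' a) * ra‖
        ≤ ‖ra * (star v * v - ct u u' a)‖ * ‖ra‖ := norm_mul_le _ _
      _ ≤ (‖ra‖ * ‖star v * v - ct u u' a‖) * ‖ra‖ :=
          mul_le_mul_of_nonneg_right (norm_mul_le _ _) (norm_nonneg _)
      _ ≤ (1 * ε) * 1 := by
          have h0 := norm_nonneg (star v * v - ct u u' a)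
          have hε0 : 0 ≤ ε := h0.trans h
          gcongr
      _ = ε := by ring
  have b2 : ‖a - ct u u' a * a‖ ≤ y := (norm_sub_ct_mul_le hu0 huu ha).trans hu'
  exact (norm_sub_le _ _).trans (add_le_add b1 b2)

theorem final1 (hA : PI A) {a b c : A} (ha : 0 ≤ a) (han : ‖a‖ ≤ 1) (hb : 0 ≤ b) (hbn : ‖b‖ ≤ 1)
    (ε : ℝ) (hε : 0 < ε) :
    ∃ s t : A, ‖star s * a * s - a‖ < ε ∧ ‖star t * b * t - b‖ < ε ∧ ‖star s * c * t‖ < ε := by
  obtain ⟨na, hna, hna2⟩ := exists_na (x := ε / 8) (by linarith) ha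
  obtain ⟨nb, hnb, hnb2⟩ := exists_na (x := ε / 8) (by linarith) hb
  obtain ⟨ra, hra, hra2, hra3⟩ := exists_ra ha
  obtain ⟨rb, hrb, hrb2, hrb3⟩ := exists_ra hb
  have hran := norm_ra_le han hra hra2
  have hrbn := norm_ra_le hbn hrb hrb2
  set K : ℝ := 1 + ‖na * c * nb‖ with hK
  have hK1 : 1 ≤ K := by rw [hK]; linarith [norm_nonneg (na * c * nb)]
  have hK0 : 0 < K := by linarith
  obtain ⟨n, hn⟩ := exists_pow_lt_of_lt_one (div_pos hε hK0) (by norm_num : (49 / 50 : ℝ) < 1)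
  have hz : ‖(K⁻¹ : ℝ) • (na * c * nb)‖ ≤ 1 := by
    rw [norm_smul, norm_inv, Real.norm_of_nonneg hK0.le, inv_mul_le_iff₀ hK0]
    rw [hK]; linarith [norm_nonneg (na * c * nb)]
  obtain ⟨v, w, hv, hw, hvw, ⟨u, u', hu, huu, hu', hvv⟩, ⟨r, r', hr, hrr, hr', hww⟩⟩ :=
    iter hA ha han hb hbn n ((K⁻¹ : ℝ) • (na * c * nb)) hz (ε / 8) (ε / 4) (by linarith)
      (by linarith) (ε / 4) (by linarith)
  refine ⟨na * v * ra, nb * w * rb, ?_, ?_, ?_⟩
  · have := side (by linarith) ha hna hna2 hra hran hra3 hv hu huu hu' hvv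
    linarith
  · have := side (by linarith) hb hnb hnb2 hrb hrbn hrb3 hw hr hrr hr' hww
    linarith
  · have e : star (na * v * ra) * c * (nb * w * rb)
        = K • (ra * (star v * ((K⁻¹ : ℝ) • (na * c * nb)) * w) * rb) := by
      have h1 : K • (ra * (star v * ((K⁻¹ : ℝ) • (na * c * nb)) * w) * rb)
          = (K * K⁻¹) • (ra * (star v * (na * c * nb) * w) * rb) := by
        rw [mul_smul]
        simp only [mul_smul_comm, smul_mul_assoc]
      rw [h1, mul_inv_cancel₀ hK0.ne', one_smul]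
      simp only [star_mul, hna, hra, mul_assoc]
    rw [e, norm_smul, Real.norm_of_nonneg hK0.le]
    have b1 : ‖ra * (star v * ((K⁻¹ : ℝ) • (na * c * nb)) * w) * rb‖ ≤ (49 / 50) ^ n := by
      calc ‖ra * (star v * ((K⁻¹ : ℝ) • (na * c * nb)) * w) * rb‖
          ≤ ‖ra * (star v * ((K⁻¹ : ℝ) • (na * c * nb)) * w)‖ * ‖rb‖ := norm_mul_le _ _
        _ ≤ (‖ra‖ * ‖star v * ((K⁻¹ : ℝ) • (na * c * nb)) * w‖) * ‖rb‖ :=
            mul_le_mul_of_nonneg_right (norm_mul_le _ _) (norm_nonneg _)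
        _ ≤ (1 * (49 / 50) ^ n) * 1 := by
            gcongr
        _ = (49 / 50) ^ n := by ring
    calc K * ‖ra * (star v * ((K⁻¹ : ℝ) • (na * c * nb)) * w) * rb‖
        ≤ K * (49 / 50) ^ n := by gcongr
      _ < K * (ε / K) := by gcongr
      _ = ε := by field_simp

/-- scaling -/
theorem scale {l ε ε' : ℝ} (hl : 0 < l) (hε : ε' ≤ l * ε) {a s : A}
    (h : ‖star s * (l • a) * s - l • a‖ < ε') : ‖star s * a * s - a‖ < ε := by
  have e : star s * (l • a) * s - l • a = l • (star s * a * s - a) := by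
    rw [smul_sub, mul_smul_comm, smul_mul_assoc]
  rw [e, norm_smul, Real.norm_of_nonneg hl.le] at h
  exact lt_of_mul_lt_mul_left (h.trans_le hε) hl.le

end FinalAux

open FinalAux in
theorem final (hA : PI A) {a b c : A} (ha : 0 ≤ a) (hb : 0 ≤ b) (ε : ℝ) (hε : 0 < ε) :
    ∃ s t : A, ‖star s * a * s - a‖ < ε ∧ ‖star t * b * t - b‖ < ε ∧ ‖star s * c * t‖ < ε := by
  have key : ∀ d : A, ‖((1 + ‖d‖)⁻¹ : ℝ) • d‖ ≤ 1 := by
    intro d
    have h0 : 0 < 1 + ‖d‖ := by linarith [norm_nonneg d]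
    rw [norm_smul, norm_inv, Real.norm_of_nonneg h0.le, inv_mul_le_iff₀ h0]
    linarith
  have hpos : ∀ d : A, (0 : ℝ) < (1 + ‖d‖)⁻¹ := by
    intro d
    have h0 : 0 < 1 + ‖d‖ := by linarith [norm_nonneg d]
    exact inv_pos.2 h0
  have hle : ∀ d : A, ((1 + ‖d‖)⁻¹ : ℝ) ≤ 1 := by
    intro d
    exact inv_le_one_of_one_le₀ (by linarith [norm_nonneg d])
  have ha' : 0 ≤ ((1 + ‖a‖)⁻¹ : ℝ) • a := smul_nonneg (hpos a).le ha
  have hb' : 0 ≤ ((1 + ‖b‖)⁻¹ : ℝ) • b := smul_nonneg (hpos b).le hb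
  obtain ⟨s, t, h1, h2, h3⟩ := final1 hA (c := c) ha' (key a) hb' (key b)
    (min ((1 + ‖a‖)⁻¹ * ε) ((1 + ‖b‖)⁻¹ * ε))
    (lt_min (mul_pos (hpos a) hε) (mul_pos (hpos b) hε))
  refine ⟨s, t, scale (hpos a) (min_le_left _ _) h1, scale (hpos b) (min_le_right _ _) h2, ?_⟩
  refine h3.trans_le ((min_le_left _ _).trans ?_)
  have := hle a
  nlinarith [hpos a]

end Crest.Agent.R110
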