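import Crest.Agent.R110.KCmp

/-! # R110: small auxiliary lemmas (all proved): `mul_sqrt_of_mul`, `XT_sa`, `map_XT`, norms of square roots -/

set_option autoImplicit false

namespace Crest.Agent.R110

universe u
variable {A B : Type u} [NonUnitalCStarAlgebra A] [NonUnitalCStarAlgebra B]

theorem sqrt_sa (h : A) : star (CFC.sqrt h) = CFC.sqrt h := (CFC.sqrt_nonneg h).isSelfAdjoint.star_eq

theorem mul_sqrt_of_mul {c h : A} (hh : 0 ≤ h) (h1 : c * h = h) : c * CFC.sqrt h = CFC.sqrt h := by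
  have hs : CFC.sqrt h * CFC.sqrt h = h := CFC.sqrt_mul_sqrt_self h hh
  have hsa : star (CFC.sqrt h) = CFC.sqrt h := (CFC.sqrt_nonneg h).isSelfAdjoint.star_eq
  have h2 : star h = h := hh.isSelfAdjoint.star_eq
  have h3 : h * star c = h := by
    have := congrArg star h1
    rwa [star_mul, h2] at this
  have : (c * CFC.sqrt h - CFC.sqrt h) * star (c * CFC.sqrt h - CFC.sqrt h) = 0 := by
    rw [star_sub, star_mul, hsa]
    calc (c * CFC.sqrt h - CFC.sqrt h) * (CFC.sqrt h * star c - CFC.sqrt h)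
        = c * (CFC.sqrt h * CFC.sqrt h) * star c - c * (CFC.sqrt h * CFC.sqrt h)
          - (CFC.sqrt h * CFC.sqrt h) * star c + CFC.sqrt h * CFC.sqrt h := by noncomm_ring
      _ = 0 := by rw [hs, h1, h3]; noncomm_ring
  have h4 := CStarRing.norm_self_mul_star (x := c * CFC.sqrt h - CFC.sqrt h)
  rw [this, norm_zero] at h4
  have h5 : ‖c * CFC.sqrt h - CFC.sqrt h‖ = 0 := by
    nlinarith [norm_nonneg (c * CFC.sqrt h - CFC.sqrt h)]
  exact sub_eq_zero.1 (norm_eq_zero.1 h5)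

theorem norm_sqrt_sq {h : A} (hh : 0 ≤ h) : ‖CFC.sqrt h‖ ^ 2 = ‖h‖ := by
  have hs : CFC.sqrt h * CFC.sqrt h = h := CFC.sqrt_mul_sqrt_self h hh
  have h4 := CStarRing.norm_star_mul_self (x := CFC.sqrt h)
  rw [sqrt_sa, hs] at h4
  rw [h4, sq]

theorem norm_sqrt_le_one {h : A} (hh : 0 ≤ h) (h1 : ‖h‖ ≤ 1) : ‖CFC.sqrt h‖ ≤ 1 := by
  have := norm_sqrt_sq hh
  nlinarith [norm_nonneg (CFC.sqrt h)]

theorem XT_sa {k T : A} (M : ℝ) : star (XT k T M) = XT k T M := by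
  unfold XT
  simp

theorem map_smul_real (φ : A →⋆ₙₐ[ℂ] B) (M : ℝ) (a : A) : φ (M • a) = M • φ a := by
  rw [← Complex.coe_smul, ← Complex.coe_smul, map_smul]

theorem map_XT (φ : A →⋆ₙₐ[ℂ] B) (k T : A) (M : ℝ) : φ (XT k T M) = XT (φ k) (φ T) M := by
  unfold XT
  simp [map_sub, map_mul, map_star, map_smul_real]

theorem map_nonneg' (φ : A →⋆ₙₐ[ℂ] B) {a : A} (h : 0 ≤ a) : 0 ≤ φ a := by
  have := map_mono φ h
  rwa [map_zero] at this

theorem map_sqrt' (φ : A →⋆ₙₐ[ℂ] B) {h : A} (hh : 0 ≤ h) : φ (CFC.sqrt h) = CFC.sqrt (φ h) := by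
  have h0 : 0 ≤ φ (CFC.sqrt h) := map_nonneg' φ (CFC.sqrt_nonneg h)
  have h1 : φ (CFC.sqrt h) * φ (CFC.sqrt h) = φ h := by
    rw [← map_mul, CFC.sqrt_mul_sqrt_self h hh]
  exact (CFC.sqrt_unique h1 h0).symm

end Crest.Agent.R110
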