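import Crest.Agent.R110.GAux

/-! # R110: construction of `ω2` (proved) -/

set_option autoImplicit false
set_option linter.unusedVariables false

namespace Crest.Agent.R110

universe u
variable {A B : Type u} [NonUnitalCStarAlgebra A] [NonUnitalCStarAlgebra B]

theorem norm_mul3_le (a b c : A) : ‖a * b * c‖ ≤ ‖a‖ * ‖b‖ * ‖c‖ :=
  (norm_mul_le _ _).trans (mul_le_mul_of_nonneg_right (norm_mul_le _ _) (norm_nonneg _))

/-- construction of `ω2` -/
theorem omA {Y1 Y2 c κ w : A} {e : ℝ} (hc : star c = c) (hY1 : ‖Y1‖ ≤ 1) (hY2 : ‖Y2‖ ≤ 1)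
    (h11 : ‖star Y1 * Y1 - c‖ ≤ e) (h22 : ‖star Y2 * Y2 - c‖ ≤ e) (h12 : ‖star Y1 * Y2‖ ≤ e)
    (hκ : 0 ≤ κ) (hκ1 : ‖κ‖ ≤ 1) (hcκ : c * κ = κ) (hw : ‖w‖ ≤ 1) (hcw : c * w = w) :
    0 ≤ κ - CFC.sqrt κ * (star w * w) * CFC.sqrt κ ∧
    ‖κ - CFC.sqrt κ * (star w * w) * CFC.sqrt κ‖ ≤ 1 ∧
    ‖star (Y1 * w * CFC.sqrt κ + Y2 * CFC.sqrt (κ - CFC.sqrt κ * (star w * w) * CFC.sqrt κ)) *
      (Y1 * w * CFC.sqrt κ + Y2 * CFC.sqrt (κ - CFC.sqrt κ * (star w * w) * CFC.sqrt κ)) - κ‖ ≤ 4 * e := by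
  have he : 0 ≤ e := (norm_nonneg _).trans h12
  set sκ := CFC.sqrt κ with hsκ
  have hs : sκ * sκ = κ := CFC.sqrt_mul_sqrt_self κ hκ
  have hsa : star sκ = sκ := sqrt_sa κ
  have hs1 : ‖sκ‖ ≤ 1 := norm_sqrt_le_one hκ hκ1
  have hww : ‖star w * w‖ ≤ 1 := by
    rw [CStarRing.norm_star_mul_self]; nlinarith [norm_nonneg w]
  have hle : sκ * (star w * w) * sκ ≤ κ := by
    have h := CStarAlgebra.star_left_conjugate_le_norm_smul (a := sκ) (b := star w * w)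
      (IsSelfAdjoint.star_mul_self w)
    rw [hsa, hs] at h
    refine h.trans ?_
    have h1 : ‖star w * w‖ • κ ≤ (1 : ℝ) • κ := smul_le_smul_of_nonneg_right hww hκ
    rwa [one_smul] at h1
  set R := κ - sκ * (star w * w) * sκ with hR
  have hR0 : 0 ≤ R := sub_nonneg.2 hle
  have hRle : R ≤ κ := by
    rw [hR, sub_le_self_iff]
    have := star_left_conjugate_nonneg (star_mul_self_nonneg w) sκ
    rwa [hsa] at this
  have hR1 : ‖R‖ ≤ 1 := (CStarAlgebra.norm_le_norm_of_nonneg_of_le hR0 hRle).trans hκ1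
  have hcs : c * sκ = sκ := mul_sqrt_of_mul hκ hcκ
  have hcR : c * R = R := by
    rw [hR, mul_sub, hcκ, ← mul_assoc, ← mul_assoc, hcs]
  set sR := CFC.sqrt R with hsR
  have hsRR : sR * sR = R := CFC.sqrt_mul_sqrt_self R hR0
  have hsRa : star sR = sR := sqrt_sa R
  have hsR1 : ‖sR‖ ≤ 1 := norm_sqrt_le_one hR0 hR1
  have hcsR : c * sR = sR := mul_sqrt_of_mul hR0 hcR
  refine ⟨hR0, hR1, ?_⟩
  have h21 : ‖star Y2 * Y1‖ ≤ e := by
    have : star Y2 * Y1 = star (star Y1 * Y2) := by simp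
    rw [this, norm_star]; exact h12
  have key : star (Y1 * w * sκ + Y2 * sR) * (Y1 * w * sκ + Y2 * sR) - κ
      = sκ * star w * (star Y1 * Y1 - c) * (w * sκ) + sR * (star Y2 * Y2 - c) * sR
        + sκ * star w * (star Y1 * Y2) * sR + sR * (star Y2 * Y1) * (w * sκ) := by
    have e1 : sκ * star w * c * (w * sκ) = sκ * (star w * w) * sκ := by
      calc sκ * star w * c * (w * sκ) = sκ * star w * (c * w) * sκ := by noncomm_ring
        _ = _ := by rw [hcw]; noncomm_ring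
    have e2 : sR * c * sR = R := by rw [mul_assoc, hcsR, hsRR]
    calc star (Y1 * w * sκ + Y2 * sR) * (Y1 * w * sκ + Y2 * sR) - κ
        = (sκ * star w * (star Y1 * Y1 - c) * (w * sκ) + sR * (star Y2 * Y2 - c) * sR
        + sκ * star w * (star Y1 * Y2) * sR + sR * (star Y2 * Y1) * (w * sκ)) +
          (sκ * star w * c * (w * sκ) + sR * c * sR - κ) := by
          rw [star_add, star_mul, star_mul, star_mul, hsa, hsRa]; noncomm_ring
      _ = _ := by rw [e1, e2, hR]; noncomm_ring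
  rw [key]
  have hw' : ‖star w‖ ≤ 1 := by rw [norm_star]; exact hw
  have hsw : ‖sκ * star w‖ ≤ 1 := (norm_mul_le _ _).trans (by nlinarith [norm_nonneg sκ, norm_nonneg (star w)])
  have hws : ‖w * sκ‖ ≤ 1 := (norm_mul_le _ _).trans (by nlinarith [norm_nonneg sκ, norm_nonneg w])
  have b3 : ∀ a b d : A, ‖a‖ ≤ 1 → ‖b‖ ≤ e → ‖d‖ ≤ 1 → ‖a * b * d‖ ≤ e := by
    intro a b d ha hb hd
    refine (norm_mul3_le a b d).trans ?_
    have : ‖a‖ * ‖b‖ ≤ e := by nlinarith [norm_nonneg a, norm_nonneg b]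
    nlinarith [norm_nonneg d, mul_nonneg (norm_nonneg a) (norm_nonneg b)]
  have t1 := b3 (sκ * star w) (star Y1 * Y1 - c) (w * sκ) hsw h11 hws
  have t2 := b3 sR (star Y2 * Y2 - c) sR hsR1 h22 hsR1
  have t3 := b3 (sκ * star w) (star Y1 * Y2) sR hsw h12 hsR1
  have t4 := b3 sR (star Y2 * Y1) (w * sκ) hsR1 h21 hws
  calc _ ≤ ‖sκ * star w * (star Y1 * Y1 - c) * (w * sκ)‖ + ‖sR * (star Y2 * Y2 - c) * sR‖
        + ‖sκ * star w * (star Y1 * Y2) * sR‖ + ‖sR * (star Y2 * Y1) * (w * sκ)‖ := norm_add₄_le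
    _ ≤ 4 * e := by linarith

end Crest.Agent.R110
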