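import Crest.Agent.R110.GPoint
import Crest.Agent.R110.GOmA

/-! # R110: comparability in `D1` and the pointwise claim (proved) -/

set_option autoImplicit false
set_option linter.unusedVariables false

namespace Crest.Agent.R110

universe u
variable {A B : Type u} [NonUnitalCStarAlgebra A] [NonUnitalCStarAlgebra B]

/-- comparability in `D1` -/
theorem omB {α β z Y κ : A} (hα : 0 ≤ α) (hβ : 0 ≤ β) {x L : ℝ} (hx : 0 ≤ x) (hL : 0 < L)
    (D1 : Type u) [NonUnitalCStarAlgebra D1] (π : A →⋆ₙₐ[ℂ] D1)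
    (hπ : π (ps (1 / 2) (XT (ct (x + 2 * L) (x + 3 * L) α)
      (star (Y * CFC.sqrt (ct (x + 5 * L) (x + 6 * L) β)) * star z * ct (x + 2 * L) (x + 3 * L) α) 64)) = 0) :
    Dom (ps (x + 3 * L) (π α)) (ps (x + 3 * L) (π β)) := by
  intro Q _ ψ hψ
  have hα' : 0 ≤ ψ (π α) := map_nonneg' ψ (map_nonneg' π hα)
  have hβ' : 0 ≤ ψ (π β) := map_nonneg' ψ (map_nonneg' π hβ)
  have hsa : ∀ {a : D1}, 0 ≤ a → star a = a := fun h => h.isSelfAdjoint.star_eq
  have hsaA : ∀ {a : A}, 0 ≤ a → star a = a := fun h => h.isSelfAdjoint.star_eq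
  rw [map_ps ψ (by linarith) (hsa (map_nonneg' π hβ)), ps_eq_zero_iff (by linarith) hβ'] at hψ
  rw [map_ps ψ (by linarith) (hsa (map_nonneg' π hα)), ps_eq_zero_iff (by linarith) hα']
  -- κ dies
  have hκ : ψ (π (ct (x + 5 * L) (x + 6 * L) β)) = 0 := by
    rw [map_ct π (by linarith) (by linarith) (hsaA hβ), map_ct ψ (by linarith) (by linarith)
      (hsa (map_nonneg' π hβ))]
    exact ct_eq_zero (by linarith) (by linarith) hβ' (by linarith)
  have hsκ : ψ (π (CFC.sqrt (ct (x + 5 * L) (x + 6 * L) β))) = 0 := by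
    rw [map_sqrt' π (ct_nonneg _), map_sqrt' ψ (map_nonneg' π (ct_nonneg _)), hκ]
    simp
  set k := ct (x + 2 * L) (x + 3 * L) α with hk
  have hksa : star k = k := ct_sa _
  have h1 : ψ (π (XT k (star (Y * CFC.sqrt (ct (x + 5 * L) (x + 6 * L) β)) * star z * k) 64))
      = star (ψ (π k)) * ψ (π k) := by
    rw [map_XT, map_XT]
    unfold XT
    have : ψ (π (star (Y * CFC.sqrt (ct (x + 5 * L) (x + 6 * L) β)) * star z * k)) = 0 := by
      rw [star_mul, map_mul, map_mul, map_mul, map_mul, map_mul, map_mul, sqrt_sa, hsκ]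
      simp
    rw [this]; simp
  have h2 := congrArg ψ hπ
  rw [map_zero, map_ps π (by norm_num) (XT_sa _), map_ps ψ (by norm_num) (by rw [← map_star, XT_sa]), h1] at h2
  rw [ps_eq_zero_iff (by norm_num) (star_mul_self_nonneg _), CStarRing.norm_star_mul_self] at h2
  have h3 : ‖ψ (π k)‖ < 1 := by nlinarith [norm_nonneg (ψ (π k))]
  rw [hk, map_ct π (by linarith) (by linarith) (hsaA hα), map_ct ψ (by linarith) (by linarith)
      (hsa (map_nonneg' π hα))] at h3
  exact norm_le_of_norm_ct_lt_one (by linarith) (by linarith) hα' h3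

theorem le_of_sq_le_mul {a b c : ℝ} (ha : 0 ≤ a) (hb : 0 ≤ b) (hc : 0 < c) (h : a ^ 2 ≤ (1 / c ^ 2) * b ^ 2) :
    a ≤ (1 / c) * b := by
  have h1 : a ^ 2 ≤ ((1 / c) * b) ^ 2 := by
    rw [mul_pow, div_pow, one_pow]; exact h
  exact le_of_sq_le_sq h1 (by positivity) |> fun h => h

/-- the pointwise claim -/
theorem omC {z ω1 ω2 Y1 sκ k' k kH a5 : A} (hk's : star k' = k') (hks : star k = k) (hkHs : star kH = kH)
    (hk'k : k' * k = k) (hk'kH : k' * kH = kH) (hz : ‖z‖ ≤ 1) (hω1 : ‖ω1‖ ≤ 9 / 8) (hω2 : ‖ω2‖ ≤ 9 / 8)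
    (hsκ : ‖sκ‖ ≤ 1)
    {D1 : Type u} [NonUnitalCStarAlgebra D1] (π : A →⋆ₙₐ[ℂ] D1)
    (hfac : ∀ (Q : Type u) [NonUnitalCStarAlgebra Q] (φ : A →⋆ₙₐ[ℂ] Q),
      φ (ps (1 / 2) (XT k (star ω1 * star z * k) 64)) = 0 → ∃ ψ : D1 →⋆ₙₐ[ℂ] Q, ∀ a, φ a = ψ (π a))
    {w : D1} {τ : ℝ} (hτ : 0 < τ)
    (hS : ∀ (Q : Type u) [NonUnitalCStarAlgebra Q] (ψ : D1 →⋆ₙₐ[ℂ] Q),
      ψ (ps τ (XT (π kH) (star w * star (π (z * Y1)) * π kH) 256)) = 0 → ψ (π a5) = 0)
    (herr : ‖star (π ω2) - π sκ * star w * star (π Y1)‖ ≤ 1 / 16)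
    (Q : Type u) [NonUnitalCStarAlgebra Q] (φ : A →⋆ₙₐ[ℂ] Q)
    (hφ : φ (ps (1 / 10) (XT k' ((star ω1 + star ω2) * star z * k') (5 / 9))) = 0) : φ a5 = 0 := by
  have nφ : ∀ a : A, ‖φ a‖ ≤ ‖a‖ := norm_map_le φ
  have hX : ps (1 / 10) (XT (φ k') (φ (star ω1 * star z * k') + φ (star ω2 * star z * k')) (5 / 9)) = 0 := by
    rw [map_ps φ (by norm_num) (XT_sa _), map_XT, add_mul, add_mul, map_add] at hφ
    exact hφ
  have hk'Q : star (φ k') = φ k' := by rw [← map_star, hk's]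
  by_cases h1 : φ (ps (1 / 2) (XT k (star ω1 * star z * k) 64)) = 0
  · obtain ⟨ψ, hψ⟩ := hfac Q φ h1
    by_cases h2 : ψ (ps τ (XT (π kH) (star w * star (π (z * Y1)) * π kH) 256)) = 0
    · rw [hψ]; exact hS Q ψ h2
    · exfalso
      rw [map_ps ψ hτ.le (XT_sa _), map_XT] at h2
      obtain ⟨g1, g2⟩ := good_vec (k := ψ (π kH)) (by rw [← map_star, ← map_star, hkHs]) (by norm_num) hτ h2
      set T := ψ (star w * star (π (z * Y1)) * π kH) with hT
      set xv := ps τ (XT (ψ (π kH)) T 256) with hxv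
      set ξ := ψ (π kH) * xv with hξ
      have hξ' : ξ = φ kH * xv := by rw [hξ, hψ]
      have g2' : ‖T * xv‖ ≤ (1 / 16) * ‖ξ‖ := by
        apply le_of_sq_le_mul (norm_nonneg _) (norm_nonneg _) (by norm_num)
        norm_num at g2 ⊢
        exact g2
      apply g1
      have hkξ : φ k' * ξ = ξ := by rw [hξ', ← mul_assoc, ← map_mul, hk'kH]
      refine point hk'Q hX hkξ (a := 9 / 8) (b := 1 / 8) (by norm_num) (by norm_num) (by norm_num) ?_ ?_
      · have : φ (star ω1 * star z * k') * ξ = φ (star ω1) * φ (star z) * ξ := by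
          rw [map_mul, map_mul, mul_assoc, hkξ]
        rw [this]
        refine (norm_mul3_le _ _ _).trans ?_
        have a1 : ‖φ (star ω1)‖ ≤ 9 / 8 := (nφ _).trans (by rw [norm_star]; exact hω1)
        have a2 : ‖φ (star z)‖ ≤ 1 := (nφ _).trans (by rw [norm_star]; exact hz)
        have : ‖φ (star ω1)‖ * ‖φ (star z)‖ ≤ 9 / 8 := by nlinarith [norm_nonneg (φ (star ω1)), norm_nonneg (φ (star z))]
        exact mul_le_mul_of_nonneg_right this (norm_nonneg _)
      · set err := star (π ω2) - π sκ * star w * star (π Y1) with herr'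
        have e1 : φ (star ω2) = ψ (π sκ) * ψ (star w) * ψ (star (π Y1)) + ψ err := by
          rw [hψ, map_star π, herr', map_sub, map_mul, map_mul]
          abel
        have : φ (star ω2 * star z * k') * ξ = ψ (π sκ) * (T * xv) + ψ err * φ (star z) * ξ := by
          calc φ (star ω2 * star z * k') * ξ = φ (star ω2) * φ (star z) * ξ := by
                rw [map_mul, map_mul, mul_assoc, hkξ]
            _ = ψ (π sκ) * (ψ (star w) * (ψ (star (π Y1)) * φ (star z)) * ξ) + ψ err * φ (star z) * ξ := by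
                rw [e1]; noncomm_ring
            _ = _ := by
                congr 2
                rw [hT, map_mul, map_mul, map_mul π, star_mul, map_mul ψ, hξ, hψ (star z), map_star π z]
                noncomm_ring
        rw [this]
        have b1 : ‖ψ (π sκ)‖ ≤ 1 := (norm_map_le ψ _).trans ((norm_map_le π _).trans hsκ)
        have b2 : ‖ψ err‖ ≤ 1 / 16 := (norm_map_le ψ _).trans herr
        have b3 : ‖φ (star z)‖ ≤ 1 := (nφ _).trans (by rw [norm_star]; exact hz)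
        calc _ ≤ ‖ψ (π sκ) * (T * xv)‖ + ‖ψ err * φ (star z) * ξ‖ := norm_add_le _ _
          _ ≤ 1 * ((1 / 16) * ‖ξ‖) + (1 / 16) * ‖ξ‖ := by
              refine add_le_add ?_ ?_
              · exact (norm_mul_le _ _).trans (mul_le_mul b1 g2' (norm_nonneg _) (by norm_num))
              · refine (norm_mul3_le _ _ _).trans ?_
                have : ‖ψ err‖ * ‖φ (star z)‖ ≤ 1 / 16 := by nlinarith [norm_nonneg (ψ err), norm_nonneg (φ (star z))]
                exact mul_le_mul_of_nonneg_right this (norm_nonneg _)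
          _ = (1 / 8) * ‖ξ‖ := by ring
  · exfalso
    rw [map_ps φ (by norm_num) (XT_sa _), map_XT] at h1
    obtain ⟨g1, g2⟩ := good_vec (k := φ k) (by rw [← map_star, hks]) (by norm_num) (by norm_num) h1
    set T := φ (star ω1 * star z * k) with hT
    set xv := ps (1 / 2) (XT (φ k) T 64) with hxv
    set ξ := φ k * xv with hξ
    have g2' : ‖T * xv‖ ≤ (1 / 8) * ‖ξ‖ := by
      apply le_of_sq_le_mul (norm_nonneg _) (norm_nonneg _) (by norm_num)
      norm_num at g2 ⊢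
      exact g2
    apply g1
    have hkξ : φ k' * ξ = ξ := by rw [hξ, ← mul_assoc, ← map_mul, hk'k]
    refine point hk'Q hX hkξ (a := 1 / 8) (b := 9 / 8) (by norm_num) (by norm_num) (by norm_num) ?_ ?_
    · have : φ (star ω1 * star z * k') * ξ = T * xv := by
        rw [hT, hξ, ← mul_assoc, ← map_mul, mul_assoc (star ω1 * star z) k' k, hk'k]
      rw [this]; exact g2'
    · have : φ (star ω2 * star z * k') * ξ = φ (star ω2) * φ (star z) * ξ := by
        rw [map_mul, map_mul, mul_assoc, hkξ]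
      rw [this]
      refine (norm_mul3_le _ _ _).trans ?_
      have a1 : ‖φ (star ω2)‖ ≤ 9 / 8 := (nφ _).trans (by rw [norm_star]; exact hω2)
      have a2 : ‖φ (star z)‖ ≤ 1 := (nφ _).trans (by rw [norm_star]; exact hz)
      have : ‖φ (star ω2)‖ * ‖φ (star z)‖ ≤ 9 / 8 := by nlinarith [norm_nonneg (φ (star ω2)), norm_nonneg (φ (star z))]
      exact mul_le_mul_of_nonneg_right this (norm_nonneg _)

end Crest.Agent.R110
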