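import Crest.Agent.R110.SPrime
import Crest.Agent.R110.GOmB

/-!
# R110 piece GOm: the coherent superposition

Levels `λ_i = x + i L`, `c_i(·) = ct λ_i λ_{i+1} (·)`.
Construction.  `Y1,Y2,Y3` := `copies3_ct` with `(x, x+L, x+2L)` for `β` (`‖Y_i‖ ≤ 1`, `Y_i⋆Y_j ≈ δ_ij c_1(β)`).
`κ := c_5(β)`, `sκ := CFC.sqrt κ`;  `ω1 := Y1 sκ`.
`k := c_2(α)`, `X1 := XT k (ω1⋆ z⋆ k) 64`;  `π : A → D1` := `exists_quot (ps (1/2) X1)`.
Comparable: `Dom (ps λ3 πα) (ps λ3 πβ)`: if `ψ (ps λ3 πβ) = 0`, then `‖ψπβ‖ ≤ λ3`, `ψπκ = 0`, `ψπω1 = 0`, `ψπX1 = (ψπk)²`, `ps (1/2)` of it is `0`, `‖ψπk‖² ≤ 1/2 < 1`,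
`‖ψπα‖ ≤ λ3`.
`Sprime 256` in `D1` for `(ps λ3 πα, ps λ3 πβ, π (z Y2))`, `s = L`, small `ε2 ≤ 1/256`: `w`; note `ct L (2L) (ps λ3 πβ) = c_4(πβ)`, `ct (3L)(4L)(ps λ3 πα) = c_6(πα)`,
`ps (5L) (ps λ3 πα) = ps λ8 (πα)`.
`exists_lift`: `w̃`, `ŵ := c_2(β) w̃` (`π ŵ = w` by `Lev`).  `R := κ - sκ ŵ⋆ŵ sκ ≥ 0`, `sR := CFC.sqrt R`; `c_1(β) R = R`, `c_1(β) sR = sR`.
`ω2 := Y2 ŵ sκ + Y3 sR`.  `‖ω2⋆ω2 - κ‖ ≤ 4ε'`, `‖ω1⋆ω2‖ ≤ 2ε'`, `‖ω1⋆ω1 - κ‖ ≤ ε'`; `‖π R‖ ≤ ε2` (`sκ c_4 sκ = κ`), so `‖π (Y3 sR)‖² ≤ ε2`.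
Claim.  `k' := c_1(α)`, `T_i := ω_i⋆ z⋆ k'`.  Let `φ (ps (1/10) (XT k' (T1+T2) (5/9))) = 0`.
(a) if `φ (ps (1/2) X1) ≠ 0`: `good_vec` (M = 64): `x`, `ξ := φ(k) x ≠ 0`, `‖T1 ξ‖ ≤ (1/8)‖ξ‖`, `‖T2 ξ‖ ≤ (9/8)‖ξ‖` : `point` gives `ξ = 0`, contradiction.
(b) else `φ = ψ ∘ π`; if `ψ (ps τ (XT kH (w⋆ (π(zY2))⋆ kH) 256)) = 0` then `φ (ps λ8 α) = 0`; else `good_vec` (M = 256): `ξ := φ(c_6(α)) x ≠ 0`, `k'ξ = ξ`,
`T2 ξ = φ(sκ) (w⋆ (π(zY2))⋆ kH) x + φ(sR Y3⋆) z⋆ ξ`, norm `≤ (1/16 + 1/16)‖ξ‖`, `‖T1 ξ‖ ≤ ‖ξ‖`: `point` gives `ξ = 0`, contradiction.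
-/

set_option autoImplicit false
set_option linter.unusedVariables false

namespace Crest.Agent.R110

universe u
variable {A : Type u} [NonUnitalCStarAlgebra A]

theorem Lev.mul_right {b w : A} (h : Lev b w) (y : A) : Lev b (w * y) := fun c hc => by
  rw [← mul_assoc, h c hc]

theorem Lev.add {b w w' : A} (h : Lev b w) (h' : Lev b w') : Lev b (w + w') := fun c hc => by
  rw [mul_add, h c hc, h' c hc]

set_option maxHeartbeats 4000000 in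
theorem exists_omega (hA : PI A) {α β z : A} (hα : 0 ≤ α) (hαn : ‖α‖ ≤ 1) (hβ : 0 ≤ β) (hβn : ‖β‖ ≤ 1) (hz : ‖z‖ ≤ 1)
    {x L : ℝ} (hx : 0 ≤ x) (hL : 0 < L) (ε : ℝ) (hε : 0 < ε) :
    ∃ ω1 ω2 : A, Lev (ps x β) ω1 ∧ Lev (ps x β) ω2 ∧
      ‖star ω1 * ω1 - ct (x + 5 * L) (x + 6 * L) β‖ ≤ ε ∧ ‖star ω2 * ω2 - ct (x + 5 * L) (x + 6 * L) β‖ ≤ ε ∧
      ‖star ω1 * ω2‖ ≤ ε ∧
      ∀ (Q : Type u) [NonUnitalCStarAlgebra Q] (φ : A →⋆ₙₐ[ℂ] Q),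
        φ (ps (1 / 10) (XT (ct (x + L) (x + 2 * L) α)
          ((star ω1 + star ω2) * star z * ct (x + L) (x + 2 * L) α) (5 / 9))) = 0 →
        φ (ps (x + 8 * L) α) = 0 := by
  have sa : ∀ {B : Type u} [NonUnitalCStarAlgebra B] {a : B}, 0 ≤ a → star a = a :=
    fun h => h.isSelfAdjoint.star_eq
  set e : ℝ := min (ε / 4) (1 / 32) with he
  have he0 : 0 < e := lt_min (by linarith) (by norm_num)
  have heε : 4 * e ≤ ε := by
    have := min_le_left (ε / 4) (1 / 32); linarith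
  have he32 : e ≤ 1 / 32 := min_le_right _ _
  obtain ⟨Y, hY1, hYL, hYY, hYo⟩ := copies3_ct hA hβ hx (show x < x + L by linarith)
    (show x + L < x + 2 * L by linarith) e he0
  set c1 := ct (x + L) (x + 2 * L) β with hc1
  set κ := ct (x + 5 * L) (x + 6 * L) β with hκ
  have hc1s : star c1 = c1 := ct_sa _
  have hκ0 : 0 ≤ κ := ct_nonneg _
  have hκ1 : ‖κ‖ ≤ 1 := norm_ct_le _
  have hcκ : c1 * κ = κ := ct_mul_ct (by linarith) (by linarith) (by linarith) (by linarith) hβ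
  set sκ := CFC.sqrt κ with hsκ
  have hsκκ : sκ * sκ = κ := CFC.sqrt_mul_sqrt_self κ hκ0
  have hsκs : star sκ = sκ := sqrt_sa κ
  have hsκ1 : ‖sκ‖ ≤ 1 := norm_sqrt_le_one hκ0 hκ1
  have hcsκ : c1 * sκ = sκ := mul_sqrt_of_mul hκ0 hcκ
  set ω1 := Y 0 * sκ with hω1
  set k := ct (x + 2 * L) (x + 3 * L) α with hk
  set k' := ct (x + L) (x + 2 * L) α with hk'
  set kH := ct (x + 6 * L) (x + 7 * L) α with hkH
  obtain ⟨D1, iD, π, hsurj, hkill, hfac⟩ := exists_quot (ps (1 / 2) (XT k (star ω1 * star z * k) 64))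
  have hPD : PI D1 := PI.of_surj hA π hsurj
  have hdom : Dom (ps (x + 3 * L) (π α)) (ps (x + 3 * L) (π β)) := by
    apply omB (z := z) (Y := Y 0) (κ := κ) hα hβ hx hL D1 π
    exact hkill
  have hπα : 0 ≤ π α := map_nonneg' π hα
  have hπβ : 0 ≤ π β := map_nonneg' π hβ
  have hπαn : ‖π α‖ ≤ 1 := (norm_map_le π α).trans hαn
  have hπβn : ‖π β‖ ≤ 1 := (norm_map_le π β).trans hβn
  obtain ⟨τ, hτ, hS⟩ := Sprime (M := 256) (by norm_num)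
  have hzY : ‖π (z * Y 1)‖ ≤ 1 := (norm_map_le π _).trans ((norm_mul_le _ _).trans (by
    nlinarith [norm_nonneg z, norm_nonneg (Y 1), hY1 1]))
  obtain ⟨w, hw1, hwL, hww, hwS⟩ := hS D1 hPD (ps (x + 3 * L) (π α)) (ps (x + 3 * L) (π β)) (π (z * Y 1))
    (ps_nonneg _) ((norm_ps_le (by linarith) (sa hπα)).trans hπαn) (ps_nonneg _)
    ((norm_ps_le (by linarith) (sa hπβ)).trans hπβn) hzY hdom L hL (1 / 256) (by norm_num)
  have r1 : ct L (2 * L) (ps (x + 3 * L) (π β)) = ct (x + 4 * L) (x + 5 * L) (π β) := by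
    rw [ct_ps hL.le (by linarith) (by linarith) hπβ]; congr 1 <;> ring
  have r2 : ct (3 * L) (4 * L) (ps (x + 3 * L) (π α)) = π kH := by
    rw [ct_ps (by linarith) (by linarith) (by linarith) hπα, hkH, map_ct π (by linarith) (by linarith) (sa hα)]
    congr 1 <;> ring
  have r3 : ps (5 * L) (ps (x + 3 * L) (π α)) = π (ps (x + 8 * L) α) := by
    rw [ps_ps (by linarith) (by linarith) hπα, map_ps π (by linarith) (sa hα)]
    congr 1; ring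
  rw [r1] at hww
  rw [r2, r3] at hwS
  -- lift
  obtain ⟨wt, hwt, hwt1⟩ := exists_lift π hsurj w hw1
  set c2 := ct (x + 2 * L) (x + 3 * L) β with hc2
  set wh := c2 * wt with hwh
  have hπwh : π wh = w := by
    rw [hwh, map_mul, hwt, hc2, map_ct π (by linarith) (by linarith) (sa hβ)]
    exact hwL _ (ct_mul_ps (by linarith) (by linarith) le_rfl hπβ)
  have hwh1 : ‖wh‖ ≤ 1 := (norm_mul_le _ _).trans (by
    have := norm_ct_le (x := x + 2 * L) (y := x + 3 * L) β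
    nlinarith [norm_nonneg c2, norm_nonneg wt])
  have hcwh : c1 * wh = wh := by
    rw [hwh, ← mul_assoc, hc1, hc2, ct_mul_ct (by linarith) (by linarith) le_rfl (by linarith) hβ]
  obtain ⟨hR0, hR1, hω22⟩ := omA (Y1 := Y 1) (Y2 := Y 2) (c := c1) (κ := κ) (w := wh) hc1s (hY1 1) (hY1 2)
    (hYY 1).le (hYY 2).le (hYo 1 2 (by decide)).le hκ0 hκ1 hcκ hwh1 hcwh
  rw [← hsκ] at hR0 hR1 hω22
  set R := κ - sκ * (star wh * wh) * sκ with hR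
  set sR := CFC.sqrt R with hsR
  have hsRs : star sR = sR := sqrt_sa R
  have hsR1 : ‖sR‖ ≤ 1 := norm_sqrt_le_one hR0 hR1
  set ω2 := Y 1 * wh * sκ + Y 2 * sR with hω2
  -- norms of ω
  have hω11 : ‖star ω1 * ω1 - κ‖ ≤ e := by
    have : star ω1 * ω1 - κ = sκ * (star (Y 0) * Y 0 - c1) * sκ := by
      have h1 : sκ * c1 * sκ = κ := by rw [mul_assoc, hcsκ, hsκκ]
      calc star ω1 * ω1 - κ = sκ * (star (Y 0) * Y 0) * sκ - κ := by
            rw [hω1, star_mul, hsκs]; noncomm_ring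
        _ = sκ * (star (Y 0) * Y 0) * sκ - sκ * c1 * sκ := by rw [h1]
        _ = _ := by noncomm_ring
    rw [this]
    refine (norm_mul3_le _ _ _).trans ?_
    have h2 := (hYY 0).le
    have : ‖sκ‖ * ‖star (Y 0) * Y 0 - c1‖ ≤ e := by nlinarith [norm_nonneg sκ, norm_nonneg (star (Y 0) * Y 0 - c1)]
    nlinarith [norm_nonneg sκ, mul_nonneg (norm_nonneg sκ) (norm_nonneg (star (Y 0) * Y 0 - c1))]
  have hnω1 : ‖ω1‖ ≤ 1 := (norm_mul_le _ _).trans (by nlinarith [norm_nonneg (Y 0), norm_nonneg sκ, hY1 0])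
  have hnω2 : ‖ω2‖ ≤ 9 / 8 := by
    have h1 : ‖star ω2 * ω2‖ ≤ 1 + 4 * e := by
      calc ‖star ω2 * ω2‖ = ‖(star ω2 * ω2 - κ) + κ‖ := by rw [sub_add_cancel]
        _ ≤ ‖star ω2 * ω2 - κ‖ + ‖κ‖ := norm_add_le _ _
        _ ≤ 4 * e + 1 := add_le_add hω22 hκ1
        _ = _ := by ring
    rw [CStarRing.norm_star_mul_self] at h1
    nlinarith [norm_nonneg ω2]
  have hω12 : ‖star ω1 * ω2‖ ≤ 2 * e := by
    have h1 : star ω1 * ω2 = sκ * (star (Y 0) * Y 1) * (wh * sκ) + sκ * (star (Y 0) * Y 2) * sR := by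
      rw [hω1, hω2, star_mul, hsκs]; noncomm_ring
    rw [h1]
    have b3 : ∀ a b d : A, ‖a‖ ≤ 1 → ‖b‖ ≤ e → ‖d‖ ≤ 1 → ‖a * b * d‖ ≤ e := by
      intro a b d ha hb hd
      refine (norm_mul3_le a b d).trans ?_
      have : ‖a‖ * ‖b‖ ≤ e := by nlinarith [norm_nonneg a, norm_nonneg b]
      nlinarith [norm_nonneg d, mul_nonneg (norm_nonneg a) (norm_nonneg b)]
    have hws : ‖wh * sκ‖ ≤ 1 := (norm_mul_le _ _).trans (by nlinarith [norm_nonneg sκ, norm_nonneg wh])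
    calc _ ≤ ‖sκ * (star (Y 0) * Y 1) * (wh * sκ)‖ + ‖sκ * (star (Y 0) * Y 2) * sR‖ := norm_add_le _ _
      _ ≤ e + e := add_le_add (b3 _ _ _ hsκ1 (hYo 0 1 (by decide)).le hws)
          (b3 _ _ _ hsκ1 (hYo 0 2 (by decide)).le hsR1)
      _ = 2 * e := by ring
  -- R is small in D1
  have hπR : ‖π R‖ ≤ 1 / 256 := by
    have hπsκ : ‖π sκ‖ ≤ 1 := (norm_map_le π _).trans hsκ1
    have h4 : ct (x + 4 * L) (x + 5 * L) (π β) * π sκ = π sκ := by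
      rw [← map_ct π (by linarith) (by linarith) (sa hβ), ← map_mul]
      congr 1
      exact mul_sqrt_of_mul hκ0 (ct_mul_ct (by linarith) (by linarith) le_rfl (by linarith) hβ)
    have h5 : π R = π sκ * (ct (x + 4 * L) (x + 5 * L) (π β) - star w * w) * π sκ := by
      calc π R = π sκ * π sκ - π sκ * (star w * w) * π sκ := by
            rw [hR, ← hsκκ]; simp only [map_sub, map_mul, map_star, hπwh]
        _ = π sκ * (ct (x + 4 * L) (x + 5 * L) (π β) * π sκ) - π sκ * (star w * w) * π sκ := by rw [h4]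
        _ = _ := by noncomm_ring
    rw [h5]
    refine (norm_mul3_le _ _ _).trans ?_
    have h6 : ‖ct (x + 4 * L) (x + 5 * L) (π β) - star w * w‖ ≤ 1 / 256 := by rw [norm_sub_rev]; exact hww
    have : ‖π sκ‖ * ‖ct (x + 4 * L) (x + 5 * L) (π β) - star w * w‖ ≤ 1 / 256 := by
      nlinarith [norm_nonneg (π sκ), norm_nonneg (ct (x + 4 * L) (x + 5 * L) (π β) - star w * w)]
    nlinarith [norm_nonneg (π sκ), mul_nonneg (norm_nonneg (π sκ)) (norm_nonneg (ct (x + 4 * L) (x + 5 * L) (π β) - star w * w))]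
  have hπsR : ‖π sR‖ ≤ 1 / 16 := by
    have h1 : ‖π sR‖ * ‖π sR‖ = ‖π R‖ := by
      rw [← CStarRing.norm_star_mul_self, ← map_star, hsRs, ← map_mul]
      congr 2
      exact CFC.sqrt_mul_sqrt_self R hR0
    nlinarith [norm_nonneg (π sR)]
  have herr : ‖star (π ω2) - π sκ * star w * star (π (Y 1))‖ ≤ 1 / 16 := by
    have h1 : star (π ω2) - π sκ * star w * star (π (Y 1)) = π sR * star (π (Y 2)) := by
      have q1 : π (Y 1 * wh * sκ) = π (Y 1) * w * π sκ := by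
        rw [map_mul π (Y 1 * wh) sκ, map_mul π (Y 1) wh, hπwh]
      rw [hω2, map_add, q1, map_mul π (Y 2) sR, star_add, star_mul, star_mul, star_mul,
        ← map_star π sκ, hsκs, ← map_star π sR, hsRs]
      noncomm_ring
    rw [h1]
    refine (norm_mul_le _ _).trans ?_
    have h2 : ‖star (π (Y 2))‖ ≤ 1 := by rw [norm_star]; exact (norm_map_le π _).trans (hY1 2)
    nlinarith [norm_nonneg (π sR), norm_nonneg (star (π (Y 2)))]
  refine ⟨ω1, ω2, (hYL 0).mul_right _, ((hYL 1).mul_right _ |>.mul_right _).add ((hYL 2).mul_right _),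
    by linarith, by linarith, by linarith, ?_⟩
  intro Q _ φ hφ
  exact omC (k' := k') (k := k) (kH := kH) (sκ := sκ) (Y1 := Y 1) (ct_sa _) (ct_sa _) (ct_sa _)
    (ct_mul_ct (by linarith) (by linarith) le_rfl (by linarith) hα)
    (ct_mul_ct (by linarith) (by linarith) (by linarith) (by linarith) hα) hz (hnω1.trans (by norm_num)) hnω2
    hsκ1 π (fun Q _ φ h => hfac Q φ h) hτ (fun Q _ ψ h => hwS Q ψ h) herr Q φ hφ

end Crest.Agent.R110
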