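import Crest.Agent.R110.KCmp

/-!
# R110 piece GPoint: pointwise lemmas of the general case

`point`: `conj_le_of_ps_eq_zero` with `x = ξ`: `ξ⋆ξ - (5/9) |(T1+T2)ξ|² ≤ (1/10) ξ⋆ξ` (using `k'ξ = ξ`), so `(9/10)‖ξ‖² ≤ (5/9)(a+b)²‖ξ‖² ≤ (125/144)‖ξ‖²`.
`good_vec`: `x := ps τ X`, `ps_conj_ge`: `τ x² ≤ x X x = |kx|² - M |Tx|²`.
`exists_v`: `V := ps (1/10) X`, `b := star (k' V) * (k' V)`; `Dom V b` (if `φ(k'V) = 0` then `(1/10) φ(V)² ≤ φ(V X V) = - (5/9)|φ(T V)|² ≤ 0`), so `Dom a b`,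
`compare`: `d`; `m := V d`; `d⋆ V X V d ≥ 0` gives `(5/9) |T m|² ≤ |k' m|²`.
-/

set_option autoImplicit false

namespace Crest.Agent.R110

universe u
variable {Q : Type u} [NonUnitalCStarAlgebra Q]

/-- `ξ⋆ X ξ = |kξ|² - M |Tξ|²` -/
theorem gp_conj_XT (k T ξ : Q) (M : ℝ) :
    star ξ * XT k T M * ξ = star (k * ξ) * (k * ξ) - M • (star (T * ξ) * (T * ξ)) := by
  unfold XT
  simp only [mul_sub, sub_mul, mul_smul_comm, smul_mul_assoc, star_mul, mul_assoc]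

theorem gp_XT_sa (k T : Q) (M : ℝ) : star (XT k T M) = XT k T M := by
  unfold XT
  simp

theorem point {k' T1 T2 ξ : Q} (hk : star k' = k') (h : ps (1 / 10) (XT k' (T1 + T2) (5 / 9)) = 0)
    (hξ : k' * ξ = ξ) {a b : ℝ} (ha : 0 ≤ a) (hb : 0 ≤ b) (hab : a + b ≤ 5 / 4)
    (h1 : ‖T1 * ξ‖ ≤ a * ‖ξ‖) (h2 : ‖T2 * ξ‖ ≤ b * ‖ξ‖) : ξ = 0 := by
  have h3 := conj_le_of_ps_eq_zero (by norm_num : (0 : ℝ) ≤ 1 / 10) (gp_XT_sa k' (T1 + T2) (5 / 9)) h ξ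
  rw [gp_conj_XT, hξ] at h3
  have h4 : star ξ * ξ ≤ (50 / 81 : ℝ) • (star ((T1 + T2) * ξ) * ((T1 + T2) * ξ)) := by
    have h5 : (9 / 10 : ℝ) • (star ξ * ξ) ≤ (5 / 9 : ℝ) • (star ((T1 + T2) * ξ) * ((T1 + T2) * ξ)) := by
      rw [sub_le_iff_le_add] at h3
      have e : (9 / 10 : ℝ) • (star ξ * ξ) = star ξ * ξ - (1 / 10 : ℝ) • (star ξ * ξ) := by
        rw [eq_sub_iff_add_eq, ← add_smul]; norm_num
      rw [e, sub_le_iff_le_add, add_comm]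
      exact h3
    have h6 := smul_le_smul_of_nonneg_left h5 (by norm_num : (0 : ℝ) ≤ 10 / 9)
    rw [smul_smul, smul_smul, show (10 / 9 : ℝ) * (9 / 10) = 1 by norm_num,
      show (10 / 9 : ℝ) * (5 / 9) = 50 / 81 by norm_num, one_smul] at h6
    exact h6
  have h7 := norm_sq_le_of_star_mul_le (by norm_num : (0 : ℝ) ≤ 50 / 81) h4
  have h8 : ‖(T1 + T2) * ξ‖ ≤ (5 / 4) * ‖ξ‖ := by
    calc ‖(T1 + T2) * ξ‖ = ‖T1 * ξ + T2 * ξ‖ := by rw [add_mul]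
      _ ≤ ‖T1 * ξ‖ + ‖T2 * ξ‖ := norm_add_le _ _
      _ ≤ a * ‖ξ‖ + b * ‖ξ‖ := add_le_add h1 h2
      _ = (a + b) * ‖ξ‖ := by ring
      _ ≤ (5 / 4) * ‖ξ‖ := mul_le_mul_of_nonneg_right hab (norm_nonneg _)
  have h9 : ‖(T1 + T2) * ξ‖ ^ 2 ≤ ((5 / 4) * ‖ξ‖) ^ 2 := pow_le_pow_left₀ (norm_nonneg _) h8 2
  have h10 : ‖ξ‖ ^ 2 ≤ 0 := by nlinarith
  have h11 : ‖ξ‖ = 0 := by
    have : ‖ξ‖ ^ 2 = 0 := le_antisymm h10 (sq_nonneg _)
    exact pow_eq_zero_iff (two_ne_zero) |>.mp this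
  exact norm_eq_zero.mp h11

theorem good_vec {k T : Q} (hk : star k = k) {M τ : ℝ} (hM : 0 < M) (hτ : 0 < τ) (h : ps τ (XT k T M) ≠ 0) :
    k * ps τ (XT k T M) ≠ 0 ∧ ‖T * ps τ (XT k T M)‖ ^ 2 ≤ (1 / M) * ‖k * ps τ (XT k T M)‖ ^ 2 := by
  have h1 := ps_conj_ge hτ.le (gp_XT_sa k T M)
  set x := ps τ (XT k T M) with hx
  have hxs : star x = x := ps_sa _
  have e : x * XT k T M * x = star (k * x) * (k * x) - M • (star (T * x) * (T * x)) := by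
    rw [← gp_conj_XT, hxs]
  rw [e] at h1
  have hxx : (0 : Q) ≤ x * x := by
    have := star_mul_self_nonneg x
    rwa [hxs] at this
  refine ⟨fun h0 => ?_, ?_⟩
  · rw [h0, mul_zero, zero_sub] at h1
    have h2 : (0 : Q) ≤ M • (star (T * x) * (T * x)) := smul_nonneg hM.le (star_mul_self_nonneg _)
    have h3 : τ • (x * x) ≤ 0 := h1.trans (neg_nonpos.mpr h2)
    have h4 : τ • (x * x) = 0 := le_antisymm h3 (smul_nonneg hτ.le hxx)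
    have h5 : x * x = 0 := (smul_eq_zero.mp h4).resolve_left hτ.ne'
    have h6 : star x * x = 0 := by rw [hxs]; exact h5
    exact h (CStarRing.star_mul_self_eq_zero_iff _ |>.mp h6)
  · have h2 : M • (star (T * x) * (T * x)) ≤ star (k * x) * (k * x) := by
      have h3 : 0 ≤ star (k * x) * (k * x) - M • (star (T * x) * (T * x)) :=
        (smul_nonneg hτ.le hxx).trans h1
      exact sub_nonneg.mp h3
    apply norm_sq_le_of_star_mul_le (by positivity)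
    have h6 := smul_le_smul_of_nonneg_left h2 (by positivity : (0 : ℝ) ≤ 1 / M)
    rw [smul_smul, one_div, inv_mul_cancel₀ hM.ne', one_smul] at h6
    rw [one_div]
    exact h6

end Crest.Agent.R110
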