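import Crest.Agent.R110.KCmp

/-!
# R110 piece Glue (Theorem S', gluing of the two schemes)

`kH := ct (3s) (4s) α`, `x3 := ct (2s) (3s) α` (`x3 kH = kH`), `a4 := ps (4s) α` (`a4 kH = a4`).
Proof.  `X̂ := XT kH (w0⋆ z⋆ kH) M`, `V̂ := ps τ X̂`.  In `D'`: `Dom (π a4) (π V̂)`: if `ψ (π V̂) = 0` then (`h2`) `‖ψ (π kH)‖² ≤ 1/2 < 1`, so
`‖ψ π α‖ ≤ 4s`, `ψ π a4 = 0`.  `compare` in `D'` (`PI.of_surj`): `r1`, `‖r1⋆ (π V̂) r1 - π a4‖ < ε` (`ε := s/8`); lift `r1` to `r`;
`exists_near_ker` for `x := a4 - r⋆ V̂ r`: `j`, `π j = 0`, `‖x - j‖ ≤ ε`.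
`e := exists_unit j ε` : `‖j - j e‖ ≤ ε`, `π e = 0` (`Dom e j`).
`q := star w0 * star z * kH * e` (`π q = 0`);  left unit `f` for `q`: `‖q - f q‖ ≤ η`, `π f = 0`;  NOTE `star (w0 - w0 f) = (1-f) star w0` (`f` selfadjoint).
`W := yA yA⋆ + wf wf⋆`, `wf := w0 - w0 f`.
(A) `φ (ps (1/8) W) = 0 ⇒ ‖φ W‖ ≤ 1/8 ⇒ ‖φ (yA yA⋆)‖ ≤ 1/8 ⇒ φ (ps (1/4) (yA yA⋆)) = 0 ⇒ φ = ψ ∘ π, φ f = 0, φ wf = φ w0, ‖φ w0‖² ≤ 1/8 ⇒ φ (ps s β) = 0`.
(B) let `φ (ps (τ/2) X) = 0`, `X := kH kH - M • (kH z W z⋆ kH)`.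
  (B1) `X ≥ X̂ - M η²`-wise: `wf wf⋆ = w0 (1-f)² w0⋆ ≤ w0 w0⋆`, `‖kH z yA yA⋆ z⋆ kH‖ ≤ η²` (`kH z yA = kH x3 z yA`);
     so (`ps_eq_zero_of_le_add`, `Mη² ≤ τ/4`) `φ V̂ = 0`.
  (B2) conjugating `X ≤ τ/2` by `e`: `‖φ(kH e)‖² ≤ τ/2 + M (‖yA⋆z⋆kH e‖² + ‖wf⋆z⋆kH e‖²) ≤ τ/2 + 2Mη² ≤ τ ≤ 1/4`.
  (B3) `φ a4 ≈_ε φ j` , `‖φ a4 - φ a4 φ e‖ ≤ 2ε + ε`, `‖φ a4 φ e‖ = ‖φ a4 φ (kH e)‖ ≤ ‖φ a4‖/2`; so `‖φ a4‖ ≤ 6ε ≤ s`, `φ (ps (5s) α) = ps s (φ a4) = 0`.
-/

set_option autoImplicit false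

namespace Crest.Agent.R110

universe u

section aux
variable {A B : Type u} [NonUnitalCStarAlgebra A] [NonUnitalCStarAlgebra B]

theorem glue_map_nonneg (φ : A →⋆ₙₐ[ℂ] B) {a : A} (ha : 0 ≤ a) : 0 ≤ φ a := by
  have := map_mono φ ha
  rwa [map_zero] at this

theorem glue_sq_le {f : A} (h0 : 0 ≤ f) (h1 : ‖f‖ ≤ 1) : f * f ≤ f := by
  have hs : CFC.sqrt f * CFC.sqrt f = f := CFC.sqrt_mul_sqrt_self f h0
  have hsa : star (CFC.sqrt f) = CFC.sqrt f :=
    (IsSelfAdjoint.of_nonneg (CFC.sqrt_nonneg f)).star_eq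
  have h2 := CStarAlgebra.star_left_conjugate_le_norm_smul (a := CFC.sqrt f) (b := f)
    (IsSelfAdjoint.of_nonneg h0)
  rw [hsa, hs] at h2
  have h3' : ∀ t : A, t * t = f → t * f * t = f * f := by
    intro t ht
    rw [← ht]
    simp only [mul_assoc]
  have h3 := h3' _ hs
  rw [h3] at h2
  refine h2.trans ?_
  have h4 : 0 ≤ (1 - ‖f‖) • f := smul_nonneg (by linarith) h0
  rw [sub_smul, one_smul] at h4
  exact sub_nonneg.1 h4

/-- `w (1-f)² w⋆ ≤ w w⋆` -/
theorem glue_conj_le {f w : A} (h0 : 0 ≤ f) (h1 : ‖f‖ ≤ 1) :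
    (w - w * f) * star (w - w * f) ≤ w * star w := by
  have hf : star f = f := (IsSelfAdjoint.of_nonneg h0).star_eq
  have e : w * star w - (w - w * f) * star (w - w * f) =
      w * (f - f * f) * star w + w * f * star w := by
    rw [star_sub, star_mul, hf]
    noncomm_ring
  have h2 : 0 ≤ w * (f - f * f) * star w + w * f * star w :=
    add_nonneg (star_right_conjugate_nonneg (sub_nonneg.2 (glue_sq_le h0 h1)) w)
      (star_right_conjugate_nonneg h0 w)
  rw [← e] at h2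
  exact sub_nonneg.1 h2

theorem glue_norm_sq (x : A) : ‖x * star x‖ = ‖x‖ ^ 2 := by
  rw [CStarRing.norm_self_mul_star, sq]

theorem glue_norm_sq' (x : A) : ‖star x * x‖ = ‖x‖ ^ 2 := by
  rw [CStarRing.norm_star_mul_self, sq]

end aux

variable {D D' : Type u} [NonUnitalCStarAlgebra D] [NonUnitalCStarAlgebra D']

set_option maxHeartbeats 2000000 in
theorem glue (hD : PI D) {α β z : D} (hα : 0 ≤ α) (hβ : 0 ≤ β) (hαn : ‖α‖ ≤ 1) (hβn : ‖β‖ ≤ 1) (hz : ‖z‖ ≤ 1)
    {s M τ η : ℝ} (hs : 0 < s) (hM : 1 ≤ M) (hτ : 0 < τ) (hτ8 : τ ≤ 1 / 8) (hη : 0 < η) (hMη : M * η ^ 2 ≤ τ / 4)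
    {yA : D} (hyA : ‖ct (2 * s) (3 * s) α * z * yA‖ ≤ η)
    (π : D →⋆ₙₐ[ℂ] D') (hπ : Function.Surjective π)
    (hker : ∀ (Q : Type u) [NonUnitalCStarAlgebra Q] (φ : D →⋆ₙₐ[ℂ] Q), φ (ps (1 / 4) (yA * star yA)) = 0 →
      ∃ ψ : D' →⋆ₙₐ[ℂ] Q, ∀ a, φ a = ψ (π a))
    {w0 : D}
    (h1 : ∀ (Q : Type u) [NonUnitalCStarAlgebra Q] (ψ : D' →⋆ₙₐ[ℂ] Q), ‖ψ (π w0)‖ ^ 2 ≤ 1 / 2 → ψ (π (ps s β)) = 0)
    (h2 : ∀ (Q : Type u) [NonUnitalCStarAlgebra Q] (ψ : D' →⋆ₙₐ[ℂ] Q),
      ψ (π (ps τ (XT (ct (3 * s) (4 * s) α) (star w0 * star z * ct (3 * s) (4 * s) α) M))) = 0 →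
        ‖ψ (π (ct (3 * s) (4 * s) α))‖ ^ 2 ≤ 1 / 2) :
    ∃ f : D, star f = f ∧
      (∀ (Q : Type u) [NonUnitalCStarAlgebra Q] (φ : D →⋆ₙₐ[ℂ] Q),
        φ (ps (1 / 8) (yA * star yA + (w0 - w0 * f) * star (w0 - w0 * f))) = 0 → φ (ps s β) = 0) ∧
      (∀ (Q : Type u) [NonUnitalCStarAlgebra Q] (φ : D →⋆ₙₐ[ℂ] Q),
        φ (ps (τ / 2) (ct (3 * s) (4 * s) α * ct (3 * s) (4 * s) α -
          M • (ct (3 * s) (4 * s) α * z * (yA * star yA + (w0 - w0 * f) * star (w0 - w0 * f)) * star z *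
            ct (3 * s) (4 * s) α))) = 0 → φ (ps (5 * s) α) = 0) := by
  set kH := ct (3 * s) (4 * s) α with hkH
  have hkHsa : star kH = kH := ct_sa α
  have hkHn : ‖kH‖ ≤ 1 := norm_ct_le α
  set X1 := XT kH (star w0 * star z * kH) M with hX1
  set V1 := ps τ X1 with hV1
  set a4 := ps (4 * s) α with ha4
  have hsaα : star α = α := (IsSelfAdjoint.of_nonneg hα).star_eq
  have h4kH : a4 * kH = a4 := ps_mul_ct (by positivity) (by linarith) le_rfl hα
  have hkx : kH * ct (2 * s) (3 * s) α = kH :=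
    ct_mul_ct' (by positivity) (by linarith) le_rfl (by linarith) hα
  have hX1e : X1 = kH * kH - M • (kH * z * (w0 * star w0) * star z * kH) := by
    rw [hX1, XT]
    simp only [star_mul, star_star, hkHsa]
    congr 2
    simp only [mul_assoc]
  have hWsa : ∀ P : D, star P = P → star (kH * kH - M • (kH * z * P * star z * kH)) =
      kH * kH - M • (kH * z * P * star z * kH) := by
    intro P hP
    simp only [star_sub, star_smul, star_mul, star_star, hkHsa, hP, star_trivial]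
    simp only [mul_assoc]
  have hX1sa : star X1 = X1 := by
    rw [hX1e]; exact hWsa _ (by rw [star_mul, star_star])
  have hα' : ∀ (Q : Type u) [NonUnitalCStarAlgebra Q] (φ : D →⋆ₙₐ[ℂ] Q), 0 ≤ φ α :=
    fun Q _ φ => glue_map_nonneg φ hα
  have hDom : Dom (π a4) (π V1) := by
    intro Q _ ψ hψ
    have e1 := h2 Q ψ hψ
    have hπα : 0 ≤ π α := glue_map_nonneg π hα
    have hψα : 0 ≤ ψ (π α) := glue_map_nonneg ψ hπα
    have hsaπ : star (π α) = π α := (IsSelfAdjoint.of_nonneg hπα).star_eq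
    have e2 : ψ (π kH) = ct (3 * s) (4 * s) (ψ (π α)) := by
      rw [hkH, map_ct π (by positivity) (by linarith) hsaα,
        map_ct ψ (by positivity) (by linarith) hsaπ]
    have e3 : ψ (π a4) = ps (4 * s) (ψ (π α)) := by
      rw [ha4, map_ps π (by positivity) hsaα, map_ps ψ (by positivity) hsaπ]
    rw [e3, ps_eq_zero_iff (by positivity) hψα]
    refine norm_le_of_norm_ct_lt_one (x := 3 * s) (by positivity) (by linarith) hψα ?_
    rw [← e2]
    nlinarith [norm_nonneg (ψ (π kH))]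
  have hε : 0 < s / 8 := by positivity
  obtain ⟨r1, hr1⟩ := compare (hD.of_surj π hπ) (glue_map_nonneg π (ps_nonneg α))
    (glue_map_nonneg π (ps_nonneg X1)) hDom (s / 8) hε
  obtain ⟨r, rfl⟩ := hπ r1
  have hxsa : star (a4 - star r * V1 * r) = a4 - star r * V1 * r := by
    rw [star_sub, ha4, ps_sa, star_mul, star_mul, star_star, hV1, ps_sa, mul_assoc]
  have hxn : ‖π (a4 - star r * V1 * r)‖ ≤ s / 8 := by
    rw [map_sub, map_mul, map_mul, map_star, ← norm_neg, neg_sub]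
    exact hr1.le
  obtain ⟨j, hjsa, hπj, hjn⟩ := exists_near_ker π hxsa hxn
  obtain ⟨e, he0, he1, hje, hDe⟩ := exists_unit j (s / 8) hε
  have hπe : π e = 0 := hDe D' π hπj
  have hesa : star e = e := (IsSelfAdjoint.of_nonneg he0).star_eq
  set q := star w0 * star z * kH * e with hq
  have hπq : π q = 0 := by rw [hq, map_mul, hπe, mul_zero]
  obtain ⟨f, hf0, hf1, hqf, hDf⟩ := exists_left_unit q η hη
  have hπf : π f = 0 := hDf D' π hπq
  have hfsa : star f = f := (IsSelfAdjoint.of_nonneg hf0).star_eq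
  refine ⟨f, hfsa, ?_, ?_⟩
  · -- (A)
    intro Q _ φ hφ
    set W := yA * star yA + (w0 - w0 * f) * star (w0 - w0 * f) with hW
    have hW0 : 0 ≤ W := add_nonneg (mul_star_self_nonneg _) (mul_star_self_nonneg _)
    have hn : ‖φ W‖ ≤ 1 / 8 := by
      rw [← ps_eq_zero_iff (by norm_num) (glue_map_nonneg φ hW0),
        ← map_ps φ (by norm_num) (IsSelfAdjoint.of_nonneg hW0).star_eq]
      exact hφ
    have hA1 : ‖φ (yA * star yA)‖ ≤ 1 / 8 :=
      (CStarAlgebra.norm_le_norm_of_nonneg_of_le (glue_map_nonneg φ (mul_star_self_nonneg _))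
        (map_mono φ (le_add_of_nonneg_right (mul_star_self_nonneg _)))).trans hn
    have hA2 : ‖φ ((w0 - w0 * f) * star (w0 - w0 * f))‖ ≤ 1 / 8 :=
      (CStarAlgebra.norm_le_norm_of_nonneg_of_le (glue_map_nonneg φ (mul_star_self_nonneg _))
        (map_mono φ (le_add_of_nonneg_left (mul_star_self_nonneg _)))).trans hn
    have hk : φ (ps (1 / 4) (yA * star yA)) = 0 := by
      rw [map_ps φ (by norm_num) (by rw [star_mul, star_star]),
        ps_eq_zero_iff (by norm_num) (glue_map_nonneg φ (mul_star_self_nonneg _))]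
      linarith
    obtain ⟨ψ, hψ⟩ := hker Q φ hk
    have hφf : φ f = 0 := by rw [hψ, hπf, map_zero]
    have hwf : φ (w0 - w0 * f) = φ w0 := by rw [map_sub, map_mul, hφf, mul_zero, sub_zero]
    have hw0 : ‖φ w0‖ ^ 2 ≤ 1 / 8 := by
      rw [map_mul, map_star, hwf, glue_norm_sq] at hA2
      exact hA2
    rw [hψ]
    refine h1 Q ψ ?_
    rw [← hψ]
    linarith
  · -- (B)
    intro Q _ φ hφ
    set wf := w0 - w0 * f with hwf
    set W := yA * star yA + wf * star wf with hW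
    set X := kH * kH - M • (kH * z * W * star z * kH) with hX
    have hWs : star W = W := by
      rw [hW, star_add, star_mul, star_star, star_mul, star_star]
    have hXsa : star X = X := hWsa _ hWs
    have hφX : ps (τ / 2) (φ X) = 0 := by
      rw [← map_ps φ (by positivity) hXsa]; exact hφ
    have hφXsa : star (φ X) = φ X := by rw [← map_star, hXsa]
    -- (B1)
    set c := M • (kH * z * yA * star (kH * z * yA)) with hc
    have hcsa : star c = c := by
      rw [hc, star_smul, star_mul, star_star, star_trivial]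
    have hcn : ‖c‖ ≤ τ / 2 := by
      rw [hc, norm_smul, Real.norm_of_nonneg (by linarith), glue_norm_sq]
      have h3 : ‖kH * z * yA‖ ≤ η := by
        have : kH * z * yA = kH * (ct (2 * s) (3 * s) α * z * yA) := by
          conv_lhs => rw [← hkx]
          simp only [mul_assoc]
        rw [this]
        calc ‖kH * (ct (2 * s) (3 * s) α * z * yA)‖ ≤ ‖kH‖ * ‖ct (2 * s) (3 * s) α * z * yA‖ :=
              norm_mul_le _ _
          _ ≤ 1 * η := by gcongr
          _ = η := one_mul _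
      have h4 : ‖kH * z * yA‖ ^ 2 ≤ η ^ 2 := by gcongr
      have h5 : M * ‖kH * z * yA‖ ^ 2 ≤ M * η ^ 2 := by gcongr
      linarith
    have hle : X1 ≤ X + c := by
      have h3 : wf * star wf ≤ w0 * star w0 := glue_conj_le hf0 hf1
      have h4 : 0 ≤ M • (kH * z * (w0 * star w0 - wf * star wf) * star (kH * z)) :=
        smul_nonneg (by linarith) (star_right_conjugate_nonneg (sub_nonneg.2 h3) _)
      have h5 : X + c - X1 = M • (kH * z * (w0 * star w0 - wf * star wf) * star (kH * z)) := by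
        rw [hX, hc, hX1e, hW]
        simp only [star_mul, hkHsa, mul_sub, sub_mul, smul_sub, mul_add, add_mul, smul_add,
          mul_assoc]
        abel
      rw [← h5] at h4
      exact sub_nonneg.1 h4
    have hφV : φ V1 = 0 := by
      have h3 : φ X1 ≤ φ X + φ c := by
        have := map_mono φ hle
        rwa [map_add] at this
      have h4 := ps_eq_zero_of_le_add (t := τ / 2) (r := τ / 2) (by positivity)
        (show star (φ X1) = φ X1 by rw [← map_star, hX1sa]) hφXsa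
        (show star (φ c) = φ c by rw [← map_star, hcsa]) h3 ((norm_map_le φ c).trans hcn) hφX
      rw [hV1, map_ps φ hτ.le hX1sa]
      rwa [add_halves] at h4
    -- (B2)
    have hB2 : ‖φ (kH * e)‖ ^ 2 ≤ τ := by
      have h3 := conj_le_of_ps_eq_zero (by positivity) hφXsa hφX (φ e)
      have h4 : star (φ e) * φ X * φ e = φ (star (kH * e) * (kH * e)) -
          M • φ (star (star yA * star z * kH * e) * (star yA * star z * kH * e)) -
          M • φ (star (q - f * q) * (q - f * q)) := by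
        have hqq : star wf * star z * kH * e = q - f * q := by
          rw [hwf, hq, star_sub, star_mul, hfsa]
          simp only [sub_mul, mul_assoc]
        rw [← hqq]
        rw [← map_star, ← map_mul, ← map_mul]
        have hms : ∀ y : D, M • φ y = φ (M • y) := fun y => by
          rw [show (M • y) = ((M : ℂ) • y) from (Complex.coe_smul M y).symm, map_smul,
            Complex.coe_smul]
        rw [hms, hms, ← map_sub, ← map_sub]
        congr 1
        rw [hX, hW]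
        simp only [star_mul, star_star, hkHsa, hesa, mul_sub, sub_mul, mul_add, add_mul, smul_add,
          mul_assoc, mul_smul_comm, smul_mul_assoc]
        abel
      have h5 : ‖star yA * star z * kH * e‖ ≤ η := by
        have : ‖kH * z * yA‖ ≤ η := by
          have : kH * z * yA = kH * (ct (2 * s) (3 * s) α * z * yA) := by
            conv_lhs => rw [← hkx]
            simp only [mul_assoc]
          rw [this]
          calc ‖kH * (ct (2 * s) (3 * s) α * z * yA)‖ ≤ ‖kH‖ * ‖ct (2 * s) (3 * s) α * z * yA‖ :=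
                norm_mul_le _ _
            _ ≤ 1 * η := by gcongr
            _ = η := one_mul _
        calc ‖star yA * star z * kH * e‖ ≤ ‖star yA * star z * kH‖ * ‖e‖ := norm_mul_le _ _
          _ = ‖star (kH * z * yA)‖ * ‖e‖ := by
              simp only [star_mul, hkHsa, mul_assoc]
          _ ≤ η * 1 := by
              rw [norm_star]; gcongr
          _ = η := mul_one _
      have h6 : ‖q - f * q‖ ≤ η := hqf
      have h7 : φ (star (kH * e) * (kH * e)) ≤ (τ / 2) • (star (φ e) * φ e) +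
          (M • φ (star (star yA * star z * kH * e) * (star yA * star z * kH * e)) +
          M • φ (star (q - f * q) * (q - f * q))) := by
        rw [h4, sub_sub, sub_le_iff_le_add] at h3
        exact h3
      have h8 : 0 ≤ φ (star (kH * e) * (kH * e)) := glue_map_nonneg φ (star_mul_self_nonneg _)
      have h9 := CStarAlgebra.norm_le_norm_of_nonneg_of_le h8 h7
      have h10 : ∀ y : D, ‖y‖ ≤ η → ‖M • φ (star y * y)‖ ≤ M * η ^ 2 := by
        intro y hy
        rw [norm_smul, Real.norm_of_nonneg (by linarith)]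
        have : ‖φ (star y * y)‖ ≤ η ^ 2 := by
          refine (norm_map_le φ _).trans ?_
          rw [glue_norm_sq']; gcongr
        gcongr
      have h11 : ‖(τ / 2) • (star (φ e) * φ e)‖ ≤ τ / 2 := by
        rw [norm_smul, Real.norm_of_nonneg (by linarith), glue_norm_sq']
        have : ‖φ e‖ ^ 2 ≤ 1 := by
          have := (norm_map_le φ e).trans he1
          nlinarith [norm_nonneg (φ e)]
        nlinarith
      have h12 : ‖φ (kH * e)‖ ^ 2 ≤ τ / 2 + (M * η ^ 2 + M * η ^ 2) := by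
        have h13 : ‖φ (star (kH * e) * (kH * e))‖ = ‖φ (kH * e)‖ ^ 2 := by
          rw [map_mul, map_star, glue_norm_sq']
        rw [← h13]
        refine h9.trans ((norm_add_le _ _).trans (add_le_add h11 ?_))
        exact (norm_add_le _ _).trans (add_le_add (h10 _ h5) (h10 _ h6))
      linarith
    -- (B3)
    have hB2' : ‖φ kH * φ e‖ ≤ 1 / 2 := by
      rw [← map_mul]
      nlinarith [norm_nonneg (φ (kH * e))]
    have h3 : ‖φ a4 - φ j‖ ≤ s / 8 := by
      have : φ a4 - φ j = φ (a4 - star r * V1 * r - j) := by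
        rw [map_sub, map_sub, map_mul, map_mul, hφV, mul_zero, zero_mul, sub_zero]
      rw [this]
      exact (norm_map_le φ _).trans hjn
    have h4 : ‖φ j - φ j * φ e‖ ≤ s / 8 := by
      rw [← map_mul, ← map_sub]
      exact (norm_map_le φ _).trans hje
    have h5 : ‖(φ a4 - φ j) * φ e‖ ≤ s / 8 := by
      calc ‖(φ a4 - φ j) * φ e‖ ≤ ‖φ a4 - φ j‖ * ‖φ e‖ := norm_mul_le _ _
        _ ≤ s / 8 * 1 := by
            gcongr
            exact (norm_map_le φ e).trans he1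
        _ = s / 8 := mul_one _
    have h6 : ‖φ a4 * φ e‖ ≤ ‖φ a4‖ * (1 / 2) := by
      have : φ a4 * φ e = φ a4 * (φ kH * φ e) := by
        rw [← mul_assoc, ← map_mul φ a4 kH, h4kH]
      rw [this]
      exact (norm_mul_le _ _).trans (by gcongr)
    have h7 : φ a4 = (φ a4 - φ j) + (φ j - φ j * φ e) - (φ a4 - φ j) * φ e + φ a4 * φ e := by
      noncomm_ring
    have h8 : ‖φ a4‖ ≤ s / 8 + s / 8 + s / 8 + ‖φ a4‖ * (1 / 2) := by
      calc ‖φ a4‖ = ‖(φ a4 - φ j) + (φ j - φ j * φ e) - (φ a4 - φ j) * φ e + φ a4 * φ e‖ := by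
            rw [← h7]
        _ ≤ ‖φ a4 - φ j‖ + ‖φ j - φ j * φ e‖ + ‖(φ a4 - φ j) * φ e‖ + ‖φ a4 * φ e‖ := by
            refine (norm_add_le _ _).trans (add_le_add ?_ le_rfl)
            refine (norm_sub_le _ _).trans (add_le_add ?_ le_rfl)
            exact norm_add_le _ _
        _ ≤ _ := by gcongr
    have h9 : ‖φ a4‖ ≤ s := by linarith
    have h10 : φ (ps (5 * s) α) = ps s (φ a4) := by
      rw [← map_ps φ hs.le (ps_sa α), ps_ps hs.le (by positivity) hα]
      congr 2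
      ring
    rw [h10, ps_eq_zero_iff hs.le (glue_map_nonneg φ (ps_nonneg α))]
    exact h9

end Crest.Agent.R110
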