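import Crest.Agent.R110.Contr

/-! # R110 piece Iter: see the header of `Contr.lean` -/

set_option autoImplicit false

namespace Crest.Agent.R110

universe u
variable {A : Type u} [NonUnitalCStarAlgebra A]

namespace IterAux

theorem lev_mul {b v v2 : A} (h : Lev b v) : Lev b (v * v2) := by
  intro c hc
  rw [← mul_assoc, h c hc]

/-- one composition step for the squares -/
theorem sq_step {a v1 v2 : A} (ha : 0 ≤ a) {x m y ε δ : ℝ} (hx : 0 ≤ x) (hxm : x < m)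
    (hδ : δ * (1 + ε / 2) ≤ ε / 2) (hδ0 : 0 ≤ δ)
    (h1 : ∃ u u' : ℝ, x ≤ u ∧ u < u' ∧ u' ≤ m ∧ ‖star v1 * v1 - ct u u' a‖ ≤ δ)
    (hL : Lev (ps m a) v2)
    (h2 : ∃ u u' : ℝ, m ≤ u ∧ u < u' ∧ u' ≤ y ∧ ‖star v2 * v2 - ct u u' a‖ ≤ ε / 2) :
    ∃ u u' : ℝ, x ≤ u ∧ u < u' ∧ u' ≤ y ∧ ‖star (v1 * v2) * (v1 * v2) - ct u u' a‖ ≤ ε := by
  obtain ⟨u1, u1', hu1, hu1', hu1m, hn1⟩ := h1
  obtain ⟨u2, u2', hu2, hu2', hu2m, hn2⟩ := h2
  refine ⟨u2, u2', by linarith, hu2', hu2m, ?_⟩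
  have hc : ct u1 u1' a * v2 = v2 := hL _ (ct_mul_ps (hx.trans hu1) hu1' hu1m ha)
  have hv2 : ‖v2‖ * ‖v2‖ ≤ 1 + ε / 2 := by
    rw [← CStarRing.norm_star_mul_self]
    calc ‖star v2 * v2‖ = ‖ct u2 u2' a + (star v2 * v2 - ct u2 u2' a)‖ := by
          rw [add_sub_cancel]
      _ ≤ ‖ct u2 u2' a‖ + ‖star v2 * v2 - ct u2 u2' a‖ := norm_add_le _ _
      _ ≤ 1 + ε / 2 := add_le_add (norm_ct_le a) hn2
  have e1 : star (v1 * v2) * (v1 * v2) - ct u2 u2' a =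
      star v2 * (star v1 * v1 - ct u1 u1' a) * v2 + (star v2 * v2 - ct u2 u2' a) := by
    have h3 : star v2 * (star v1 * v1 - ct u1 u1' a) * v2 =
        star v2 * (star v1 * v1) * v2 - star v2 * v2 := by
      rw [mul_sub, sub_mul]
      congr 1
      rw [mul_assoc, hc]
    rw [h3, star_mul]
    have h4 : star v2 * star v1 * (v1 * v2) = star v2 * (star v1 * v1) * v2 := by
      simp only [mul_assoc]
    rw [h4]
    abel
  rw [e1]
  have h5 : ‖star v2 * (star v1 * v1 - ct u1 u1' a) * v2‖ ≤ ε / 2 := by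
    calc ‖star v2 * (star v1 * v1 - ct u1 u1' a) * v2‖
        ≤ ‖star v2 * (star v1 * v1 - ct u1 u1' a)‖ * ‖v2‖ := norm_mul_le _ _
      _ ≤ (‖star v2‖ * ‖star v1 * v1 - ct u1 u1' a‖) * ‖v2‖ := by
          gcongr
          exact norm_mul_le _ _
      _ = ‖star v1 * v1 - ct u1 u1' a‖ * (‖v2‖ * ‖v2‖) := by
          rw [norm_star]; ring
      _ ≤ δ * (1 + ε / 2) := by
          refine mul_le_mul hn1 hv2 (by positivity) hδ0
      _ ≤ ε / 2 := hδ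
  calc _ ≤ ‖star v2 * (star v1 * v1 - ct u1 u1' a) * v2‖ + ‖star v2 * v2 - ct u2 u2' a‖ :=
        norm_add_le _ _
    _ ≤ ε / 2 + ε / 2 := add_le_add h5 hn2
    _ = ε := by ring

end IterAux

open IterAux

theorem iter (hA : PI A) {α β : A} (hα : 0 ≤ α) (hαn : ‖α‖ ≤ 1) (hβ : 0 ≤ β) (hβn : ‖β‖ ≤ 1) (n : ℕ) :
    ∀ (z : A), ‖z‖ ≤ 1 → ∀ (x y : ℝ), 0 ≤ x → x < y → ∀ (ε : ℝ), 0 < ε →
    ∃ v w : A, Lev (ps x α) v ∧ Lev (ps x β) w ∧ ‖star v * z * w‖ ≤ (49 / 50) ^ n ∧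
      (∃ u u' : ℝ, x ≤ u ∧ u < u' ∧ u' ≤ y ∧ ‖star v * v - ct u u' α‖ ≤ ε) ∧
      (∃ u u' : ℝ, x ≤ u ∧ u < u' ∧ u' ≤ y ∧ ‖star w * w - ct u u' β‖ ≤ ε) := by
  induction n with
  | zero =>
    intro z hz x y hx hxy ε hε
    obtain ⟨v, w, h1, h2, h3, h4, h5⟩ := contr hA hα hαn hβ hβn hz hx hxy ε hε
    exact ⟨v, w, h1, h2, h3.trans (by norm_num), h4, h5⟩
  | succ n ih =>
    intro z hz x y hx hxy ε hε
    set m := (x + y) / 2 with hm
    have hxm : x < m := by rw [hm]; linarith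
    have hmy : m < y := by rw [hm]; linarith
    set δ := ε / 2 / (1 + ε / 2) with hδdef
    have hδ0 : 0 < δ := by positivity
    have hδ : δ * (1 + ε / 2) ≤ ε / 2 := by
      rw [hδdef, div_mul_cancel₀ _ (by positivity)]
    obtain ⟨v1, w1, h1, h2, h3, h4, h5⟩ := contr hA hα hαn hβ hβn hz hx hxm δ hδ0
    set z1 : A := ((50 / 49 : ℝ) : ℂ) • (star v1 * z * w1) with hz1
    have hz1n : ‖z1‖ ≤ 1 := by
      rw [hz1, norm_smul, Complex.norm_real, Real.norm_eq_abs, abs_of_pos (by norm_num)]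
      linarith
    obtain ⟨v2, w2, k1, k2, k3, k4, k5⟩ := ih z1 hz1n m y (by linarith) hmy (ε / 2) (by linarith)
    refine ⟨v1 * v2, w1 * w2, lev_mul h1, lev_mul h2, ?_,
      sq_step hα hx hxm hδ hδ0.le h4 k1 k4, sq_step hβ hx hxm hδ hδ0.le h5 k2 k5⟩
    have e1 : star v2 * z1 * w2 = ((50 / 49 : ℝ) : ℂ) • (star (v1 * v2) * z * (w1 * w2)) := by
      rw [hz1, mul_smul_comm, smul_mul_assoc, star_mul]
      simp only [mul_assoc]
    have e2 : ‖star v2 * z1 * w2‖ = 50 / 49 * ‖star (v1 * v2) * z * (w1 * w2)‖ := by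
      rw [e1, norm_smul, Complex.norm_real, Real.norm_eq_abs, abs_of_pos (by norm_num)]
    rw [e2] at k3
    rw [pow_succ]
    linarith

end Crest.Agent.R110
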