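import Crest.Agent.R110.KQuot

/-!
# R110 toolkit KCmp: comparison in purely infinite algebras

Write `a ≲ b` for `∀ ε > 0, ∃ r, ‖r⋆ b r - a‖ < ε`.
* `cmp_of_le`: `0 ≤ c ≤ d ⇒ c ≲ d`.  Take `h(t) = sqrt(cut (1/n) (2/n) t / t)` (`h 0 = 0`), `q = h(t) t^{1/2} = sqrt (cut (1/n) (2/n) t)`,
  `r = h(d) c^{1/2}`: `r⋆ d r = c^{1/2} q(d)² c^{1/2}`, and `‖c^{1/2}(1-q(d))‖² = ‖(1-q)c(1-q)‖ ≤ ‖(1-q) d (1-q)‖ ≤ 2/n`.
* `compare` (fact (F)): `J = {x | x⋆x ≲ b}` is a closed two-sided ⋆-ideal: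
  right mult: `(xy)⋆(xy) = y⋆x⋆xy`; left mult: `(yx)⋆(yx) ≤ ‖y‖² x⋆x` + `cmp_of_le`; sum: `(x+y)⋆(x+y) ≤ 2(x⋆x + y⋆y)` and
  `r⋆br + t⋆bt ≲ b` by proper infiniteness of `b` (`p⋆bp ≈ b, q⋆bq ≈ b, p⋆bq ≈ 0`: use `pr + qt`, choose p, q after r, t);
  star: `(xx⋆)² = x(x⋆x)x⋆ ≲ b` and `xx⋆ ≲ (xx⋆)²` (functional calculus).  Apply `exists_cstar_quotient`:
  `π(b^{1/2}) = 0` so `π b = 0`, so (`Dom a b`) `π a = 0`, `π(a^{1/2}) = 0`, `a ≲ b`.
* `copies3`: from `IsProperlyInfinite` twice: `r, s` for `h`, then `r r', r s', s`.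
-/

set_option autoImplicit false

namespace Crest.Agent.R110

universe u
variable {A : Type u} [NonUnitalCStarAlgebra A]

theorem copies2 (hA : PI A) {h : A} (hh : 0 ≤ h) (ε : ℝ) (hε : 0 < ε) :
    ∃ r s : A, ‖star r * h * r - h‖ < ε ∧ ‖star s * h * s - h‖ < ε ∧ ‖star r * h * s‖ < ε := by
  have h1 : star (CFC.sqrt h) * CFC.sqrt h = h := by
    rw [(IsSelfAdjoint.of_nonneg (CFC.sqrt_nonneg h)).star_eq]
    exact CFC.sqrt_mul_sqrt_self h hh
  have h2 := hA (CFC.sqrt h) ε hε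
  rwa [h1] at h2

theorem conj_sub_le {a b x y : A} {M δ : ℝ} (hx : ‖x‖ ≤ M) (hy : ‖y‖ ≤ M) (h : ‖a - b‖ ≤ δ) :
    ‖star x * (a - b) * y‖ ≤ M * M * δ := by
  have hM : 0 ≤ M := (norm_nonneg _).trans hx
  have hδ0 : 0 ≤ δ := (norm_nonneg _).trans h
  calc ‖star x * (a - b) * y‖ ≤ ‖star x * (a - b)‖ * ‖y‖ := norm_mul_le _ _
    _ ≤ (‖star x‖ * ‖a - b‖) * ‖y‖ := by
        gcongr
        exact norm_mul_le _ _
    _ ≤ (M * δ) * M := by
        rw [norm_star]
        gcongr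
    _ = M * M * δ := by ring

theorem copies3 (hA : PI A) {h : A} (hh : 0 ≤ h) (ε : ℝ) (hε : 0 < ε) :
    ∃ r : Fin 3 → A, (∀ i, ‖star (r i) * h * r i - h‖ < ε) ∧
      ∀ i j, i ≠ j → ‖star (r i) * h * r j‖ < ε := by
  have hsa : star h = h := (IsSelfAdjoint.of_nonneg hh).star_eq
  obtain ⟨r', s', hr', hs', hrs'⟩ := copies2 hA hh (ε / 2) (by positivity)
  set M : ℝ := 1 + ‖r'‖ + ‖s'‖ with hM
  have hM1 : 1 ≤ M := by rw [hM]; linarith [norm_nonneg r', norm_nonneg s']
  have hMr : ‖r'‖ ≤ M := by rw [hM]; linarith [norm_nonneg r', norm_nonneg s']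
  have hMs : ‖s'‖ ≤ M := by rw [hM]; linarith [norm_nonneg r', norm_nonneg s']
  set δ : ℝ := ε / 2 / (M * M) with hδ
  have hδ0 : 0 < δ := by positivity
  have hMδ : M * M * δ = ε / 2 := by
    rw [hδ]
    field_simp
  have hδε : δ ≤ ε / 2 := by
    rw [← hMδ]
    nlinarith [mul_le_mul hM1 hM1 zero_le_one (by linarith)]
  have hMδ' : M * δ ≤ ε / 2 := by
    rw [← hMδ]
    nlinarith [mul_le_mul_of_nonneg_right hM1 (by positivity : (0 : ℝ) ≤ M * δ)]
  obtain ⟨r, s, hr, hs, hrs⟩ := copies2 hA hh δ hδ0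
  have key : ∀ x y z : A, ‖x‖ ≤ M → ‖y‖ ≤ M → ‖star x * h * y - z‖ < ε / 2 →
      ‖star (r * x) * h * (r * y) - z‖ < ε := by
    intro x y z hx hy hz
    have e1 : star (r * x) * h * (r * y) - z =
        star x * (star r * h * r - h) * y + (star x * h * y - z) := by
      rw [star_mul]
      noncomm_ring
    rw [e1]
    have h2 := conj_sub_le (a := star r * h * r) (b := h) hx hy hr.le
    rw [hMδ] at h2
    calc _ ≤ ‖star x * (star r * h * r - h) * y‖ + ‖star x * h * y - z‖ := norm_add_le _ _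
      _ < ε := by linarith
  have key2 : ∀ x : A, ‖x‖ ≤ M → ‖star (r * x) * h * s‖ < ε := by
    intro x hx
    have e1 : star (r * x) * h * s = star x * (star r * h * s) := by
      rw [star_mul]
      simp only [mul_assoc]
    rw [e1]
    calc _ ≤ ‖star x‖ * ‖star r * h * s‖ := norm_mul_le _ _
      _ ≤ M * δ := by
          rw [norm_star]
          gcongr
      _ < ε := by linarith
  have hflip : ∀ x y : A, ‖star x * h * y‖ < ε → ‖star y * h * x‖ < ε := by
    intro x y hxy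
    rw [← norm_star] at hxy
    rwa [star_mul, star_mul, star_star, hsa, ← mul_assoc] at hxy
  have k01 : ‖star (r * r') * h * (r * s')‖ < ε := by
    have := key r' s' 0 hMr hMs (by rwa [sub_zero])
    rwa [sub_zero] at this
  refine ⟨![r * r', r * s', s], ?_, ?_⟩
  · intro i
    fin_cases i
    · exact key r' r' h hMr hMr hr'
    · exact key s' s' h hMs hMs hs'
    · show ‖star s * h * s - h‖ < ε
      linarith
  · intro i j hij
    fin_cases i <;> fin_cases j <;> first | exact absurd rfl hij | skip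
    · exact k01
    · exact key2 r' hMr
    · exact hflip _ _ k01
    · exact key2 s' hMs
    · exact hflip _ _ (key2 r' hMr)
    · exact hflip _ _ (key2 s' hMs)

/-- square root form of the copies: `y i` lives at the levels `≥ x` of `b`, `y_i⋆ y_j ≈ δ_ij (ct x y b)` -/
theorem copies3_ct (hA : PI A) {b : A} (hb : 0 ≤ b) {x0 x y : ℝ} (h0 : 0 ≤ x0) (h1 : x0 < x) (hxy : x < y)
    (ε : ℝ) (hε : 0 < ε) :
    ∃ Y : Fin 3 → A, (∀ i, ‖Y i‖ ≤ 1) ∧ (∀ i, Lev (ps x0 b) (Y i)) ∧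
      (∀ i, ‖star (Y i) * Y i - ct x y b‖ < ε) ∧
      ∀ i j, i ≠ j → ‖star (Y i) * Y j‖ < ε := by
  have hx : 0 ≤ x := by linarith
  have hbsa : IsSelfAdjoint b := IsSelfAdjoint.of_nonneg hb
  obtain ⟨r, hr1, hr2⟩ := copies3 hA (ct_nonneg (x := x) (y := y) b) (ε / 2) (by positivity)
  -- the square root of the cut
  have hsc : Continuous (fun t => √(cut x y t)) := (continuous_cut x y).sqrt
  have hs0 : (fun t => √(cut x y t)) 0 = 0 := by
    show √(cut x y 0) = 0
    rw [cut_zero hx hxy, Real.sqrt_zero]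
  set s : A := cfcₙ (fun t => √(cut x y t)) b with hs
  have hssa : star s = s := (cfcₙ_predicate (R := ℝ) _ b : IsSelfAdjoint s)
  have hss : s * s = ct x y b := by
    rw [hs, ← cfcₙ_mul _ _ b hsc.continuousOn hs0 hsc.continuousOn hs0]
    unfold ct
    apply cfcₙ_congr
    intro t _
    exact Real.mul_self_sqrt (cut_nonneg x y t)
  -- level
  have hgc : Continuous (fun t => √(cut x y t) / max (t - x0) (x - x0)) := by
    refine hsc.div (by fun_prop) fun t => ?_
    have : 0 < max (t - x0) (x - x0) := lt_max_of_lt_right (by linarith)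
    exact this.ne'
  have hg0 : (fun t => √(cut x y t) / max (t - x0) (x - x0)) 0 = 0 := by
    show √(cut x y 0) / max (0 - x0) (x - x0) = 0
    rw [cut_zero hx hxy, Real.sqrt_zero, zero_div]
  have hfac : s = ps x0 b * cfcₙ (fun t => √(cut x y t) / max (t - x0) (x - x0)) b := by
    unfold ps
    rw [hs, ← cfcₙ_mul _ _ b (continuous_pp x0).continuousOn (pp_zero h0) hgc.continuousOn hg0]
    apply cfcₙ_congr
    intro t _
    show √(cut x y t) = pp x0 t * (√(cut x y t) / max (t - x0) (x - x0))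
    rcases le_total t x with h | h
    · rw [cut_of_le hxy h, Real.sqrt_zero, zero_div, mul_zero]
    · rw [pp_of_ge (by linarith), max_eq_left (by linarith)]
      have : t - x0 ≠ 0 := by
        have : 0 < t - x0 := by linarith
        exact this.ne'
      field_simp
  have hlev : ∀ c : A, c * ps x0 b = ps x0 b → c * s = s := by
    intro c hc
    rw [hfac, ← mul_assoc, hc]
  -- the scaling factor
  set κ : ℝ := (1 + ε / 2)⁻¹ with hκ
  have hκ0 : 0 < κ := by positivity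
  have hκ1 : κ ≤ 1 := inv_le_one_of_one_le₀ (by linarith)
  have hκ2 : κ * (1 + ε / 2) = 1 := inv_mul_cancel₀ (by positivity)
  have hprod : ∀ i j, star (√κ • (s * r i)) * (√κ • (s * r j)) =
      κ • (star (r i) * ct x y b * r j) := by
    intro i j
    rw [star_smul, star_trivial, smul_mul_assoc, mul_smul_comm, smul_smul,
      Real.mul_self_sqrt hκ0.le, star_mul, hssa, ← hss]
    simp only [mul_assoc]
  have hnorm : ∀ i, ‖star (r i) * ct x y b * r i‖ ≤ 1 + ε / 2 := by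
    intro i
    calc ‖star (r i) * ct x y b * r i‖
        = ‖ct x y b + (star (r i) * ct x y b * r i - ct x y b)‖ := by rw [add_sub_cancel]
      _ ≤ ‖ct x y b‖ + ‖star (r i) * ct x y b * r i - ct x y b‖ := norm_add_le _ _
      _ ≤ 1 + ε / 2 := add_le_add (norm_ct_le b) (hr1 i).le
  refine ⟨fun i => √κ • (s * r i), fun i => ?_, fun i c hc => ?_, fun i => ?_, fun i j hij => ?_⟩
  · have h1 : ‖√κ • (s * r i)‖ * ‖√κ • (s * r i)‖ ≤ 1 := by
      rw [← CStarRing.norm_star_mul_self, hprod, norm_smul, Real.norm_eq_abs,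
        abs_of_nonneg hκ0.le, ← hκ2]
      exact mul_le_mul_of_nonneg_left (hnorm i) hκ0.le
    nlinarith [norm_nonneg (√κ • (s * r i))]
  · show c * (√κ • (s * r i)) = √κ • (s * r i)
    rw [mul_smul_comm, ← mul_assoc, hlev c hc]
  · show ‖star (√κ • (s * r i)) * (√κ • (s * r i)) - ct x y b‖ < ε
    rw [hprod]
    have e1 : κ • (star (r i) * ct x y b * r i) - ct x y b =
        (star (r i) * ct x y b * r i - ct x y b) -
          (1 - κ) • (star (r i) * ct x y b * r i) := by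
      rw [sub_smul, one_smul]
      abel
    rw [e1]
    have h2 : ‖(1 - κ) • (star (r i) * ct x y b * r i)‖ ≤ ε / 2 := by
      rw [norm_smul, Real.norm_eq_abs, abs_of_nonneg (by linarith)]
      calc (1 - κ) * ‖star (r i) * ct x y b * r i‖ ≤ (1 - κ) * (1 + ε / 2) :=
            mul_le_mul_of_nonneg_left (hnorm i) (by linarith)
        _ = ε / 2 := by
            rw [sub_mul, hκ2]
            ring
    calc _ ≤ ‖star (r i) * ct x y b * r i - ct x y b‖ +
          ‖(1 - κ) • (star (r i) * ct x y b * r i)‖ := norm_sub_le _ _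
      _ < ε := by linarith [hr1 i]
  · show ‖star (√κ • (s * r i)) * (√κ • (s * r j))‖ < ε
    rw [hprod, norm_smul, Real.norm_eq_abs, abs_of_nonneg hκ0.le]
    have h1 := hr2 i j hij
    nlinarith [norm_nonneg (star (r i) * ct x y b * r j)]


end Crest.Agent.R110
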