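import Crest.Agent.R110.KCmpB
import Crest.Agent.R110.KCmpC

/-!
# R110 toolkit KCmp: comparison in purely infinite algebras

Write `a ≲ b` for `∀ ε > 0, ∃ r, ‖r⋆ b r - a‖ < ε`.
* `cmp_of_le`: `0 ≤ c ≤ d ⇒ c ≲ d`.  Take `h(t) = sqrt(cut (1/n) (2/n) t / t)` (`h 0 = 0`), `q = h(t) t^{1/2} = sqrt (cut (1/n) (2/n) t)`,
  `r = h(d) c^{1/2}`: `r⋆ d r = c^{1/2} q(d)² c^{1/2}`, and `‖c^{1/2}(1-q(d))‖² = ‖(1-q)c(1-q)‖ ≤ ‖(1-q) d (1-q)‖ ≤ 2/n`.
* `compare` (fact (F)): `J = {x | x⋆x ≲ b}` is a closed two-sided ⋆-ideal: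
  right mult: `(xy)⋆(xy) = y⋆x⋆xy`; left mult: `(yx)⋆(yx) ≤ ‖y‖² x⋆x` + `cmp_of_le`; sum: `(x+y)⋆(x+y) ≤ 2(x⋆x + y⋆y)` and
  `r⋆br + t⋆bt ≲ b` by proper infiniteness of `b` (`p⋆bp ≈ b, q⋆bq ≈ b, p⋆bq ≈ 0`: use `pr + qt`, choose p, q after r, t);
  star: `(xx⋆)² = x(x⋆x)x⋆ ≲ b` and `xx⋆ ≲ (xx⋆)²` (functional calculus).  Apply `exists_cstar_quotient`:
  `π(b^{1/2}) = 0` so `π b = 0`, so (`Dom a b`) `π a = 0`, `π(a^{1/2}) = 0`, `a ≲ b`.
* `copies3`: from `IsProperlyInfinite` twice: `r, s` for `h`, then `r r', r s', s`.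
-/

set_option autoImplicit false

namespace Crest.Agent.R110

universe u
variable {A : Type u} [NonUnitalCStarAlgebra A]

/-- comparison with control: `w = (h-τ)_+^{1/2} d`-type element.  If `Dom a (ps τ h)` there is `w` with `w⋆w ≈ a`,
`Lev h w` and `w w⋆ ≤ ((1 + ‖a‖)/τ) • h` -/
theorem compare_ps (hA : PI A) {a h : A} (ha : 0 ≤ a) (hh : 0 ≤ h) {τ : ℝ} (hτ : 0 < τ) (hd : Dom a (ps τ h))
    (ε : ℝ) (hε : 0 < ε) (hε1 : ε ≤ 1) :
    ∃ w : A, ‖star w * w - a‖ < ε ∧ Lev h w ∧ w * star w ≤ ((1 + ‖a‖) / τ) • h := by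
  have hsa : IsSelfAdjoint h := IsSelfAdjoint.of_nonneg hh
  obtain ⟨r, hr⟩ := compare hA ha (ps_nonneg (t := τ) h) hd ε hε
  -- the square root of `pp τ`
  set f : ℝ → ℝ := fun t => √(pp τ t) with hf
  have hfc : Continuous f := by
    have := continuous_pp τ
    fun_prop
  have hf0 : f 0 = 0 := by simp [hf, pp_zero hτ.le]
  set F : A := cfcₙ f h with hF
  have hFsa : star F = F := (cfcₙ_predicate (R := ℝ) f h : IsSelfAdjoint F)
  have hFF : F * F = ps τ h := by
    unfold ps
    rw [hF, ← cfcₙ_mul f f h hfc.continuousOn hf0 hfc.continuousOn hf0]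
    apply cfcₙ_congr
    intro t _
    exact Real.mul_self_sqrt (pp_nonneg τ t)
  -- `F = h * k(h)`
  set k : ℝ → ℝ := fun t => f t / max t τ with hk
  have hkc : Continuous k := by
    apply Continuous.div hfc (by fun_prop)
    intro t
    exact (lt_of_lt_of_le hτ (le_max_right _ _)).ne'
  have hk0 : k 0 = 0 := by simp [hk, hf0]
  have hFk : F = h * cfcₙ k h := by
    have h1 : h * cfcₙ k h = cfcₙ (fun t : ℝ => t) h * cfcₙ k h := by rw [cfcₙ_id' ℝ h]
    rw [h1, ← cfcₙ_mul (fun t : ℝ => t) k h continuousOn_id rfl hkc.continuousOn hk0, hF]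
    apply cfcₙ_congr
    intro t _
    show f t = t * (f t / max t τ)
    rcases le_total t τ with h2 | h2
    · have : f t = 0 := by simp [hf, pp_of_le h2]
      rw [this]; simp
    · rw [max_eq_left h2]
      have : t ≠ 0 := (lt_of_lt_of_le hτ h2).ne'
      field_simp
  -- the cut
  set c : A := ct 0 τ h with hc
  have hcF : c * F = F := by
    rw [hc, hF]
    unfold ct
    rw [← cfcₙ_mul (cut 0 τ) f h (continuous_cut 0 τ).continuousOn (cut_zero le_rfl hτ)
      hfc.continuousOn hf0]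
    apply cfcₙ_congr
    intro t _
    show cut 0 τ t * f t = f t
    rcases le_total t τ with h2 | h2
    · have : f t = 0 := by simp [hf, pp_of_le h2]
      rw [this]; simp
    · rw [cut_of_ge hτ h2, one_mul]
  have hcsa : star c = c := ct_sa h
  have hcc : c * c ≤ (1 / τ) • h := by
    have h1 : (1 / τ) • h = cfcₙ (fun t : ℝ => (1 / τ) • t) h := by
      rw [cfcₙ_smul (1 / τ) (fun t : ℝ => t) h continuousOn_id rfl, cfcₙ_id' ℝ h]
    have h2 : c * c = cfcₙ (fun t : ℝ => cut 0 τ t * cut 0 τ t) h := by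
      rw [hc]
      unfold ct
      rw [← cfcₙ_mul (cut 0 τ) (cut 0 τ) h (continuous_cut 0 τ).continuousOn (cut_zero le_rfl hτ)
        (continuous_cut 0 τ).continuousOn (cut_zero le_rfl hτ)]
    rw [h1, h2]
    apply cfcₙ_mono
    · intro t ht
      have ht0 : 0 ≤ t := quasispectrum_nonneg_of_nonneg h hh t ht
      have h3 : cut 0 τ t ≤ t / τ := by
        unfold cut
        apply max_le (by positivity)
        refine (min_le_right _ _).trans (le_of_eq ?_)
        rw [sub_zero, sub_zero]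
      have h4 : cut 0 τ t * cut 0 τ t ≤ 1 * (t / τ) :=
        mul_le_mul (cut_le_one 0 τ t) h3 (cut_nonneg 0 τ t) zero_le_one
      show cut 0 τ t * cut 0 τ t ≤ (1 / τ) • t
      rw [smul_eq_mul]
      calc cut 0 τ t * cut 0 τ t ≤ 1 * (t / τ) := h4
        _ = 1 / τ * t := by ring
    · exact ((continuous_cut 0 τ).mul (continuous_cut 0 τ)).continuousOn
    · exact (continuous_id.const_smul (1 / τ)).continuousOn
    · show cut 0 τ 0 * cut 0 τ 0 = 0
      rw [cut_zero le_rfl hτ, mul_zero]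
    · simp
  refine ⟨F * r, ?_, ?_, ?_⟩
  · have h1 : star (F * r) * (F * r) = star r * ps τ h * r := by
      rw [star_mul, hFsa, ← hFF]
      simp only [mul_assoc]
    rw [h1]
    exact hr
  · intro x hx
    rw [hFk]
    calc x * (h * cfcₙ k h * r) = (x * h) * (cfcₙ k h * r) := by simp only [mul_assoc]
      _ = h * cfcₙ k h * r := by rw [hx]; simp only [mul_assoc]
  · set w : A := F * r with hw
    have hcw : c * w = w := by rw [hw, ← mul_assoc, hcF]
    have hww : star w * w = star r * ps τ h * r := by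
      rw [hw, star_mul, hFsa, ← hFF]
      simp only [mul_assoc]
    have hnorm : ‖w * star w‖ ≤ 1 + ‖a‖ := by
      rw [CStarRing.norm_self_mul_star, ← CStarRing.norm_star_mul_self, hww]
      have h2 : ‖star r * ps τ h * r‖ ≤ ‖star r * ps τ h * r - a‖ + ‖a‖ := by
        have := norm_add_le (star r * ps τ h * r - a) a
        rwa [sub_add_cancel] at this
      linarith
    have hwsa : IsSelfAdjoint (w * star w) := IsSelfAdjoint.mul_star_self w
    have h3 : star c * (w * star w) * c ≤ ‖w * star w‖ • (star c * c) :=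
      CStarAlgebra.star_left_conjugate_le_norm_smul (a := c) (b := w * star w) hwsa
    have h4 : star c * (w * star w) * c = w * star w := by
      have h5 : star w * c = star w := by
        have := congrArg star hcw
        rwa [star_mul, hcsa] at this
      rw [hcsa]
      calc c * (w * star w) * c = (c * w) * (star w * c) := by simp only [mul_assoc]
        _ = w * star w := by rw [hcw, h5]
    rw [h4, hcsa] at h3
    have hcc0 : 0 ≤ c * c := by
      have := star_mul_self_nonneg c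
      rwa [hcsa] at this
    calc w * star w ≤ ‖w * star w‖ • (c * c) := h3
      _ ≤ (1 + ‖a‖) • (c * c) := smul_le_smul_of_nonneg_right hnorm hcc0
      _ ≤ (1 + ‖a‖) • ((1 / τ) • h) :=
        smul_le_smul_of_nonneg_left hcc (by positivity)
      _ = ((1 + ‖a‖) / τ) • h := by rw [smul_smul]; congr 1; ring


end Crest.Agent.R110
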