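import Crest.Agent.R110.KQuot

/-!
# R110 toolkit KCmp: comparison in purely infinite algebras

Write `a ≲ b` for `∀ ε > 0, ∃ r, ‖r⋆ b r - a‖ < ε`.
* `cmp_of_le`: `0 ≤ c ≤ d ⇒ c ≲ d`.  Take `h(t) = sqrt(cut (1/n) (2/n) t / t)` (`h 0 = 0`), `q = h(t) t^{1/2} = sqrt (cut (1/n) (2/n) t)`,
  `r = h(d) c^{1/2}`: `r⋆ d r = c^{1/2} q(d)² c^{1/2}`, and `‖c^{1/2}(1-q(d))‖² = ‖(1-q)c(1-q)‖ ≤ ‖(1-q) d (1-q)‖ ≤ 2/n`.
* `compare` (fact (F)): `J = {x | x⋆x ≲ b}` is a closed two-sided ⋆-ideal: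
  right mult: `(xy)⋆(xy) = y⋆x⋆xy`; left mult: `(yx)⋆(yx) ≤ ‖y‖² x⋆x` + `cmp_of_le`; sum: `(x+y)⋆(x+y) ≤ 2(x⋆x + y⋆y)` and
  `r⋆br + t⋆bt ≲ b` by proper infiniteness of `b` (`p⋆bp ≈ b, q⋆bq ≈ b, p⋆bq ≈ 0`: use `pr + qt`, choose p, q after r, t);
  star: `(xx⋆)² = x(x⋆x)x⋆ ≲ b` and `xx⋆ ≲ (xx⋆)²` (functional calculus).  Apply `exists_cstar_quotient`:
  `π(b^{1/2}) = 0` so `π b = 0`, so (`Dom a b`) `π a = 0`, `π(a^{1/2}) = 0`, `a ≲ b`.
* `copies3`: from `IsProperlyInfinite` twice: `r, s` for `h`, then `r r', r s', s`.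
-/

set_option autoImplicit false

namespace Crest.Agent.R110

universe u
variable {A : Type u} [NonUnitalCStarAlgebra A]

theorem cmp_of_le {c d : A} (hc : 0 ≤ c) (hcd : c ≤ d) (ε : ℝ) (hε : 0 < ε) :
    ∃ r : A, ‖star r * d * r - c‖ < ε := by
  have hd : 0 ≤ d := hc.trans hcd
  obtain ⟨δ, hδ, hδε⟩ : ∃ δ : ℝ, 0 < δ ∧ ‖CFC.sqrt c‖ ^ 2 * (2 * δ) < ε ^ 2 := by
    refine ⟨ε ^ 2 / (4 * (‖CFC.sqrt c‖ ^ 2 + 1)), by positivity, ?_⟩
    rw [show ‖CFC.sqrt c‖ ^ 2 * (2 * (ε ^ 2 / (4 * (‖CFC.sqrt c‖ ^ 2 + 1)))) =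
      (‖CFC.sqrt c‖ ^ 2 * 2 * ε ^ 2) / (4 * (‖CFC.sqrt c‖ ^ 2 + 1)) by ring]
    rw [div_lt_iff₀ (by positivity)]
    have : 0 < ε ^ 2 := by positivity
    nlinarith [sq_nonneg ‖CFC.sqrt c‖]
  set b := CFC.sqrt c with hb
  have hb0 : 0 ≤ b := CFC.sqrt_nonneg c
  have hbs : star b = b := (IsSelfAdjoint.of_nonneg hb0).star_eq
  have hbb : b * b = c := CFC.sqrt_mul_sqrt_self c hc
  have hδ2 : δ < 2 * δ := by linarith
  set g : ℝ → ℝ := cut δ (2 * δ) with hg
  set h : ℝ → ℝ := fun t => Real.sqrt (g t / max t δ) with hh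
  have hgc : Continuous g := continuous_cut δ (2 * δ)
  have hg0 : g 0 = 0 := cut_zero hδ.le hδ2
  have hhc : Continuous h := by
    refine (hgc.div (continuous_id.max continuous_const) ?_).sqrt
    intro t
    exact (lt_of_lt_of_le hδ (le_max_right t δ)).ne'
  have hh0 : h 0 = 0 := by simp only [hh, hg0, zero_div, Real.sqrt_zero]
  have hds : IsSelfAdjoint d := IsSelfAdjoint.of_nonneg hd
  set G := cfcₙ g d with hG
  set H := cfcₙ h d with hH
  have hGs : star G = G := (cfcₙ_predicate (R := ℝ) g d).star_eq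
  have hHs : star H = H := (cfcₙ_predicate (R := ℝ) h d).star_eq
  have hid : cfcₙ (fun t : ℝ => t) d = d := cfcₙ_id' ℝ d
  have hHdH : H * d * H = G := by
    have e1 : H * d = cfcₙ (fun t => h t * t) d := by
      rw [cfcₙ_mul h (fun t => t) d hhc.continuousOn hh0 continuous_id.continuousOn rfl, hid]
    rw [e1, hH, ← cfcₙ_mul (fun t => h t * t) h d (hhc.mul continuous_id).continuousOn
      (by simp) hhc.continuousOn hh0]
    refine cfcₙ_congr fun t _ => ?_
    have hpos : 0 < max t δ := lt_of_lt_of_le hδ (le_max_right t δ)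
    have e2 : h t * t * h t = (g t / max t δ) * t := by
      simp only [hh]
      rw [mul_assoc, mul_comm t, ← mul_assoc, Real.mul_self_sqrt
        (div_nonneg (cut_nonneg _ _ _) hpos.le)]
    show h t * t * h t = g t
    rw [e2]
    rcases le_total t δ with h1 | h1
    · have : g t = 0 := cut_of_le hδ2 h1
      rw [this]; simp
    · have ht : 0 < t := lt_of_lt_of_le hδ h1
      rw [max_eq_left h1]
      field_simp
  have hφd : ‖d - G * d - d * G + G * d * G‖ ≤ 2 * δ := by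
    have e1 : G * d = cfcₙ (fun t => g t * t) d := by
      rw [cfcₙ_mul g (fun t => t) d hgc.continuousOn hg0 continuous_id.continuousOn rfl, hid]
    have e2 : d * G = cfcₙ (fun t => t * g t) d := by
      rw [cfcₙ_mul (fun t => t) g d continuous_id.continuousOn rfl hgc.continuousOn hg0, hid]
    have e3 : G * d * G = cfcₙ (fun t => g t * t * g t) d := by
      rw [cfcₙ_mul (fun t => g t * t) g d (hgc.mul continuous_id).continuousOn (by simp)
        hgc.continuousOn hg0, ← e1]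
    have e4 : d - G * d - d * G + G * d * G =
        cfcₙ (fun t => t - g t * t - t * g t + g t * t * g t) d := by
      rw [cfcₙ_add (fun t => t - g t * t - t * g t) (fun t => g t * t * g t) d
          (by fun_prop) (by simp) (by fun_prop) (by simp),
        cfcₙ_sub (fun t => t - g t * t) (fun t => t * g t) d
          (by fun_prop) (by simp) (by fun_prop) (by simp),
        cfcₙ_sub (fun t => t) (fun t => g t * t) d
          (by fun_prop) (by simp) (by fun_prop) (by simp), ← e1, ← e2, ← e3, hid]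
    rw [e4]
    refine norm_cfcₙ_le fun t ht => ?_
    have ht0 : 0 ≤ t := quasispectrum_nonneg_of_nonneg d hd t ht
    have e5 : t - g t * t - t * g t + g t * t * g t = t * (1 - g t) ^ 2 := by ring
    rw [e5, Real.norm_of_nonneg (by positivity)]
    rcases le_total t (2 * δ) with h1 | h1
    · have h2 : g t ≤ 1 := cut_le_one _ _ _
      have h3 : 0 ≤ g t := cut_nonneg _ _ _
      have h4 : (1 - g t) ^ 2 ≤ 1 := by nlinarith
      nlinarith
    · have : g t = 1 := cut_of_ge hδ2 h1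
      rw [this]; simp; linarith
  have hφc : (G * b - b) * star (G * b - b) = c - G * c - c * G + G * c * G := by
    rw [star_sub, star_mul, hbs, hGs, ← hbb]
    noncomm_ring
  have hle : c - G * c - c * G + G * c * G ≤ d - G * d - d * G + G * d * G := by
    rw [← sub_nonneg]
    set e := CFC.sqrt (d - c) with he
    have he0 : 0 ≤ e := CFC.sqrt_nonneg _
    have hes : star e = e := (IsSelfAdjoint.of_nonneg he0).star_eq
    have hee : e * e = d - c := CFC.sqrt_mul_sqrt_self (d - c) (sub_nonneg.mpr hcd)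
    have : (d - G * d - d * G + G * d * G) - (c - G * c - c * G + G * c * G) =
        star (e - e * G) * (e - e * G) := by
      rw [star_sub, star_mul, hes, hGs]
      have : (e - G * e) * (e - e * G) = e * e - (e * e) * G - G * (e * e) + G * (e * e) * G := by
        noncomm_ring
      rw [this, hee]
      noncomm_ring
    rw [this]
    exact star_mul_self_nonneg _
  have hx : ‖G * b - b‖ ^ 2 ≤ 2 * δ := by
    rw [sq, ← CStarRing.norm_self_mul_star, hφc]
    refine le_trans (CStarAlgebra.norm_le_norm_of_nonneg_of_le ?_ hle) hφd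
    rw [← hφc]
    exact mul_star_self_nonneg _
  refine ⟨H * b, ?_⟩
  have e1 : star (H * b) * d * (H * b) - c = b * (G * b - b) := by
    rw [star_mul, hHs, hbs, mul_sub, hbb, ← hHdH]
    simp only [mul_assoc]
  rw [e1]
  refine lt_of_le_of_lt (norm_mul_le _ _) ?_
  refine lt_of_pow_lt_pow_left₀ 2 hε.le ?_
  rw [mul_pow]
  exact lt_of_le_of_lt (mul_le_mul_of_nonneg_left hx (sq_nonneg _)) hδε

end Crest.Agent.R110
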