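import Crest.Agent.R110.KCmpA

/-!
# R110 toolkit KCmp: comparison in purely infinite algebras

Write `a ≲ b` for `∀ ε > 0, ∃ r, ‖r⋆ b r - a‖ < ε`.
* `cmp_of_le`: `0 ≤ c ≤ d ⇒ c ≲ d`.  Take `h(t) = sqrt(cut (1/n) (2/n) t / t)` (`h 0 = 0`), `q = h(t) t^{1/2} = sqrt (cut (1/n) (2/n) t)`,
  `r = h(d) c^{1/2}`: `r⋆ d r = c^{1/2} q(d)² c^{1/2}`, and `‖c^{1/2}(1-q(d))‖² = ‖(1-q)c(1-q)‖ ≤ ‖(1-q) d (1-q)‖ ≤ 2/n`.
* `compare` (fact (F)): `J = {x | x⋆x ≲ b ∧ xx⋆ ≲ b}` is a closed two-sided ⋆-ideal: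
  right mult: `(xy)⋆(xy) = y⋆x⋆xy`; left mult: `(yx)⋆(yx) ≤ ‖y‖² x⋆x` + `cmp_of_le`; sum: `(x+y)⋆(x+y) ≤ 2(x⋆x + y⋆y)` and
  `r⋆br + t⋆bt ≲ b` by proper infiniteness of `b` (`p⋆bp ≈ b, q⋆bq ≈ b, p⋆bq ≈ 0`: use `pr + qt`, choose p, q after r, t);
  Apply `exists_cstar_quotient`:
  `π(b^{1/2}) = 0` so `π b = 0`, so (`Dom a b`) `π a = 0`, `π(a^{1/2}) = 0`, `a ≲ b`.
* `copies3`: from `IsProperlyInfinite` twice: `r, s` for `h`, then `r r', r s', s`.
-/

set_option autoImplicit false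

namespace Crest.Agent.R110

universe u
variable {A : Type u} [NonUnitalCStarAlgebra A]

namespace KCmpBAux

/-- Cuntz comparison -/
def Cmp (a b : A) : Prop := ∀ ε : ℝ, 0 < ε → ∃ r : A, ‖star r * b * r - a‖ < ε

theorem Cmp.trans {c d b : A} (h1 : Cmp c d) (h2 : Cmp d b) : Cmp c b := by
  intro ε hε
  obtain ⟨r, hr⟩ := h1 (ε / 2) (by linarith)
  obtain ⟨t, ht⟩ := h2 (ε / (2 * (‖r‖ * ‖r‖ + 1))) (by positivity)
  refine ⟨t * r, ?_⟩
  have e1 : star (t * r) * b * (t * r) - c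
      = star r * (star t * b * t - d) * r + (star r * d * r - c) := by
    rw [star_mul]
    noncomm_ring
  rw [e1]
  have h3 : ‖star r * (star t * b * t - d) * r‖ ≤ ‖r‖ * ‖r‖ * (ε / (2 * (‖r‖ * ‖r‖ + 1))) := by
    calc ‖star r * (star t * b * t - d) * r‖
        ≤ ‖star r * (star t * b * t - d)‖ * ‖r‖ := norm_mul_le _ _
      _ ≤ ‖star r‖ * ‖star t * b * t - d‖ * ‖r‖ := by gcongr; exact norm_mul_le _ _
      _ = ‖r‖ * ‖r‖ * ‖star t * b * t - d‖ := by rw [norm_star]; ring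
      _ ≤ _ := by gcongr
  have h4 : ‖r‖ * ‖r‖ * (ε / (2 * (‖r‖ * ‖r‖ + 1))) ≤ ε / 2 := by
    rw [← mul_div_assoc, div_le_div_iff₀ (by positivity) (by norm_num)]
    nlinarith [mul_nonneg (norm_nonneg r) (norm_nonneg r)]
  calc _ ≤ ‖star r * (star t * b * t - d) * r‖ + ‖star r * d * r - c‖ := norm_add_le _ _
    _ < ε := by linarith

theorem Cmp.closed (b : A) : IsClosed {c : A | Cmp c b} := by
  rw [← closure_subset_iff_isClosed]
  intro c hc ε hε
  obtain ⟨c', hc', hd⟩ := Metric.mem_closure_iff.1 hc (ε / 2) (by linarith)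
  obtain ⟨r, hr⟩ := hc' (ε / 2) (by linarith)
  refine ⟨r, ?_⟩
  rw [dist_eq_norm, norm_sub_rev] at hd
  calc ‖star r * b * r - c‖ = ‖(star r * b * r - c') + (c' - c)‖ := by congr 1; abel
    _ ≤ ‖star r * b * r - c'‖ + ‖c' - c‖ := norm_add_le _ _
    _ < ε := by linarith

theorem Cmp.conj {c b : A} (h : Cmp c b) (a : A) : Cmp (star a * c * a) b := by
  refine Cmp.trans (d := c) (fun ε hε => ⟨a, ?_⟩) h
  rw [sub_self, norm_zero]
  exact hε

theorem Cmp.add {c d b : A} (hb : 0 ≤ b) (hp : Crest.OpAlg.IsProperlyInfinite b) (h1 : Cmp c b)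
    (h2 : Cmp d b) : Cmp (c + d) b := by
  intro ε hε
  obtain ⟨r, hr⟩ := h1 (ε / 4) (by linarith)
  obtain ⟨t, ht⟩ := h2 (ε / 4) (by linarith)
  set M : ℝ := ‖r‖ + ‖t‖ with hM
  have hM0 : 0 ≤ M := by positivity
  obtain ⟨p, q, hp1, hq1, hpq⟩ := hp (ε / (2 * (M * M + 1))) (by positivity)
  have hqp : ‖star q * b * p‖ < ε / (2 * (M * M + 1)) := by
    have e : star q * b * p = star (star p * b * q) := by
      rw [star_mul, star_mul, star_star, (IsSelfAdjoint.of_nonneg hb).star_eq, mul_assoc]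
    rw [e, norm_star]
    exact hpq
  refine ⟨p * r + q * t, ?_⟩
  have e1 : star (p * r + q * t) * b * (p * r + q * t) - (c + d)
      = (star r * (star p * b * p - b) * r + star t * (star q * b * q - b) * t
        + star r * (star p * b * q) * t + star t * (star q * b * p) * r)
        + ((star r * b * r - c) + (star t * b * t - d)) := by
    rw [star_add, star_mul, star_mul]
    noncomm_ring
  have hn : ∀ x y z : A, ‖star x * y * z‖ ≤ ‖x‖ * ‖z‖ * ‖y‖ := by
    intro x y z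
    calc ‖star x * y * z‖ ≤ ‖star x * y‖ * ‖z‖ := norm_mul_le _ _
      _ ≤ ‖star x‖ * ‖y‖ * ‖z‖ := by gcongr; exact norm_mul_le _ _
      _ = ‖x‖ * ‖z‖ * ‖y‖ := by rw [norm_star]; ring
  set δ : ℝ := ε / (2 * (M * M + 1)) with hδ
  have hδ0 : 0 < δ := by positivity
  have k1 : ‖star r * (star p * b * p - b) * r‖ ≤ ‖r‖ * ‖r‖ * δ :=
    (hn _ _ _).trans (by gcongr)
  have k2 : ‖star t * (star q * b * q - b) * t‖ ≤ ‖t‖ * ‖t‖ * δ :=
    (hn _ _ _).trans (by gcongr)
  have k3 : ‖star r * (star p * b * q) * t‖ ≤ ‖r‖ * ‖t‖ * δ :=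
    (hn _ _ _).trans (by gcongr)
  have k4 : ‖star t * (star q * b * p) * r‖ ≤ ‖t‖ * ‖r‖ * δ :=
    (hn _ _ _).trans (by gcongr)
  have k5 : M * M * δ ≤ ε / 2 := by
    rw [hδ, ← mul_div_assoc, div_le_div_iff₀ (by positivity) (by norm_num)]
    nlinarith [mul_nonneg hM0 hM0]
  have k6 : ‖r‖ * ‖r‖ * δ + ‖t‖ * ‖t‖ * δ + ‖r‖ * ‖t‖ * δ + ‖t‖ * ‖r‖ * δ = M * M * δ := by
    rw [hM]; ring
  rw [e1]
  calc _ ≤ ‖star r * (star p * b * p - b) * r + star t * (star q * b * q - b) * t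
        + star r * (star p * b * q) * t + star t * (star q * b * p) * r‖
        + ‖(star r * b * r - c) + (star t * b * t - d)‖ := norm_add_le _ _
    _ ≤ (‖star r * (star p * b * p - b) * r‖ + ‖star t * (star q * b * q - b) * t‖
        + ‖star r * (star p * b * q) * t‖ + ‖star t * (star q * b * p) * r‖)
        + (‖star r * b * r - c‖ + ‖star t * b * t - d‖) := by
        gcongr
        · exact norm_add₄_le
        · exact norm_add_le _ _
    _ < ε := by linarith

theorem Cmp.smul {c b : A} (h : Cmp c b) {l : ℝ} (hl : 0 ≤ l) : Cmp (l • c) b := by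
  intro ε hε
  obtain ⟨r, hr⟩ := h (ε / (l + 1)) (by positivity)
  refine ⟨Real.sqrt l • r, ?_⟩
  have e1 : star (Real.sqrt l • r) * b * (Real.sqrt l • r) - l • c
      = l • (star r * b * r - c) := by
    rw [star_smul, smul_mul_assoc, smul_mul_assoc, mul_smul_comm, smul_smul, star_trivial,
      Real.mul_self_sqrt hl, smul_sub]
  rw [e1, norm_smul, Real.norm_of_nonneg hl]
  have h2 : l * ‖star r * b * r - c‖ ≤ l * (ε / (l + 1)) := by gcongr
  have h3 : l * (ε / (l + 1)) < ε := by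
    rw [← mul_div_assoc, div_lt_iff₀ (by positivity)]
    nlinarith
  linarith

/-- the closed ideal -/
def J (b : A) : Set A := {x | Cmp (star x * x) b ∧ Cmp (x * star x) b}

theorem Cmp.of_le {c d b : A} (hc : 0 ≤ c) (hcd : c ≤ d) (h : Cmp d b) : Cmp c b :=
  Cmp.trans (fun ε hε => cmp_of_le hc hcd ε hε) h

theorem sum_le (x y : A) : star (x + y) * (x + y) ≤ (2 : ℝ) • (star x * x + star y * y) := by
  rw [← sub_nonneg]
  have e : (2 : ℝ) • (star x * x + star y * y) - star (x + y) * (x + y)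
      = star (x - y) * (x - y) := by
    rw [star_add, star_sub, two_smul]
    noncomm_ring
  rw [e]
  exact star_mul_self_nonneg _

theorem J_add {b : A} (hb : 0 ≤ b) (hp : Crest.OpAlg.IsProperlyInfinite b) {x y : A} (hx : x ∈ J b)
    (hy : y ∈ J b) : x + y ∈ J b := by
  have key : ∀ u v : A, Cmp (star u * u) b → Cmp (star v * v) b →
      Cmp (star (u + v) * (u + v)) b := fun u v hu hv =>
    Cmp.of_le (star_mul_self_nonneg _) (sum_le u v)
      (Cmp.smul (Cmp.add hb hp hu hv) (by norm_num))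
  refine ⟨key x y hx.1 hy.1, ?_⟩
  have := key (star x) (star y) (by simpa using hx.2) (by simpa using hy.2)
  simpa [star_add] using this

theorem J_star {b : A} {x : A} (hx : x ∈ J b) : star x ∈ J b :=
  ⟨by simpa using hx.2, by simpa using hx.1⟩

theorem J_right {b : A} {x : A} (hx : x ∈ J b) (a : A) : x * a ∈ J b := by
  refine ⟨?_, ?_⟩
  · have := hx.1.conj a
    have e : star (x * a) * (x * a) = star a * (star x * x) * a := by
      rw [star_mul]; noncomm_ring
    rw [e]; exact this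
  · have e : x * a * star (x * a) = star (star x) * (a * star a) * star x := by
      rw [star_mul, star_star]; noncomm_ring
    have h1 : star (star x) * (a * star a) * star x
        ≤ ‖a * star a‖ • (star (star x) * star x) :=
      CStarAlgebra.star_left_conjugate_le_norm_smul (IsSelfAdjoint.mul_star_self a)
    rw [e]
    refine Cmp.of_le ?_ h1 (Cmp.smul (by simpa using hx.2) (norm_nonneg _))
    rw [← e]
    exact mul_star_self_nonneg _

theorem J_left {b : A} {x : A} (hx : x ∈ J b) (a : A) : a * x ∈ J b := by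
  have := J_star (J_right (J_star hx) (star a))
  simpa [star_mul] using this

theorem J_smul {b : A} {x : A} (hx : x ∈ J b) (z : ℂ) : z • x ∈ J b := by
  have h : ∀ y w : A, (star z • y) * (z • w) = (‖z‖ ^ 2 : ℝ) • (y * w) := by
    intro y w
    rw [smul_mul_assoc, mul_smul_comm, smul_smul]
    have : (star z * z : ℂ) = ((‖z‖ ^ 2 : ℝ) : ℂ) := by
      rw [← Complex.normSq_eq_norm_sq, Complex.normSq_eq_conj_mul_self]; rfl
    rw [this, Complex.coe_smul]
  have h' : ∀ y w : A, (z • y) * (star z • w) = (‖z‖ ^ 2 : ℝ) • (y * w) := by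
    intro y w
    rw [smul_mul_assoc, mul_smul_comm, smul_smul]
    have : (z * star z : ℂ) = ((‖z‖ ^ 2 : ℝ) : ℂ) := by
      rw [mul_comm, ← Complex.normSq_eq_norm_sq, Complex.normSq_eq_conj_mul_self]; rfl
    rw [this, Complex.coe_smul]
  refine ⟨?_, ?_⟩
  · rw [star_smul, h]
    exact hx.1.smul (by positivity)
  · rw [star_smul, h']
    exact hx.2.smul (by positivity)

theorem J_zero {b : A} (hb : Cmp b b) : (0 : A) ∈ J b := by
  have : Cmp (0 : A) b := by
    have := hb.smul (le_refl (0 : ℝ))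
    simpa using this
  refine ⟨by simpa using this, by simpa using this⟩

theorem J_closed (b : A) : IsClosed (J b) := by
  have h1 : IsClosed ((fun x : A => star x * x) ⁻¹' {c | Cmp c b}) :=
    (Cmp.closed b).preimage (by fun_prop)
  have h2 : IsClosed ((fun x : A => x * star x) ⁻¹' {c | Cmp c b}) :=
    (Cmp.closed b).preimage (by fun_prop)
  exact h1.inter h2

end KCmpBAux

open KCmpBAux in
/-- fact (F) -/
theorem compare (hA : PI A) {a b : A} (ha : 0 ≤ a) (hb : 0 ≤ b) (h : Dom a b) (ε : ℝ) (hε : 0 < ε) :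
    ∃ r : A, ‖star r * b * r - a‖ < ε := by
  set s : A := CFC.sqrt b with hs
  have hs0 : 0 ≤ s := CFC.sqrt_nonneg b
  have hss : star s = s := (IsSelfAdjoint.of_nonneg hs0).star_eq
  have hsb : star s * s = b := by rw [hss]; exact CFC.sqrt_mul_sqrt_self b hb
  have hsb' : s * star s = b := by rw [hss]; exact CFC.sqrt_mul_sqrt_self b hb
  set u : A := CFC.sqrt a with hu
  have hu0 : 0 ≤ u := CFC.sqrt_nonneg a
  have hus : star u = u := (IsSelfAdjoint.of_nonneg hu0).star_eq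
  have hua : star u * u = a := by rw [hus]; exact CFC.sqrt_mul_sqrt_self a ha
  have hp : Crest.OpAlg.IsProperlyInfinite b := by
    rw [← hsb]; exact hA s
  have hbb : Cmp b b := by
    intro ε hε
    obtain ⟨r, t, hr, -⟩ := hp ε hε
    exact ⟨r, hr⟩
  obtain ⟨B, inst, π, -, hπ⟩ := exists_cstar_quotient (J b) (J_zero hbb)
    (fun x hx y hy => J_add hb hp hx hy) (fun x y hy => J_left hy x)
    (fun x y hy => J_right hy x) (fun z y hy => J_smul hy z) (fun y hy => J_star hy) (J_closed b)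
  have hsJ : s ∈ J b := ⟨by rw [hsb]; exact hbb, by rw [hsb']; exact hbb⟩
  have h1 : π b = 0 := by
    rw [← hsb, map_mul, (hπ s).2 hsJ, mul_zero]
  have h2 : π a = 0 := h B π h1
  have h3 : π u = 0 := by
    rw [← hua, map_mul, map_star] at h2
    exact CStarRing.star_mul_self_eq_zero_iff (π u) |>.1 h2
  have h4 : u ∈ J b := (hπ u).1 h3
  have h5 : Cmp a b := by
    have := h4.1
    rwa [hua] at this
  exact h5 ε hε

end Crest.Agent.R110
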