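import Crest.Agent.R110.KQuo

/-! # R110 toolkit KCompA: small facts on positive elements and ideals

`mem_gen_of_le`: quotient test (`mem_gen_of_quo`): `0 ≤ π a ≤ π b = 0`.
`sqrt_mem_gen`: `cfc_mem` or: `π (√a) ^ 2 = π a = 0`.
`mem_gen_of_star_mul_self`: `‖π x‖² = ‖π (x⋆x)‖ = 0`.
`unit_mul_sqrt`: `‖(1-u)√g‖² = ‖(1-u) g (1-u)⋆‖ = 0`.
-/

set_option autoImplicit false

namespace Crest.Agent.R110

universe u

open Crest.Agent.R117 (IsIdl)

variable {A : Type u} [CStarAlgebra A] [PartialOrder A] [StarOrderedRing A] {C : Set A}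

theorem map_nonneg' {B : Type u} [CStarAlgebra B] [PartialOrder B] [StarOrderedRing B] (π : A →⋆ₐ[ℂ] B)
    {a : A} (ha : 0 ≤ a) : 0 ≤ π a := by
  rw [CStarAlgebra.nonneg_iff_eq_star_mul_self] at ha ⊢
  obtain ⟨b, rfl⟩ := ha
  exact ⟨π b, by rw [map_mul, map_star]⟩

theorem map_mono' {B : Type u} [CStarAlgebra B] [PartialOrder B] [StarOrderedRing B] (π : A →⋆ₐ[ℂ] B)
    {a b : A} (hab : a ≤ b) : π a ≤ π b := by
  have h := map_nonneg' π (sub_nonneg.mpr hab)
  rw [map_sub] at h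
  exact sub_nonneg.mp h

theorem map_sqrt {B : Type u} [CStarAlgebra B] [PartialOrder B] [StarOrderedRing B] (π : A →⋆ₐ[ℂ] B)
    {a : A} (ha : 0 ≤ a) : π (CFC.sqrt a) = CFC.sqrt (π a) := by
  have h1 : 0 ≤ π (CFC.sqrt a) := map_nonneg' π (CFC.sqrt_nonneg a)
  have h2 : π (CFC.sqrt a) * π (CFC.sqrt a) = π a := by
    rw [← map_mul, CFC.sqrt_mul_sqrt_self a ha]
  exact (CFC.sqrt_unique h2 h1).symm

theorem sqrt_mem_idl {I : Set A} (hI : IsIdl I) (hc : IsClosed I) {a : A} (ha : 0 ≤ a) (h : a ∈ I) :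
    CFC.sqrt a ∈ I := by
  obtain ⟨B, i1, i2, i3, π, h1, h2, h3⟩ := exists_quo I hI hc
  rw [← h2, map_sqrt π ha, (h2 a).2 h, CFC.sqrt_zero]

theorem mem_idl_of_star_mul_self {I : Set A} (hI : IsIdl I) (hc : IsClosed I) {x : A} (h : star x * x ∈ I) :
    x ∈ I := by
  obtain ⟨B, i1, i2, i3, π, h1, h2, h3⟩ := exists_quo I hI hc
  rw [← h2]
  have h4 := (h2 _).2 h
  rw [map_mul, map_star] at h4
  exact (CStarRing.star_mul_self_eq_zero_iff (π x)).1 h4

/-- Domination implies membership in the ideal. -/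
theorem mem_gen_of_le {a b : A} (ha : 0 ≤ a) (hab : a ≤ b) : a ∈ gen b := by
  refine mem_gen_of_quo b a fun B i1 i2 i3 π _ hb => ?_
  have h1 := map_nonneg' π ha
  have h2 := map_mono' π hab
  rw [hb] at h2
  exact le_antisymm h2 h1

theorem sqrt_mem_gen {a g : A} (ha : 0 ≤ a) (h : a ∈ gen g) : CFC.sqrt a ∈ gen g :=
  sqrt_mem_idl (gen_idl g) (gen_closed g) ha h

theorem mem_gen_of_star_mul_self {x g : A} (h : star x * x ∈ gen g) : x ∈ gen g :=
  mem_idl_of_star_mul_self (gen_idl g) (gen_closed g) h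

theorem unit_mul_sqrt {u g : A} (g0 : 0 ≤ g) (h : u * g = g) : u * CFC.sqrt g = CFC.sqrt g := by
  have hs : star (CFC.sqrt g) = CFC.sqrt g := (CFC.sqrt_nonneg g).isSelfAdjoint.star_eq
  have h1 : ((1 - u) * CFC.sqrt g) * star ((1 - u) * CFC.sqrt g) = 0 := by
    rw [star_mul, hs]
    calc (1 - u) * CFC.sqrt g * (CFC.sqrt g * star (1 - u))
        = (1 - u) * (CFC.sqrt g * CFC.sqrt g) * star (1 - u) := by simp only [mul_assoc]
      _ = 0 := by rw [CFC.sqrt_mul_sqrt_self g g0, sub_mul, one_mul, h, sub_self, zero_mul]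
  have h2 := (CStarRing.mul_star_self_eq_zero_iff ((1 - u) * CFC.sqrt g)).1 h1
  rw [sub_mul, one_mul, sub_eq_zero] at h2
  exact h2.symm

theorem sqrt_mul_unit {u g : A} (g0 : 0 ≤ g) (h : g * u = g) : CFC.sqrt g * u = CFC.sqrt g := by
  have hs : star (CFC.sqrt g) = CFC.sqrt g := (CFC.sqrt_nonneg g).isSelfAdjoint.star_eq
  have hg : star g = g := g0.isSelfAdjoint.star_eq
  have h1 : star u * g = g := by
    have := congrArg star h
    rwa [star_mul, hg] at this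
  have h2 := congrArg star (unit_mul_sqrt g0 h1)
  rwa [star_mul, star_star, hs] at h2

/-- norm of `x` from a bound on `x⋆x`. -/
theorem norm_le_of_star_mul_self_le {x : A} {c : ℝ} (hc : 0 ≤ c) (h : star x * x ≤ algebraMap ℝ A (c ^ 2)) :
    ‖x‖ ≤ c := by
  have h1 : ‖star x * x‖ ≤ c ^ 2 :=
    (CStarAlgebra.norm_le_iff_le_algebraMap (star x * x) (sq_nonneg c) (star_mul_self_nonneg x)).2 h
  rw [CStarRing.norm_star_mul_self] at h1
  exact abs_le_of_sq_le_sq' (by simpa [sq] using h1) hc |>.2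

theorem star_mul_self_le_norm_sq (x : A) : star x * x ≤ algebraMap ℝ A (‖x‖ ^ 2) := by
  refine (CStarAlgebra.norm_le_iff_le_algebraMap (star x * x) (sq_nonneg _) (star_mul_self_nonneg x)).1 ?_
  rw [CStarRing.norm_star_mul_self, sq]

end Crest.Agent.R110
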