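import Crest.Agent.R110.KCompA

/-! # R110 toolkit KCompB: Cuntz comparison in a purely infinite ideal

`copies`: induction on `n`: `r₀ = r`, `r_{i+1} = s * r'_i` (choose `r'` first, then `r, s` with a much smaller
error): `(s r'_i)⋆ h (s r'_j) = r'_i⋆ (s⋆hs) r'_j ≈ r'_i⋆ h r'_j`, `r⋆ h s r'_i ≈ 0`.
`compare`: `d = (m+δ)^{-1/2} h^{1/2}` : `d⋆ m d = h - δ h^{1/2}(m+δ)⁻¹h^{1/2}`,
`‖d‖² = ‖(m+δ)^{-1/2} h (m+δ)^{-1/2}‖ ≤ 1` (so the error is `≤ δ`).
-/

set_option autoImplicit false

namespace Crest.Agent.R110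

universe u

open Crest.Agent.R117 (IsIdl)

variable {A : Type u} [CStarAlgebra A] [PartialOrder A] [StarOrderedRing A] {C : Set A}

theorem PI.copies (hC : PI C) {h : A} (hh : h ∈ C) (h0 : 0 ≤ h) (n : ℕ) (ε : ℝ) (hε : 0 < ε) :
    ∃ r : Fin n → A, (∀ i, r i ∈ C) ∧ ∀ i j, ‖star (r i) * h * r j - if i = j then h else 0‖ < ε := by
  induction n generalizing ε with
  | zero => exact ⟨fun i => i.elim0, fun i => i.elim0, fun i => i.elim0⟩
  | succ n ih =>
    obtain ⟨r', hr'C, hr'⟩ := ih (ε / 2) (by positivity)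
    have hstar : star h = h := h0.isSelfAdjoint.star_eq
    obtain ⟨M, hM1, hM⟩ : ∃ M : ℝ, 1 ≤ M ∧ ∀ i, ‖r' i‖ ≤ M := by
      refine ⟨1 + ∑ i, ‖r' i‖, by
        have : 0 ≤ ∑ i, ‖r' i‖ := Finset.sum_nonneg fun i _ => norm_nonneg _
        linarith, fun i => ?_⟩
      have := Finset.single_le_sum (f := fun i => ‖r' i‖) (fun i _ => norm_nonneg _) (Finset.mem_univ i)
      linarith
    set ε' : ℝ := ε / (2 * (M * M)) with hε'
    have hMM : 0 < M * M := by positivity
    have hε'0 : 0 < ε' := by positivity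
    have hε'M2 : M * ε' * M = ε / 2 := by
      rw [hε']; field_simp
    have hε'M : ε' * M ≤ ε / 2 := by
      rw [← hε'M2]
      have : ε' * M ≤ M * (ε' * M) := le_mul_of_one_le_left (by positivity) hM1
      linarith [this, mul_assoc M ε' M]
    have hε'1 : ε' ≤ ε / 2 := by
      have : ε' ≤ ε' * M := le_mul_of_one_le_right hε'0.le hM1
      linarith
    obtain ⟨r, hrC, s, hsC, h1, h2, h3⟩ := hC.pi h hh h0 ε' hε'0
    refine ⟨Fin.cons r (fun i => s * r' i), ?_, ?_⟩
    · intro i
      refine Fin.cases ?_ (fun i => ?_) i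
      · simpa using hrC
      · simpa using hC.idl.right (r' i) s hsC
    · intro i j
      refine Fin.cases ?_ (fun i => ?_) i <;> refine Fin.cases ?_ (fun j => ?_) j
      · simp only [Fin.cons_zero, if_true]
        linarith
      · simp only [Fin.cons_zero, Fin.cons_succ]
        rw [if_neg (Fin.succ_ne_zero j).symm, sub_zero]
        calc ‖star r * h * (s * r' j)‖ = ‖star r * h * s * r' j‖ := by simp only [mul_assoc]
          _ ≤ ‖star r * h * s‖ * ‖r' j‖ := norm_mul_le _ _
          _ ≤ ε' * M := mul_le_mul h3.le (hM j) (norm_nonneg _) hε'0.le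
          _ < ε := by linarith
      · simp only [Fin.cons_zero, Fin.cons_succ]
        rw [if_neg (Fin.succ_ne_zero i), sub_zero]
        calc ‖star (s * r' i) * h * r‖ = ‖star (r' i) * star (star r * h * s)‖ := by
              simp only [star_mul, star_star, hstar, mul_assoc]
          _ ≤ ‖star (r' i)‖ * ‖star (star r * h * s)‖ := norm_mul_le _ _
          _ = ‖r' i‖ * ‖star r * h * s‖ := by rw [norm_star, norm_star]
          _ ≤ M * ε' := mul_le_mul (hM i) h3.le (norm_nonneg _) (by positivity)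
          _ < ε := by linarith [mul_comm M ε']
      · simp only [Fin.cons_succ, Fin.succ_inj]
        have e1 : star (s * r' i) * h * (s * r' j) - (if i = j then h else 0)
            = star (r' i) * (star s * h * s - h) * r' j
              + (star (r' i) * h * r' j - if i = j then h else 0) := by
          simp only [star_mul, mul_sub, sub_mul, mul_assoc]
          abel
        rw [e1]
        calc _ ≤ ‖star (r' i) * (star s * h * s - h) * r' j‖
                + ‖star (r' i) * h * r' j - if i = j then h else 0‖ := norm_add_le _ _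
          _ < ε / 2 + ε / 2 := by
              refine add_lt_add_of_le_of_lt ?_ (hr' i j)
              calc _ ≤ ‖star (r' i) * (star s * h * s - h)‖ * ‖r' j‖ := norm_mul_le _ _
                _ ≤ (‖star (r' i)‖ * ‖star s * h * s - h‖) * ‖r' j‖ := by
                    gcongr; exact norm_mul_le _ _
                _ ≤ (M * ε') * M := by
                    rw [norm_star]
                    exact mul_le_mul (mul_le_mul (hM i) h2.le (norm_nonneg _) (by positivity)) (hM j)
                      (norm_nonneg _) (by positivity)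
                _ = ε / 2 := hε'M2
          _ = ε := by ring

theorem compare {m h : A} (hm : 0 ≤ m) (h0 : 0 ≤ h) (δ : ℝ) (hδ : 0 < δ) (hle : h ≤ m + algebraMap ℝ A δ) :
    ∃ d : A, ‖star d * m * d - h‖ ≤ δ ∧ (∃ e : A, d = e * CFC.sqrt h) ∧ ‖d‖ ≤ 1 := by
  set f : ℝ → ℝ := fun x => (Real.sqrt (x + δ))⁻¹ with hf
  have hspec : ∀ x ∈ spectrum ℝ m, 0 ≤ x := fun x hx => spectrum_nonneg_of_nonneg hm hx
  have hfc : ContinuousOn f (spectrum ℝ m) := by
    refine ContinuousOn.inv₀ (by fun_prop) fun x hx => ?_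
    have := hspec x hx
    exact (Real.sqrt_pos.2 (by linarith)).ne'
  set e : A := cfc f m with he
  have hesa : star e = e := by
    have : IsSelfAdjoint e := cfc_predicate f m
    exact this.star_eq
  have hn : m + algebraMap ℝ A δ = cfc (fun x : ℝ => x + δ) m := by
    rw [cfc_add_const δ (fun x : ℝ => x) m, cfc_id' ℝ m]
  have hene : e * (m + algebraMap ℝ A δ) * e = 1 := by
    rw [hn, he, ← cfc_mul f (fun x : ℝ => x + δ) m hfc (by fun_prop),
      ← cfc_mul (fun x : ℝ => f x * (x + δ)) f m (hfc.mul (by fun_prop)) hfc, ← cfc_one ℝ m]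
    refine cfc_congr fun x hx => ?_
    have h1 := hspec x hx
    have h2 : 0 < x + δ := by linarith
    have h3 : Real.sqrt (x + δ) * Real.sqrt (x + δ) = x + δ := Real.mul_self_sqrt h2.le
    have h4 : Real.sqrt (x + δ) ≠ 0 := (Real.sqrt_pos.2 h2).ne'
    simp only [hf, Pi.one_apply]
    field_simp
    rw [sq]; exact h3.symm
  have hs : star (CFC.sqrt h) = CFC.sqrt h := (CFC.sqrt_nonneg h).isSelfAdjoint.star_eq
  have hss : CFC.sqrt h * CFC.sqrt h = h := CFC.sqrt_mul_sqrt_self h h0
  set d : A := e * CFC.sqrt h with hd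
  have hd1 : ‖d‖ ≤ 1 := by
    have h1 : d * star d = e * h * e := by
      rw [hd, star_mul, hesa, hs]
      calc e * CFC.sqrt h * (CFC.sqrt h * e) = e * (CFC.sqrt h * CFC.sqrt h) * e := by
            simp only [mul_assoc]
        _ = e * h * e := by rw [hss]
    have h2 : d * star d ≤ algebraMap ℝ A (1 ^ 2) := by
      rw [h1, one_pow, map_one, ← hene]
      have := star_left_conjugate_le_conjugate hle e
      rwa [hesa] at this
    have h3 : ‖star d‖ ≤ 1 := norm_le_of_star_mul_self_le zero_le_one (by rwa [star_star])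
    rwa [norm_star] at h3
  refine ⟨d, ?_, ⟨e, rfl⟩, hd1⟩
  have key : star d * m * d - h = -(δ • (star d * d)) := by
    have h1 : e * m * e = 1 - δ • (e * e) := by
      rw [← hene, mul_add, add_mul, Algebra.algebraMap_eq_smul_one, mul_smul_comm, mul_one, smul_mul_assoc]
      abel
    rw [hd, star_mul, hesa, hs]
    calc CFC.sqrt h * e * m * (e * CFC.sqrt h) - h
        = CFC.sqrt h * (e * m * e) * CFC.sqrt h - h := by simp only [mul_assoc]
      _ = -(δ • (CFC.sqrt h * e * (e * CFC.sqrt h))) := by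
          rw [h1, mul_sub, sub_mul, mul_one, hss, mul_smul_comm, smul_mul_assoc]
          simp only [mul_assoc]
          abel
  rw [key, norm_neg, norm_smul, Real.norm_of_nonneg hδ.le]
  have h5 : ‖star d * d‖ ≤ 1 := by
    rw [CStarRing.norm_star_mul_self]
    calc ‖d‖ * ‖d‖ ≤ 1 * 1 := mul_le_mul hd1 hd1 (norm_nonneg _) zero_le_one
      _ = 1 := one_mul 1
  calc δ * ‖star d * d‖ ≤ δ * 1 := mul_le_mul_of_nonneg_left h5 hδ.le
    _ = δ := mul_one δ

end Crest.Agent.R110
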