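import Crest.Agent.R110.KCompB

/-! # R110 toolkit KCompC: comparison by ideals in a purely infinite ideal

`below`: `h ∈ gen g` ⇒ `h ≤ ε + ∑ cⱼ⋆ g cⱼ =: ε + m` (`gen_approx`, `x g y + y⋆ g x⋆ ≤ x g x⋆ + y⋆ g y`),
`m ≈ R⋆ g R` with `R = ∑ rⱼ cⱼ` (`copies`), then `compare`; `r = R d` (`‖d‖ ≤ 1`, `d ∈ C`).
`below_copies`: `copies` for `g`, or `below` and then `copies` for `h`: `r i = r * r'_i`.
`vecs`: `x i = √g * r i`, `unit_mul_sqrt`.
-/

set_option autoImplicit false

namespace Crest.Agent.R110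

universe u

open Crest.Agent.R117 (IsIdl)

variable {A : Type u} [CStarAlgebra A] [PartialOrder A] [StarOrderedRing A] {C : Set A}

/-- domination of an element of the ideal by a sum of conjugates of the generator. -/
theorem below_dom {g h : A} (g0 : 0 ≤ g) (h0 : 0 ≤ h) (hh : h ∈ gen g) (δ : ℝ) (hδ : 0 < δ) :
    ∃ (n : ℕ) (c : Fin n → A), h ≤ (∑ i, star (c i) * g * c i) + algebraMap ℝ A δ := by
  have gsa : star g = g := (IsSelfAdjoint.of_nonneg g0).star_eq
  have hsa : star h = h := (IsSelfAdjoint.of_nonneg h0).star_eq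
  obtain ⟨n, a, b, hab⟩ := gen_approx g (IsSelfAdjoint.of_nonneg g0) hh (δ / 2) (by positivity)
  refine ⟨n + n, Fin.append (fun i => star (a i)) b, ?_⟩
  rw [Fin.sum_univ_add]
  simp only [Fin.append_left, Fin.append_right, star_star]
  set x := ∑ i, a i * g * b i with hx
  set w := (h - x) + star (h - x) with hw
  have hwsa : IsSelfAdjoint w := by
    rw [isSelfAdjoint_iff, hw, star_add, star_star, add_comm]
  have hwn : ‖w‖ ≤ δ := by
    calc ‖w‖ ≤ ‖h - x‖ + ‖star (h - x)‖ := norm_add_le _ _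
      _ ≤ δ := by rw [norm_star]; linarith
  have h1 : w ≤ algebraMap ℝ A δ :=
    (IsSelfAdjoint.le_algebraMap_norm_self hwsa).trans (algebraMap_mono A hwn)
  have h2 : x + star x ≤ ∑ i, a i * g * star (a i) + ∑ i, star (b i) * g * b i := by
    rw [hx, star_sum, ← Finset.sum_add_distrib, ← Finset.sum_add_distrib]
    refine Finset.sum_le_sum fun i _ => ?_
    have h3 := star_left_conjugate_nonneg g0 (star (a i) - b i)
    have h4 : star (star (a i) - b i) * g * (star (a i) - b i) =
        (a i * g * star (a i) + star (b i) * g * b i) -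
          (a i * g * b i + star (a i * g * b i)) := by
      rw [star_sub, star_star, star_mul, star_mul, gsa]
      noncomm_ring
    rw [h4] at h3
    exact sub_nonneg.mp h3
  have h5 : h + h = (x + star x) + w := by
    rw [hw, star_sub, hsa]
    abel
  calc h ≤ h + h := le_add_of_nonneg_right h0
    _ = (x + star x) + w := h5
    _ ≤ _ := add_le_add h2 h1

theorem PI.below (hC : PI C) {g h : A} (hg : g ∈ C) (g0 : 0 ≤ g) (h0 : 0 ≤ h) (hh : h ∈ gen g)
    (ε : ℝ) (hε : 0 < ε) : ∃ r ∈ C, ‖star r * g * r - h‖ < ε := by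
  classical
  obtain ⟨n, c, hc⟩ := below_dom g0 h0 hh (ε / 2) (by positivity)
  set S : ℝ := ∑ i, ‖c i‖ with hS
  have hS0 : 0 ≤ S := Finset.sum_nonneg fun i _ => norm_nonneg _
  set η : ℝ := ε / 2 / (S ^ 2 + 1) with hη
  have hη0 : 0 < η := by positivity
  obtain ⟨r, hrC, hr⟩ := hC.copies hg g0 n η hη0
  set m := ∑ i, star (c i) * g * c i with hm
  have hm0 : 0 ≤ m := Finset.sum_nonneg fun i _ => star_left_conjugate_nonneg g0 (c i)
  obtain ⟨d, hd, -, hd1⟩ := compare hm0 h0 (ε / 2) (by positivity) hc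
  set R := ∑ i, r i * c i with hR
  have hRC : R ∈ C := IsIdl_sum hC.idl _ _ fun i _ => hC.idl.right _ _ (hrC i)
  have hRm : ‖star R * g * R - m‖ ≤ η * S ^ 2 := by
    have e1 : star R * g * R - m = ∑ i, ∑ j,
        star (c i) * (star (r i) * g * r j - if i = j then g else 0) * c j := by
      have e2 : star R * g * R = ∑ i, ∑ j, star (c i) * (star (r i) * g * r j) * c j := by
        rw [hR, star_sum, Finset.sum_mul, Finset.sum_mul_sum]
        refine Finset.sum_congr rfl fun i _ => Finset.sum_congr rfl fun j _ => ?_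
        rw [star_mul]
        simp only [mul_assoc]
      have e3 : m = ∑ i, ∑ j, star (c i) * (if i = j then g else 0) * c j := by
        rw [hm]
        refine Finset.sum_congr rfl fun i _ => ?_
        rw [Finset.sum_eq_single i]
        · simp
        · intro j _ hj
          simp [Ne.symm hj]
        · simp
      rw [e2, e3, ← Finset.sum_sub_distrib]
      refine Finset.sum_congr rfl fun i _ => ?_
      rw [← Finset.sum_sub_distrib]
      refine Finset.sum_congr rfl fun j _ => ?_
      rw [mul_sub, sub_mul]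
    rw [e1]
    calc ‖∑ i, ∑ j, star (c i) * (star (r i) * g * r j - if i = j then g else 0) * c j‖
        ≤ ∑ i, ∑ j, ‖c i‖ * η * ‖c j‖ := by
          refine (norm_sum_le _ _).trans (Finset.sum_le_sum fun i _ => ?_)
          refine (norm_sum_le _ _).trans (Finset.sum_le_sum fun j _ => ?_)
          calc _ ≤ ‖star (c i) * (star (r i) * g * r j - if i = j then g else 0)‖ * ‖c j‖ :=
                norm_mul_le _ _
            _ ≤ (‖star (c i)‖ * ‖star (r i) * g * r j - if i = j then g else 0‖) * ‖c j‖ := by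
                gcongr
                exact norm_mul_le _ _
            _ ≤ ‖c i‖ * η * ‖c j‖ := by
                rw [norm_star]
                gcongr
                exact (hr i j).le
      _ = η * S ^ 2 := by
          rw [hS, pow_two, Finset.sum_mul_sum, Finset.mul_sum]
          refine Finset.sum_congr rfl fun i _ => ?_
          rw [Finset.mul_sum]
          refine Finset.sum_congr rfl fun j _ => ?_
          ring
  refine ⟨R * d, hC.idl.right _ _ hRC, ?_⟩
  have e1 : star (R * d) * g * (R * d) - h =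
      star d * (star R * g * R - m) * d + (star d * m * d - h) := by
    rw [star_mul]
    noncomm_ring
  rw [e1]
  have h1 : ‖star d * (star R * g * R - m) * d‖ ≤ η * S ^ 2 := by
    calc _ ≤ ‖star d * (star R * g * R - m)‖ * ‖d‖ := norm_mul_le _ _
      _ ≤ (‖star d‖ * ‖star R * g * R - m‖) * ‖d‖ := by
          gcongr
          exact norm_mul_le _ _
      _ ≤ (1 * (η * S ^ 2)) * 1 := by
          rw [norm_star]
          gcongr
      _ = η * S ^ 2 := by ring
  have h2 : η * S ^ 2 < ε / 2 := by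
    rw [hη, div_mul_eq_mul_div, div_lt_iff₀ (by positivity)]
    nlinarith
  calc _ ≤ ‖star d * (star R * g * R - m) * d‖ + ‖star d * m * d - h‖ := norm_add_le _ _
    _ < ε := by linarith

theorem PI.below_copies (hC : PI C) {g h : A} (hg : g ∈ C) (g0 : 0 ≤ g) (h0 : 0 ≤ h) (hh : h ∈ gen g)
    (n : ℕ) (ε : ℝ) (hε : 0 < ε) :
    ∃ r : Fin n → A, (∀ i, r i ∈ C) ∧ ∀ i j, ‖star (r i) * g * r j - if i = j then h else 0‖ < ε := by
  classical
  have hhC : h ∈ C := gen_le hC.idl hC.closed hg hh
  obtain ⟨r', hr'C, hr'⟩ := hC.copies hhC h0 n (ε / 2) (by positivity)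
  set S : ℝ := ∑ i, ‖r' i‖ with hS
  have hS0 : 0 ≤ S := Finset.sum_nonneg fun i _ => norm_nonneg _
  have hSi : ∀ i, ‖r' i‖ ≤ S := fun i =>
    Finset.single_le_sum (f := fun i => ‖r' i‖) (fun i _ => norm_nonneg _) (Finset.mem_univ i)
  obtain ⟨r, hrC, hr⟩ := hC.below hg g0 h0 hh (ε / 2 / (S ^ 2 + 1)) (by positivity)
  refine ⟨fun i => r * r' i, fun i => hC.idl.left _ _ (hr'C i), fun i j => ?_⟩
  have e1 : star (r * r' i) * g * (r * r' j) - (if i = j then h else 0) =
      star (r' i) * (star r * g * r - h) * r' j +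
        (star (r' i) * h * r' j - if i = j then h else 0) := by
    rw [star_mul]
    noncomm_ring
  rw [e1]
  have h1 : ‖star (r' i) * (star r * g * r - h) * r' j‖ ≤ ε / 2 := by
    calc _ ≤ ‖star (r' i) * (star r * g * r - h)‖ * ‖r' j‖ := norm_mul_le _ _
      _ ≤ (‖star (r' i)‖ * ‖star r * g * r - h‖) * ‖r' j‖ := by
          gcongr
          exact norm_mul_le _ _
      _ ≤ (S * (ε / 2 / (S ^ 2 + 1))) * S := by
          rw [norm_star]
          gcongr
          · exact hSi i
          · exact hSi j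
      _ = ε / 2 * (S ^ 2 / (S ^ 2 + 1)) := by ring
      _ ≤ ε / 2 * 1 := by
          gcongr
          rw [div_le_one (by positivity)]
          linarith
      _ = ε / 2 := mul_one _
  calc _ ≤ ‖star (r' i) * (star r * g * r - h) * r' j‖ +
        ‖star (r' i) * h * r' j - if i = j then h else 0‖ := norm_add_le _ _
    _ < ε := by linarith [hr' i j]

/-- Orthonormal copies of `h` inside the hereditary algebra of `g`, in vector form. -/
theorem PI.vecs (hC : PI C) {g h : A} (hg : g ∈ C) (g0 : 0 ≤ g) (h0 : 0 ≤ h) (hh : h ∈ gen g)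
    (n : ℕ) (ε : ℝ) (hε : 0 < ε) :
    ∃ x : Fin n → A, (∀ i, x i ∈ C) ∧ (∀ i, ∃ r ∈ C, x i = CFC.sqrt g * r) ∧
      (∀ u : A, u * g = g → ∀ i, u * x i = x i) ∧
      ∀ i j, ‖star (x i) * x j - if i = j then h else 0‖ < ε := by
  obtain ⟨r, hrC, hr⟩ := hC.below_copies hg g0 h0 hh n ε hε
  refine ⟨fun i => CFC.sqrt g * r i, fun i => hC.idl.left _ _ (hrC i),
    fun i => ⟨r i, hrC i, rfl⟩, fun u hu i => ?_, fun i j => ?_⟩
  · rw [← mul_assoc, unit_mul_sqrt g0 hu]
  · have hs : star (CFC.sqrt g) = CFC.sqrt g :=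
      (IsSelfAdjoint.of_nonneg (CFC.sqrt_nonneg g)).star_eq
    have e1 : star (CFC.sqrt g * r i) * (CFC.sqrt g * r j) = star (r i) * g * r j := by
      rw [star_mul, hs]
      calc star (r i) * CFC.sqrt g * (CFC.sqrt g * r j)
          = star (r i) * (CFC.sqrt g * CFC.sqrt g) * r j := by simp only [mul_assoc]
        _ = star (r i) * g * r j := by rw [CFC.sqrt_mul_sqrt_self g g0]
    rw [e1]
    exact hr i j

end Crest.Agent.R110
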