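import Crest.Agent.R117.Quot

/-!
# Row 110 (S0145): toolkit definitions

Everything happens in a UNITAL C⋆-algebra `A : Type u` with a closed two-sided ideal `C : Set A`, all of whose
positive elements are properly infinite inside `C` (`PI C`).  (For S0145: `A = Unitization ℂ C₀`.)
Order: `[PartialOrder A] [StarOrderedRing A]`.

* `gen g`      : closed two-sided ideal generated by `g` (a set).
* `PI C`       : purely infinite closed ideal.
* `rampF s t`  : continuous function, `0` on `(-∞, s]`, `1` on `[t, ∞)`, linear in between.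
* `cutF t`     : `x ↦ max (x - t) 0`.
* `ramp s t a = cfc (rampF s t) a`, `cut t a = cfc (cutF t) a`.
-/

set_option autoImplicit false

namespace Crest.Agent.R110

universe u

open Crest.Agent.R117 (IsIdl)

/-- The closed two-sided ⋆-ideal generated by `g`. -/
def gen {A : Type u} [CStarAlgebra A] (g : A) : Set A :=
  ⋂₀ {I : Set A | IsIdl I ∧ IsClosed I ∧ g ∈ I}

/-- `C` is a closed two-sided ideal of `A` all of whose positive elements are properly infinite in `C`. -/
structure PI {A : Type u} [CStarAlgebra A] [PartialOrder A] (C : Set A) : Prop where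
  idl : IsIdl C
  closed : IsClosed C
  pi : ∀ h ∈ C, 0 ≤ h → ∀ ε : ℝ, 0 < ε → ∃ r ∈ C, ∃ s ∈ C,
    ‖star r * h * r - h‖ < ε ∧ ‖star s * h * s - h‖ < ε ∧ ‖star r * h * s‖ < ε

/-- `0` on `(-∞, s]`, `1` on `[t, ∞)`, linear in between. -/
noncomputable def rampF (s t : ℝ) (x : ℝ) : ℝ := min 1 (max 0 ((x - s) / (t - s)))

/-- `x ↦ (x - t)₊`. -/
noncomputable def cutF (t : ℝ) (x : ℝ) : ℝ := max (x - t) 0

noncomputable def ramp {A : Type u} [CStarAlgebra A] (s t : ℝ) (a : A) : A := cfc (rampF s t) a

noncomputable def cut {A : Type u} [CStarAlgebra A] (t : ℝ) (a : A) : A := cfc (cutF t) a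

end Crest.Agent.R110
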