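import Crest.Agent.R110.KDefs

/-! # R110 toolkit: closed ideals `gen g`, approximation by finite sums, functional calculus in ideals -/

set_option autoImplicit false

namespace Crest.Agent.R110

universe u

open Crest.Agent.R117 (IsIdl)

variable {A : Type u} [CStarAlgebra A]

theorem mem_gen (g : A) : g ∈ gen g := by
  intro I hI
  exact hI.2.2

theorem gen_idl (g : A) : IsIdl (gen g) where
  zero := fun I hI => hI.1.zero
  add := fun x hx y hy I hI => hI.1.add x (hx I hI) y (hy I hI)
  left := fun a x hx I hI => hI.1.left a x (hx I hI)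
  right := fun a x hx I hI => hI.1.right a x (hx I hI)
  star := fun x hx I hI => hI.1.star x (hx I hI)

theorem gen_closed (g : A) : IsClosed (gen g) := isClosed_sInter fun _ hI => hI.2.1

theorem gen_le {I : Set A} (hI : IsIdl I) (hc : IsClosed I) {g : A} (hg : g ∈ I) : gen g ⊆ I :=
  fun _ hx => hx I ⟨hI, hc, hg⟩

theorem gen_mono {g h : A} (hg : g ∈ gen h) : gen g ⊆ gen h := gen_le (gen_idl h) (gen_closed h) hg

theorem IsIdl_neg {I : Set A} (hI : IsIdl I) {x : A} (hx : x ∈ I) : -x ∈ I := by
  simpa using hI.left (-1) x hx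

theorem IsIdl_sub {I : Set A} (hI : IsIdl I) {x y : A} (hx : x ∈ I) (hy : y ∈ I) : x - y ∈ I := by
  rw [sub_eq_add_neg]; exact hI.add x hx _ (IsIdl_neg hI hy)

theorem IsIdl_smul {I : Set A} (hI : IsIdl I) (c : ℂ) {x : A} (hx : x ∈ I) : c • x ∈ I := by
  have := hI.left (algebraMap ℂ A c) x hx
  rwa [← Algebra.smul_def] at this

theorem IsIdl_smulR {I : Set A} (hI : IsIdl I) (c : ℝ) {x : A} (hx : x ∈ I) : c • x ∈ I := by
  have := hI.left (algebraMap ℝ A c) x hx
  rwa [← Algebra.smul_def] at this

theorem IsIdl_sum {I : Set A} (hI : IsIdl I) {ι : Type*} (s : Finset ι) (f : ι → A) (hf : ∀ i ∈ s, f i ∈ I) :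
    ∑ i ∈ s, f i ∈ I := by
  classical
  induction s using Finset.induction_on with
  | empty => simpa using hI.zero
  | insert a s ha ih =>
    rw [Finset.sum_insert ha]
    exact hI.add _ (hf a (by simp)) _ (ih fun i hi => hf i (by simp [hi]))

theorem IsIdl_pow {I : Set A} (hI : IsIdl I) {x : A} (hx : x ∈ I) (n : ℕ) (hn : n ≠ 0) : x ^ n ∈ I := by
  obtain ⟨m, rfl⟩ := Nat.exists_eq_succ_of_ne_zero hn
  rw [pow_succ]; exact hI.left _ _ hx

theorem gen_approx_fin (g : A) {x : A}
    (hx : x ∈ AddSubmonoid.closure {y : A | ∃ a b : A, y = a * g * b}) :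
    ∃ (n : ℕ) (a b : Fin n → A), x = ∑ i, a i * g * b i := by
  induction hx using AddSubmonoid.closure_induction with
  | mem y hy =>
    obtain ⟨a, b, rfl⟩ := hy
    exact ⟨1, fun _ => a, fun _ => b, by simp⟩
  | zero => exact ⟨0, Fin.elim0, Fin.elim0, by simp⟩
  | add x y _ _ hx hy =>
    obtain ⟨n, a, b, rfl⟩ := hx
    obtain ⟨m, a', b', rfl⟩ := hy
    refine ⟨n + m, Fin.append a a', Fin.append b b', ?_⟩
    rw [Fin.sum_univ_add]
    simp

/-- Elements of `gen g` are norm limits of finite sums `∑ aᵢ g bᵢ`. -/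
theorem gen_approx (g : A) (hg : IsSelfAdjoint g) {x : A} (hx : x ∈ gen g) (ε : ℝ) (hε : 0 < ε) :
    ∃ (n : ℕ) (a b : Fin n → A), ‖x - ∑ i, a i * g * b i‖ < ε := by
  set S := AddSubmonoid.closure {y : A | ∃ a b : A, y = a * g * b} with hS
  have hleft : ∀ a : A, ∀ y ∈ S, a * y ∈ S := by
    intro a y hy
    induction hy using AddSubmonoid.closure_induction with
    | mem y hy =>
      obtain ⟨c, b, rfl⟩ := hy
      exact AddSubmonoid.subset_closure ⟨a * c, b, by simp only [mul_assoc]⟩
    | zero => rw [mul_zero]; exact S.zero_mem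
    | add x y _ _ hx hy => rw [mul_add]; exact S.add_mem hx hy
  have hright : ∀ a : A, ∀ y ∈ S, y * a ∈ S := by
    intro a y hy
    induction hy using AddSubmonoid.closure_induction with
    | mem y hy =>
      obtain ⟨c, b, rfl⟩ := hy
      exact AddSubmonoid.subset_closure ⟨c, b * a, by simp only [mul_assoc]⟩
    | zero => rw [zero_mul]; exact S.zero_mem
    | add x y _ _ hx hy => rw [add_mul]; exact S.add_mem hx hy
  have hstar : ∀ y ∈ S, star y ∈ S := by
    intro y hy
    induction hy using AddSubmonoid.closure_induction with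
    | mem y hy =>
      obtain ⟨c, b, rfl⟩ := hy
      exact AddSubmonoid.subset_closure ⟨star b, star c, by
        rw [star_mul, star_mul, hg.star_eq, mul_assoc]⟩
    | zero => rw [star_zero]; exact S.zero_mem
    | add x y _ _ hx hy => rw [star_add]; exact S.add_mem hx hy
  have hI : IsIdl (closure (S : Set A)) :=
    { zero := subset_closure S.zero_mem
      add := fun x hx y hy => S.topologicalClosure.add_mem hx hy
      left := fun a x hx => map_mem_closure (f := fun y : A => a * y)
        (continuous_const.mul continuous_id) hx (hleft a)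
      right := fun a x hx => map_mem_closure (f := fun y : A => y * a)
        (continuous_id.mul continuous_const) hx (hright a)
      star := fun x hx => map_mem_closure continuous_star hx hstar }
  have hgS : g ∈ closure (S : Set A) :=
    subset_closure (AddSubmonoid.subset_closure ⟨1, 1, by simp⟩)
  have h1 := gen_le hI isClosed_closure hgS hx
  obtain ⟨y, hy, hxy⟩ := Metric.mem_closure_iff.mp h1 ε hε
  obtain ⟨n, a, b, rfl⟩ := gen_approx_fin g hy
  exact ⟨n, a, b, by rwa [dist_eq_norm] at hxy⟩

/-- Continuous functions vanishing at `0` of a self-adjoint element of a closed ideal stay in the ideal. -/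
theorem cfc_mem {I : Set A} (hI : IsIdl I) (hc : IsClosed I) {a : A} (ha : IsSelfAdjoint a) (haI : a ∈ I)
    (f : ℝ → ℝ) (hf : Continuous f) (h0 : f 0 = 0) : cfc f a ∈ I := by
  obtain ⟨B, hB, π, _, h2, h3, _⟩ := Crest.Agent.R117.Quotaux.exists_cstar_quotient' I hI.zero
    hI.add hI.left hI.right hI.star hc
  rw [← h2]
  have hπ : Continuous π := by
    refine AddMonoidHomClass.continuous_of_bound π 1 ?_
    intro x
    rw [one_mul]
    exact h3 x
  have hπa : π a = 0 := (h2 a).mpr haI
  have h5 : IsSelfAdjoint (π a) := by rw [hπa]; exact IsSelfAdjoint.zero B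
  rw [StarAlgHomClass.map_cfc π f a hf.continuousOn hπ ha h5, hπa, cfc_apply_zero, h0, map_zero]

end Crest.Agent.R110
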