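import Crest.Agent.R110.KCompA

/-! # R110 toolkit KLevelA: functional calculus and ramps `ramp s t a` of a self-adjoint element

(if `a` is not self-adjoint then `cfc f a = 0`, so most statements need no hypothesis on `a`) -/

set_option autoImplicit false

namespace Crest.Agent.R110

universe u

open Crest.Agent.R117 (IsIdl)

theorem rampF_cont (s t : ℝ) : Continuous (rampF s t) := by
  unfold rampF; fun_prop

theorem cutF_cont (t : ℝ) : Continuous (cutF t) := by
  unfold cutF; fun_prop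

theorem rampF_nonneg (s t x : ℝ) : 0 ≤ rampF s t x := by
  unfold rampF; exact le_min zero_le_one (le_max_left _ _)

theorem rampF_le_one (s t x : ℝ) : rampF s t x ≤ 1 := min_le_left _ _

theorem rampF_zero {s t x : ℝ} (hst : s < t) (hx : x ≤ s) : rampF s t x = 0 := by
  unfold rampF
  have : (x - s) / (t - s) ≤ 0 := div_nonpos_of_nonpos_of_nonneg (by linarith) (by linarith)
  rw [max_eq_left this]; norm_num

theorem rampF_one {s t x : ℝ} (hst : s < t) (hx : t ≤ x) : rampF s t x = 1 := by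
  unfold rampF
  have : 1 ≤ (x - s) / (t - s) := by rw [le_div_iff₀ (by linarith)]; linarith
  rw [max_eq_right (by linarith), min_eq_left this]

theorem cutF_nonneg (t x : ℝ) : 0 ≤ cutF t x := le_max_right _ _

theorem cutF_zero {t x : ℝ} (hx : x ≤ t) : cutF t x = 0 := max_eq_right (by linarith)

theorem cutF_of_le {t x : ℝ} (hx : t ≤ x) : cutF t x = x - t := max_eq_left (by linarith)

variable {A : Type u} [CStarAlgebra A] [PartialOrder A] [StarOrderedRing A]
variable {B : Type u} [CStarAlgebra B] [PartialOrder B] [StarOrderedRing B]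

/-! functional calculus, general -/

theorem cfc_mul' (f g : ℝ → ℝ) (a : A) (hf : Continuous f) (hg : Continuous g) :
    cfc f a * cfc g a = cfc (fun x => f x * g x) a :=
  (cfc_mul f g a hf.continuousOn hg.continuousOn).symm

theorem cfc_zero_of (f : ℝ → ℝ) (a : A) (h : ∀ x ∈ spectrum ℝ a, f x = 0) : cfc f a = 0 := by
  rw [cfc_congr (g := fun _ => (0 : ℝ)) h, cfc_const_zero]

theorem cfc_nonneg' (f : ℝ → ℝ) (a : A) (h : ∀ x, 0 ≤ f x) : 0 ≤ cfc f a :=
  cfc_nonneg fun x _ => h x

theorem cfc_le_one' (f : ℝ → ℝ) (a : A) (h : ∀ x, f x ≤ 1) : cfc f a ≤ 1 :=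
  cfc_le_one f a fun x _ => h x

theorem map_cfc' (π : A →⋆ₐ[ℂ] B) (f : ℝ → ℝ) (hf : Continuous f) (a : A) (ha : IsSelfAdjoint a) :
    π (cfc f a) = cfc f (π a) :=
  StarAlgHomClass.map_cfc π f a hf.continuousOn (map_continuous π) ha (ha.map π)

/-! ramps -/

theorem ramp_sa (s t : ℝ) (a : A) : IsSelfAdjoint (ramp s t a) := cfc_predicate _ _

theorem ramp_nonneg (s t : ℝ) (a : A) : 0 ≤ ramp s t a := cfc_nonneg' _ _ (rampF_nonneg s t)

theorem ramp_le_one (s t : ℝ) (a : A) : ramp s t a ≤ 1 := cfc_le_one' _ _ (rampF_le_one s t)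

theorem ramp_norm_le (s t : ℝ) (a : A) : ‖ramp s t a‖ ≤ 1 :=
  (CStarAlgebra.norm_le_one_iff_of_nonneg _ (ramp_nonneg s t a)).2 (ramp_le_one s t a)

theorem map_ramp (π : A →⋆ₐ[ℂ] B) (s t : ℝ) (a : A) (ha : IsSelfAdjoint a) : π (ramp s t a) = ramp s t (π a) :=
  map_cfc' π _ (rampF_cont s t) a ha

theorem ramp_mul_ramp {s t s' t' : ℝ} (a : A) (h1 : s < t) (h2 : t ≤ s') (h3 : s' < t') :
    ramp s t a * ramp s' t' a = ramp s' t' a := by
  unfold ramp
  rw [cfc_mul' _ _ _ (rampF_cont s t) (rampF_cont s' t')]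
  congr 1
  funext x
  rcases le_total x s' with hx | hx
  · rw [rampF_zero h3 hx, mul_zero]
  · rw [rampF_one h1 (h2.trans hx), one_mul]

theorem ramp_mul_ramp' {s t s' t' : ℝ} (a : A) (h1 : s < t) (h2 : t ≤ s') (h3 : s' < t') :
    ramp s' t' a * ramp s t a = ramp s' t' a := by
  unfold ramp
  rw [cfc_mul' _ _ _ (rampF_cont s' t') (rampF_cont s t)]
  congr 1
  funext x
  rcases le_total x s' with hx | hx
  · rw [rampF_zero h3 hx, zero_mul]
  · rw [rampF_one h1 (h2.trans hx), mul_one]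

theorem ramp_mul_cut {s t r : ℝ} (a : A) (h1 : s < t) (h2 : t ≤ r) : ramp s t a * cut r a = cut r a := by
  unfold ramp cut
  rw [cfc_mul' _ _ _ (rampF_cont s t) (cutF_cont r)]
  congr 1
  funext x
  rcases le_total x r with hx | hx
  · rw [cutF_zero hx, mul_zero]
  · rw [rampF_one h1 (h2.trans hx), one_mul]

theorem ramp_anti {s t s' t' : ℝ} (a : A) (h1 : s < t) (h2 : t ≤ s') (h3 : s' < t') :
    ramp s' t' a ≤ ramp s t a := by
  unfold ramp
  refine cfc_mono (fun x _ => ?_) (rampF_cont s' t').continuousOn (rampF_cont s t).continuousOn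
  rcases le_total x s' with hx | hx
  · rw [rampF_zero h3 hx]
    exact rampF_nonneg _ _ _
  · rw [rampF_one h1 (h2.trans hx)]
    exact rampF_le_one _ _ _

end Crest.Agent.R110
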