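import Crest.Agent.R110.KLevelA

/-! # R110 toolkit KLevelB: cuts `cut t a` of a self-adjoint element, ideals generated by cuts and ramps

Use the quotient test `mem_gen_of_quo` (a `⋆`-homomorphism commutes with `cfc`, `map_cfc'`), and spectral inequalities
(`cfc_mono`, `cfc_nonneg`, `spectrum_le`...).
`cut_mem_gen_cut_of_le`: in a quotient with `cut t b = 0`: `b ≤ t`, `a ≤ t + δ`.
`cut_eq_zero_of_ramp`: `‖ramp s t a‖ < 1` ⇒ no spectral value of `a` is `≥ t`.
`level_lower`: `x⋆ (a - s) x = (R x)⋆ (a - s) (R x) = x⋆ (R (a - s) R) x ≥ 0`.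
-/

set_option autoImplicit false

namespace Crest.Agent.R110

universe u

open Crest.Agent.R117 (IsIdl)

variable {A : Type u} [CStarAlgebra A] [PartialOrder A] [StarOrderedRing A]
variable {B : Type u} [CStarAlgebra B] [PartialOrder B] [StarOrderedRing B]

/-! cuts -/

theorem cut_sa (t : ℝ) (a : A) : IsSelfAdjoint (cut t a) := by
  exact cfc_predicate _ _

theorem cut_nonneg (t : ℝ) (a : A) : 0 ≤ cut t a := cfc_nonneg' _ _ (cutF_nonneg t)

theorem map_cut (π : A →⋆ₐ[ℂ] B) (t : ℝ) (a : A) (ha : IsSelfAdjoint a) : π (cut t a) = cut t (π a) :=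
  map_cfc' π _ (cutF_cont t) a ha

theorem cut_eq_zero_iff (t : ℝ) (a : A) (ha : IsSelfAdjoint a) : cut t a = 0 ↔ a ≤ algebraMap ℝ A t := by
  rw [le_algebraMap_iff_spectrum_le ha]
  constructor
  · intro h x hx
    by_contra hlt
    push Not at hlt
    have h1 : cfc (cutF t) a = cfc (fun _ => (0 : ℝ)) a := by
      rw [show cfc (cutF t) a = 0 from h, cfc_const_zero]
    have h2 := (cfc_eq_cfc_iff_eqOn (a := a) ha (cutF_cont t).continuousOn
      continuousOn_const).mp h1 hx
    rw [cutF_of_le hlt.le] at h2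
    simp only at h2
    linarith
  · intro h
    exact cfc_zero_of _ _ fun x hx => cutF_zero (h x hx)

theorem le_cut_add (t : ℝ) (a : A) (ha : IsSelfAdjoint a) : a ≤ cut t a + algebraMap ℝ A t := by
  have h1 : cut t a + algebraMap ℝ A t = cfc (fun x => cutF t x + t) a := by
    rw [cfc_add_const t (cutF t) a (cutF_cont t).continuousOn ha]
    rfl
  rw [h1]
  conv_lhs => rw [← cfc_id' ℝ a ha]
  refine cfc_mono (fun x _ => ?_) continuousOn_id ((cutF_cont t).add continuous_const).continuousOn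
  unfold cutF
  have := le_max_left (x - t) 0
  linarith

theorem cut_le_self {t : ℝ} (ht : 0 ≤ t) {a : A} (ha : 0 ≤ a) : cut t a ≤ a := by
  have hsa : IsSelfAdjoint a := IsSelfAdjoint.of_nonneg ha
  conv_rhs => rw [← cfc_id' ℝ a hsa]
  refine cfc_mono (fun x hx => ?_) (cutF_cont t).continuousOn continuousOn_id
  have hx0 : 0 ≤ x := spectrum_nonneg_of_nonneg ha hx
  exact max_le (by linarith) hx0

theorem norm_sub_cut_le {t : ℝ} (ht : 0 ≤ t) {a : A} (ha : 0 ≤ a) : ‖a - cut t a‖ ≤ t := by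
  have hsa : IsSelfAdjoint a := IsSelfAdjoint.of_nonneg ha
  have h1 : a - cut t a = cfc (fun x => x - cutF t x) a := by
    rw [cfc_sub (fun x => x) (cutF t) a continuousOn_id (cutF_cont t).continuousOn, cfc_id' ℝ a hsa]
    rfl
  rw [h1]
  refine norm_cfc_le ht fun x hx => ?_
  have hx0 : 0 ≤ x := spectrum_nonneg_of_nonneg ha hx
  rw [Real.norm_eq_abs, abs_le]
  unfold cutF
  constructor
  · have : max (x - t) 0 ≤ x := max_le (by linarith) hx0
    linarith
  · have := le_max_left (x - t) 0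
    linarith

/-- if `‖ramp s t a‖ < 1` then `a ≤ t`. -/
theorem cut_eq_zero_of_ramp {s t : ℝ} (hst : s < t) (a : A) (ha : IsSelfAdjoint a) (h : ‖ramp s t a‖ < 1) :
    cut t a = 0 := by
  refine cfc_zero_of _ _ fun x hx => cutF_zero ?_
  by_contra hlt
  push Not at hlt
  have h1 := norm_apply_le_norm_cfc (rampF s t) a hx (rampF_cont s t).continuousOn ha
  rw [rampF_one hst hlt.le, norm_one] at h1
  exact absurd (lt_of_le_of_lt h1 h) (lt_irrefl _)

theorem ramp_eq_zero_of_cut {s t : ℝ} (hst : s < t) (a : A) (ha : IsSelfAdjoint a) (h : cut s a = 0) :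
    ramp s t a = 0 := by
  have h1 := (le_algebraMap_iff_spectrum_le ha).mp ((cut_eq_zero_iff s a ha).mp h)
  exact cfc_zero_of _ _ fun x hx => rampF_zero hst (h1 x hx)

/-! membership in ideals -/

theorem ramp_mem {I : Set A} (hI : IsIdl I) (hc : IsClosed I) {a : A} (ha : IsSelfAdjoint a) (haI : a ∈ I)
    {s t : ℝ} (hs : 0 ≤ s) (hst : s < t) : ramp s t a ∈ I :=
  cfc_mem hI hc ha haI _ (rampF_cont s t) (rampF_zero hst hs)

theorem cut_mem {I : Set A} (hI : IsIdl I) (hc : IsClosed I) {a : A} (ha : IsSelfAdjoint a) (haI : a ∈ I)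
    {t : ℝ} (ht : 0 ≤ t) : cut t a ∈ I :=
  cfc_mem hI hc ha haI _ (cutF_cont t) (cutF_zero ht)

/-- functions vanishing on `(-∞, s]` are in the ideal generated by `cut s a`. -/
theorem cfc_mem_gen_cut {a : A} (ha : IsSelfAdjoint a) (s : ℝ) (f : ℝ → ℝ) (hf : Continuous f)
    (h : ∀ x ≤ s, f x = 0) : cfc f a ∈ gen (cut s a) := by
  refine mem_gen_of_quo _ _ fun B _ _ _ π _ h0 => ?_
  rw [map_cut π s a ha] at h0
  have hπ : IsSelfAdjoint (π a) := ha.map π
  have h1 := (le_algebraMap_iff_spectrum_le hπ).mp ((cut_eq_zero_iff s _ hπ).mp h0)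
  rw [map_cfc' π f hf a ha]
  exact cfc_zero_of _ _ fun x hx => h x (h1 x hx)

theorem ramp_mem_gen_cut {a : A} (ha : IsSelfAdjoint a) {s t : ℝ} (hst : s < t) : ramp s t a ∈ gen (cut s a) :=
  cfc_mem_gen_cut ha s _ (rampF_cont s t) fun _ hx => rampF_zero hst hx

theorem cut_mem_gen_cut {a : A} (ha : IsSelfAdjoint a) {s t : ℝ} (hst : s ≤ t) : cut t a ∈ gen (cut s a) :=
  cfc_mem_gen_cut ha s _ (cutF_cont t) fun _ hx => cutF_zero (hx.trans hst)

/-- `cut t a ∈ gen (ramp s t a)` (indeed `ramp s t a * cut t a = cut t a`). -/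
theorem cut_mem_gen_ramp {a : A} (ha : IsSelfAdjoint a) {s t : ℝ} (hst : s < t) : cut t a ∈ gen (ramp s t a) := by
  refine mem_gen_of_quo _ _ fun B _ _ _ π _ h0 => ?_
  rw [map_ramp π s t a ha] at h0
  have hπ : IsSelfAdjoint (π a) := ha.map π
  rw [map_cut π t a ha]
  refine cut_eq_zero_of_ramp hst (π a) hπ ?_
  rw [h0, norm_zero]; norm_num

theorem ramp_mem_gen_ramp {a : A} (ha : IsSelfAdjoint a) {s t s' t' : ℝ} (h1 : s < t) (h2 : t ≤ s')
    (h3 : s' < t') : ramp s' t' a ∈ gen (ramp s t a) := by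
  refine mem_gen_of_quo _ _ fun B _ _ _ π _ h0 => ?_
  rw [map_ramp π s t a ha] at h0
  have hπ : IsSelfAdjoint (π a) := ha.map π
  rw [map_ramp π s' t' a ha]
  have h4 : cut t (π a) = 0 := cut_eq_zero_of_ramp h1 (π a) hπ (by rw [h0, norm_zero]; norm_num)
  have h5 := (le_algebraMap_iff_spectrum_le hπ).mp ((cut_eq_zero_iff t _ hπ).mp h4)
  exact cfc_zero_of _ _ fun x hx => rampF_zero h3 ((h5 x hx).trans h2)

/-- `a ≤ b + δ` implies `cut (t + δ) a ∈ gen (cut t b)`. -/
theorem cut_mem_gen_cut_of_le {a b : A} (ha : IsSelfAdjoint a) (hb : IsSelfAdjoint b) {t δ : ℝ}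
    (h : a ≤ b + algebraMap ℝ A δ) : cut (t + δ) a ∈ gen (cut t b) := by
  refine mem_gen_of_quo _ _ fun B _ _ _ π _ h0 => ?_
  rw [map_cut π t b hb] at h0
  have hπa : IsSelfAdjoint (π a) := ha.map π
  have hπb : IsSelfAdjoint (π b) := hb.map π
  rw [map_cut π (t + δ) a ha]
  rw [cut_eq_zero_iff _ _ hπa]
  have h1 := (cut_eq_zero_iff t _ hπb).mp h0
  have hmono : π a ≤ π (b + algebraMap ℝ A δ) := OrderHomClass.mono π h
  have h2 : π (algebraMap ℝ A δ) = algebraMap ℝ B δ := by
    rw [Algebra.algebraMap_eq_smul_one, Algebra.algebraMap_eq_smul_one]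
    have h3 : ∀ (c : ℝ) (y : A), π (c • y) = c • π y := by
      intro c y
      have := map_smul π (c : ℂ) y
      simpa using this
    rw [h3, map_one]
  rw [map_add, h2] at hmono
  rw [map_add]
  exact hmono.trans (by gcongr)

/-- On the level `≥ s`: if `ramp s t a * x = x` then `s x⋆x ≤ x⋆ a x`. -/
theorem level_lower {s t : ℝ} (hst : s < t) {a : A} (ha : IsSelfAdjoint a) {x : A} (hx : ramp s t a * x = x) :
    s • (star x * x) ≤ star x * a * x := by
  have hR : star (ramp s t a) = ramp s t a := (ramp_sa s t a).star_eq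
  have h1 : ramp s t a * (a - algebraMap ℝ A s) * ramp s t a =
      cfc (fun x => rampF s t x * (x - s) * rampF s t x) a := by
    have h2 : a - algebraMap ℝ A s = cfc (fun x => x - s) a := by
      rw [cfc_sub (fun x => x) (fun _ => s) a continuousOn_id continuousOn_const,
        cfc_id' ℝ a ha, cfc_const s a ha]
    rw [h2]
    unfold ramp
    rw [cfc_mul' _ _ a (rampF_cont s t) (by fun_prop),
      cfc_mul' (fun x => rampF s t x * (x - s)) (rampF s t) a
        ((rampF_cont s t).mul (by fun_prop)) (rampF_cont s t)]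
  have h3 : 0 ≤ ramp s t a * (a - algebraMap ℝ A s) * ramp s t a := by
    rw [h1]
    refine cfc_nonneg fun x _ => ?_
    rcases le_total x s with h | h
    · rw [rampF_zero hst h]; simp
    · have := rampF_nonneg s t x
      exact mul_nonneg (mul_nonneg this (by linarith)) this
  have h4 : 0 ≤ star x * (a - algebraMap ℝ A s) * x := by
    have h5 : star x * (a - algebraMap ℝ A s) * x =
        star x * (ramp s t a * (a - algebraMap ℝ A s) * ramp s t a) * x := by
      have h6 : star x = star x * ramp s t a := by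
        conv_lhs => rw [← hx]
        rw [star_mul, hR]
      conv_lhs => rw [h6]
      conv_lhs => rw [← hx]
      simp only [mul_assoc]
      rw [hx]
    rw [h5]
    exact star_left_conjugate_nonneg h3 x
  have h7 : star x * (a - algebraMap ℝ A s) * x = star x * a * x - s • (star x * x) := by
    rw [mul_sub, sub_mul, Algebra.algebraMap_eq_smul_one, mul_smul_comm, mul_one, smul_mul_assoc]
  rw [h7] at h4
  exact sub_nonneg.mp h4

end Crest.Agent.R110
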