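import Crest.Agent.R110.KCompA

/-! # R110 toolkit KLift: lifting with a quadratic bound

`lift_le`: let `x₀ = h * w₀`, `π w₀ = w`, so `π x₀ = w`, `u x₀ = x₀`; `j = (star x₀ * x₀ - κ - δ)₊`, `π j = 0`
(`π` commutes with the functional calculus and `w⋆w - π κ - δ ≤ 0`); `x = x₀ (κ + j + δ)^{-1/2} κ^{1/2}`.
`x⋆x = κ^{1/2}(κ+j+δ)^{-1/2} x₀⋆x₀ (κ+j+δ)^{-1/2}κ^{1/2} ≤ κ`;
`π x = w (πκ+δ)^{-1/2} (πκ)^{1/2}`, `‖w (1 - m)‖² = ‖(1-m) w⋆w (1-m)‖ ≤ ‖(1-m)(πκ+δ)(1-m)‖ = sup (√(t+δ)-√t)² ≤ δ`.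
-/

set_option autoImplicit false

namespace Crest.Agent.R110

universe u

open Crest.Agent.R117 (IsIdl)

variable {A : Type u} [CStarAlgebra A] [PartialOrder A] [StarOrderedRing A]
variable {B : Type u} [CStarAlgebra B] [PartialOrder B] [StarOrderedRing B]

theorem kl_sqrt_ineq (t δ : ℝ) (ht : 0 ≤ t) (hδ : 0 < δ) :
    (1 - (Real.sqrt (t + δ))⁻¹ * Real.sqrt t) * ((t + δ) * (1 - (Real.sqrt (t + δ))⁻¹ * Real.sqrt t))
      ≤ δ := by
  have h1 : 0 < t + δ := by linarith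
  set r := Real.sqrt (t + δ) with hr
  set q := Real.sqrt t with hq
  have hr0 : 0 < r := Real.sqrt_pos.mpr h1
  have hq0 : 0 ≤ q := Real.sqrt_nonneg t
  have hr2 : r * r = t + δ := Real.mul_self_sqrt h1.le
  have hq2 : q * q = t := Real.mul_self_sqrt ht
  have e : (1 - r⁻¹ * q) * ((t + δ) * (1 - r⁻¹ * q)) = (r - q) * (r - q) := by
    rw [← hr2]
    field_simp
  rw [e]
  have hqr : q ≤ r := Real.sqrt_le_sqrt (by linarith)
  nlinarith

/-- Lifting `w` with `w⋆w ≤ π κ + δ` to `x` with `x⋆x ≤ κ`; unit relations `u x = x` are kept. -/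
theorem lift_le (π : A →⋆ₐ[ℂ] B) (hs : Function.Surjective π) (κ : A) (hκ : 0 ≤ κ) (w : B) (δ : ℝ) (hδ : 0 < δ)
    (hw : star w * w ≤ π κ + algebraMap ℝ B δ) (h u : A) (huh : u * h = h) (hhw : π h * w = w) :
    ∃ x : A, star x * x ≤ κ ∧ ‖π x - w‖ ≤ Real.sqrt δ ∧ u * x = x ∧ ∃ y : A, x = y * CFC.sqrt κ := by
  have hπc : Continuous π := map_continuous π
  obtain ⟨w₀, hw₀⟩ := hs w
  set x₀ : A := h * w₀ with hx₀
  have hπx : π x₀ = w := by rw [hx₀, map_mul, hw₀, hhw]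
  have hux : u * x₀ = x₀ := by rw [hx₀, ← mul_assoc, huh]
  have hπδ : π (algebraMap ℝ A δ) = algebraMap ℝ B δ := by
    rw [IsScalarTower.algebraMap_apply ℝ ℂ A, IsScalarTower.algebraMap_apply ℝ ℂ B]
    exact AlgHomClass.commutes π _
  have hκsa : IsSelfAdjoint κ := IsSelfAdjoint.of_nonneg hκ
  have hδsa : IsSelfAdjoint (algebraMap ℝ A δ) := IsSelfAdjoint.algebraMap A (IsSelfAdjoint.all δ)
  set s : A := star x₀ * x₀ - κ - algebraMap ℝ A δ with hsdef
  have hs_sa : IsSelfAdjoint s := ((IsSelfAdjoint.star_mul_self x₀).sub hκsa).sub hδsa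
  set j : A := cfc (fun t : ℝ => max t 0) s with hj
  have hj0 : 0 ≤ j := cfc_nonneg (fun _ _ => le_max_right _ _)
  have hsj : s ≤ j := by
    have h1 : cfc (fun t : ℝ => t) s ≤ cfc (fun t : ℝ => max t 0) s :=
      cfc_mono (fun x _ => le_max_left x 0) (by fun_prop) (by fun_prop)
    rwa [cfc_id' ℝ s] at h1
  have hπs_le : π s ≤ 0 := by
    rw [hsdef, map_sub, map_sub, map_mul, map_star, hπx, hπδ, sub_sub]
    exact sub_nonpos.mpr hw
  have hπs_sa : IsSelfAdjoint (π s) := hs_sa.map π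
  have hπj : π j = 0 := by
    rw [hj, StarAlgHom.map_cfc π _ s (by fun_prop) hπc hs_sa hπs_sa]
    have h1 : cfc (fun t : ℝ => max t 0) (π s) = cfc (fun _ : ℝ => (0 : ℝ)) (π s) := by
      apply cfc_congr
      intro t ht
      have h2 : π s ≤ algebraMap ℝ B 0 := by rw [map_zero]; exact hπs_le
      have h3 := (le_algebraMap_iff_spectrum_le (R := ℝ) (a := π s) (r := 0) (ha := hπs_sa)).mp h2 t ht
      exact max_eq_right h3
    rw [h1]
    simp
  set T : A := κ + j + algebraMap ℝ A δ with hT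
  have hjsa : IsSelfAdjoint j := IsSelfAdjoint.of_nonneg hj0
  have hTsa : IsSelfAdjoint T := (hκsa.add hjsa).add hδsa
  have hTge : algebraMap ℝ A δ ≤ T := by
    rw [hT]
    exact le_add_of_nonneg_left (add_nonneg hκ hj0)
  have hTspec : ∀ t ∈ spectrum ℝ T, δ ≤ t :=
    (algebraMap_le_iff_le_spectrum (R := ℝ) (a := T) (r := δ) (ha := hTsa)).mp hTge
  have hcont : ContinuousOn (fun t : ℝ => (Real.sqrt t)⁻¹) (spectrum ℝ T) := by
    apply ContinuousOn.inv₀ (by fun_prop)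
    intro t ht
    exact (Real.sqrt_pos.mpr (lt_of_lt_of_le hδ (hTspec t ht))).ne'
  set R : A := cfc (fun t : ℝ => (Real.sqrt t)⁻¹) T with hR
  have hRsa : IsSelfAdjoint R := cfc_predicate _ _
  have hRTR : R * T * R = 1 := by
    have e1 : R * T = cfc (fun t : ℝ => (Real.sqrt t)⁻¹ * t) T := by
      rw [cfc_mul _ _ T hcont (by fun_prop), cfc_id' ℝ T]
    have hid : ContinuousOn (fun t : ℝ => t) (spectrum ℝ T) := by fun_prop
    have e2 : R * T * R = cfc (fun t : ℝ => ((Real.sqrt t)⁻¹ * t) * (Real.sqrt t)⁻¹) T := by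
      rw [cfc_mul (fun t : ℝ => (Real.sqrt t)⁻¹ * t) (fun t : ℝ => (Real.sqrt t)⁻¹) T (hcont.mul hid) hcont, ← e1]
    rw [e2]
    have e3 : cfc (fun t : ℝ => ((Real.sqrt t)⁻¹ * t) * (Real.sqrt t)⁻¹) T =
        cfc (fun _ : ℝ => (1 : ℝ)) T := by
      apply cfc_congr
      intro t ht
      have ht0 : 0 < t := lt_of_lt_of_le hδ (hTspec t ht)
      have h1 : Real.sqrt t * Real.sqrt t = t := Real.mul_self_sqrt ht0.le
      have h2 : Real.sqrt t ≠ 0 := (Real.sqrt_pos.mpr ht0).ne'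
      have h4 : ∀ r : ℝ, r ≠ 0 → r⁻¹ * (r * r) * r⁻¹ = 1 := by
        intro r hr
        field_simp
      show (Real.sqrt t)⁻¹ * t * (Real.sqrt t)⁻¹ = 1
      have h3 := h4 (Real.sqrt t) h2
      rwa [h1] at h3
    rw [e3]
    exact cfc_const_one ℝ T
  have hx₀T : star x₀ * x₀ ≤ T := by
    have h1 : star x₀ * x₀ = s + κ + algebraMap ℝ A δ := by rw [hsdef]; abel
    rw [h1, hT, add_comm s κ]
    gcongr
  have hsκ : IsSelfAdjoint (CFC.sqrt κ) := IsSelfAdjoint.of_nonneg (CFC.sqrt_nonneg κ)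
  have hsκ2 : CFC.sqrt κ * CFC.sqrt κ = κ := CFC.sqrt_mul_sqrt_self κ hκ
  refine ⟨x₀ * R * CFC.sqrt κ, ?_, ?_, ?_, x₀ * R, rfl⟩
  · have e1 : star (x₀ * R * CFC.sqrt κ) * (x₀ * R * CFC.sqrt κ) =
        CFC.sqrt κ * (R * (star x₀ * x₀) * R) * CFC.sqrt κ := by
      rw [star_mul, star_mul, hsκ.star_eq, hRsa.star_eq]
      simp only [mul_assoc]
    rw [e1]
    have e2 : R * (star x₀ * x₀) * R ≤ R * T * R := hRsa.conjugate_le_conjugate hx₀T
    have e3 := hsκ.conjugate_le_conjugate e2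
    refine e3.trans (le_of_eq ?_)
    rw [hRTR, mul_one, hsκ2]
  · set p : B := π κ with hp
    have hp0 : 0 ≤ p := map_nonneg' π hκ
    have hpsa : IsSelfAdjoint p := IsSelfAdjoint.of_nonneg hp0
    have hpspec : ∀ t ∈ spectrum ℝ p, 0 ≤ t := fun t ht => spectrum_nonneg_of_nonneg hp0 ht
    have hπT : π T = p + algebraMap ℝ B δ := by
      rw [hT, map_add, map_add, hπj, hπδ, add_zero]
    have hπT' : π T = cfc (fun t : ℝ => t + δ) p := by
      rw [hπT, cfc_add_const δ (fun t : ℝ => t) p (by fun_prop) hpsa, cfc_id' ℝ p]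
    have hc2 : ContinuousOn (fun t : ℝ => (Real.sqrt (t + δ))⁻¹) (spectrum ℝ p) := by
      apply ContinuousOn.inv₀ (by fun_prop)
      intro t ht
      exact (Real.sqrt_pos.mpr (by linarith [hpspec t ht])).ne'
    have hπR : π R = cfc (fun t : ℝ => (Real.sqrt (t + δ))⁻¹) p := by
      rw [hR, StarAlgHom.map_cfc π _ T hcont hπc hTsa (hTsa.map π), hπT']
      have hcimg : ContinuousOn (fun t : ℝ => (Real.sqrt t)⁻¹) ((fun t : ℝ => t + δ) '' spectrum ℝ p) := by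
        apply ContinuousOn.inv₀ (by fun_prop)
        rintro t ⟨t', ht', rfl⟩
        exact (Real.sqrt_pos.mpr (by
          have := hpspec t' ht'
          show 0 < t' + δ
          linarith)).ne'
      rw [← cfc_comp' (fun t : ℝ => (Real.sqrt t)⁻¹) (fun t : ℝ => t + δ) p hcimg (by fun_prop) hpsa]
    have hπsq : π (CFC.sqrt κ) = cfc Real.sqrt p := by
      rw [map_sqrt π hκ, CFC.sqrt_eq_real_sqrt p hp0, cfcₙ_eq_cfc (hf0 := Real.sqrt_zero)]
    set g : ℝ → ℝ := fun t => 1 - (Real.sqrt (t + δ))⁻¹ * Real.sqrt t with hg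
    have hgc : ContinuousOn g (spectrum ℝ p) := by
      apply ContinuousOn.sub continuousOn_const
      exact hc2.mul (by fun_prop)
    set D : B := cfc g p with hD
    have hDsa : IsSelfAdjoint D := cfc_predicate _ _
    have hDeq : D = 1 - π R * π (CFC.sqrt κ) := by
      have h1 : cfc g p = cfc (fun _ : ℝ => (1 : ℝ)) p -
          cfc (fun t : ℝ => (Real.sqrt (t + δ))⁻¹ * Real.sqrt t) p :=
        cfc_sub (fun _ : ℝ => (1 : ℝ)) (fun t : ℝ => (Real.sqrt (t + δ))⁻¹ * Real.sqrt t) p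
          continuousOn_const (hc2.mul (by fun_prop))
      have h2 : cfc (fun t : ℝ => (Real.sqrt (t + δ))⁻¹ * Real.sqrt t) p =
          cfc (fun t : ℝ => (Real.sqrt (t + δ))⁻¹) p * cfc Real.sqrt p :=
        cfc_mul (fun t : ℝ => (Real.sqrt (t + δ))⁻¹) Real.sqrt p hc2 (by fun_prop)
      rw [hD, h1, h2, hπR, hπsq, cfc_const_one ℝ p]
    have hdiff : π (x₀ * R * CFC.sqrt κ) - w = -(w * D) := by
      rw [map_mul, map_mul, hπx, hDeq, mul_sub, mul_one, neg_sub, mul_assoc]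
    rw [hdiff, norm_neg]
    apply norm_le_of_star_mul_self_le (Real.sqrt_nonneg δ)
    rw [Real.sq_sqrt hδ.le]
    have e1 : star (w * D) * (w * D) = D * (star w * w) * D := by
      rw [star_mul, hDsa.star_eq]
      simp only [mul_assoc]
    rw [e1]
    refine (hDsa.conjugate_le_conjugate hw).trans ?_
    have e2 : D * (p + algebraMap ℝ B δ) * D =
        cfc (fun t : ℝ => g t * ((t + δ) * g t)) p := by
      have hlin : ContinuousOn (fun t : ℝ => t + δ) (spectrum ℝ p) := by fun_prop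
      have h1 : cfc (fun t : ℝ => (t + δ) * g t) p = cfc (fun t : ℝ => t + δ) p * cfc g p :=
        cfc_mul (fun t : ℝ => t + δ) g p hlin hgc
      have h2 : cfc (fun t : ℝ => g t * ((t + δ) * g t)) p = cfc g p * cfc (fun t : ℝ => (t + δ) * g t) p :=
        cfc_mul g (fun t : ℝ => (t + δ) * g t) p hgc (hlin.mul hgc)
      rw [h2, h1, ← hπT', hπT, ← mul_assoc]
    rw [e2]
    apply cfc_le_algebraMap _ _ _ _ (hgc.mul ((by fun_prop : ContinuousOn (fun t : ℝ => t + δ) (spectrum ℝ p)).mul hgc)) hpsa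
    intro t ht
    exact kl_sqrt_ineq t δ (hpspec t ht) hδ
  · rw [← mul_assoc, ← mul_assoc, hux]

end Crest.Agent.R110
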