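import Crest.Agent.R110.KIdeal

/-! # R110 toolkit: quotients by closed ideals; pure infiniteness passes to quotients

`exists_quo`: add the spectral order to `R117.exists_cstar_quotient`.
`PI.map`: `π '' C` is closed since `ker π ⊆ C` (if `π cₙ → π a` then some `jₙ ∈ ker π` has `a - cₙ + jₙ → 0`).
-/

set_option autoImplicit false

namespace Crest.Agent.R110

universe u

open Crest.Agent.R117 (IsIdl)

variable {A : Type u} [CStarAlgebra A]

theorem exists_quo (I : Set A) (hI : IsIdl I) (hc : IsClosed I) :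
    ∃ (B : Type u) (_ : CStarAlgebra B) (_ : PartialOrder B) (_ : StarOrderedRing B) (π : A →⋆ₐ[ℂ] B),
      Function.Surjective π ∧ (∀ x, π x = 0 ↔ x ∈ I) ∧
      ∀ (x : A) (ε : ℝ), 0 < ε → ∃ j ∈ I, ‖x + j‖ < ‖π x‖ + ε := by
  obtain ⟨B, hB, π, h1, h2, h3⟩ := Crest.Agent.R117.exists_cstar_quotient I hI hc
  exact ⟨B, hB, CStarAlgebra.spectralOrder B, CStarAlgebra.spectralOrderedRing B, π, h1, h2, h3⟩

variable {B : Type u} [CStarAlgebra B]

theorem quo_norm_le (π : A →⋆ₐ[ℂ] B) (x : A) : ‖π x‖ ≤ ‖x‖ := by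
  exact NonUnitalStarAlgHom.norm_apply_le π x

theorem IsIdl_image (π : A →⋆ₐ[ℂ] B) (hs : Function.Surjective π) {I : Set A} (hI : IsIdl I) :
    IsIdl (π '' I) where
  zero := ⟨0, hI.zero, map_zero π⟩
  add := by
    rintro _ ⟨x, hx, rfl⟩ _ ⟨y, hy, rfl⟩
    exact ⟨x + y, hI.add x hx y hy, map_add π x y⟩
  left := by
    rintro a _ ⟨x, hx, rfl⟩
    obtain ⟨a, rfl⟩ := hs a
    exact ⟨a * x, hI.left a x hx, map_mul π a x⟩
  right := by
    rintro a _ ⟨x, hx, rfl⟩
    obtain ⟨a, rfl⟩ := hs a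
    exact ⟨x * a, hI.right a x hx, map_mul π x a⟩
  star := by
    rintro _ ⟨x, hx, rfl⟩
    exact ⟨star x, hI.star x hx, map_star π x⟩

theorem IsIdl_preimage (π : A →⋆ₐ[ℂ] B) {I : Set B} (hI : IsIdl I) : IsIdl (π ⁻¹' I) where
  zero := by
    show π 0 ∈ I
    rw [map_zero]; exact hI.zero
  add := fun x hx y hy => by
    show π (x + y) ∈ I
    rw [map_add]; exact hI.add _ hx _ hy
  left := fun a x hx => by
    show π (a * x) ∈ I
    rw [map_mul]; exact hI.left _ _ hx
  right := fun a x hx => by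
    show π (x * a) ∈ I
    rw [map_mul]; exact hI.right _ _ hx
  star := fun x hx => by
    show π (star x) ∈ I
    rw [map_star]; exact hI.star _ hx

theorem quo_continuous (π : A →⋆ₐ[ℂ] B) : Continuous π := by
  refine AddMonoidHomClass.continuous_of_bound π 1 ?_
  intro x
  rw [one_mul]
  exact quo_norm_le π x

theorem isClosed_image (π : A →⋆ₐ[ℂ] B)
    (hl : ∀ (x : A) (ε : ℝ), 0 < ε → ∃ j, π j = 0 ∧ ‖x + j‖ < ‖π x‖ + ε)
    (hs : Function.Surjective π) {I : Set A} (hI : IsIdl I) (hc : IsClosed I) (hk : ∀ x, π x = 0 → x ∈ I) :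
    IsClosed (π '' I) := by
  rw [← closure_subset_iff_isClosed]
  intro b hb
  obtain ⟨a, rfl⟩ := hs b
  refine ⟨a, ?_, rfl⟩
  rw [← hc.closure_eq]
  refine Metric.mem_closure_iff.mpr fun ε hε => ?_
  obtain ⟨_, ⟨c, hcI, rfl⟩, hlt⟩ := Metric.mem_closure_iff.mp hb (ε / 2) (by positivity)
  obtain ⟨j, hj, hj2⟩ := hl (a - c) (ε / 2) (by positivity)
  refine ⟨c - j, IsIdl_sub hI hcI (hk j hj), ?_⟩
  rw [dist_eq_norm] at hlt ⊢
  rw [map_sub] at hj2
  have h1 : a - (c - j) = a - c + j := by abel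
  rw [h1]
  linarith

theorem gen_image (π : A →⋆ₐ[ℂ] B) {g x : A} (hx : x ∈ gen g) : π x ∈ gen (π g) := by
  intro J hJ
  exact hx (π ⁻¹' J) ⟨IsIdl_preimage π hJ.1, hJ.2.1.preimage (quo_continuous π), hJ.2.2⟩

theorem PI.map [PartialOrder A] [StarOrderedRing A] [PartialOrder B] [StarOrderedRing B] {C : Set A}
    (hC : PI C) (π : A →⋆ₐ[ℂ] B) (hs : Function.Surjective π)
    (hl : ∀ (x : A) (ε : ℝ), 0 < ε → ∃ j, π j = 0 ∧ ‖x + j‖ < ‖π x‖ + ε)
    (hk : ∀ x, π x = 0 → x ∈ C) : PI (π '' C) where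
  idl := IsIdl_image π hs hC.idl
  closed := isClosed_image π hl hs hC.idl hC.closed hk
  pi := by
    rintro _ ⟨c, hc, rfl⟩ h0 ε hε
    -- a positive lift
    set d : A := (2 : ℝ)⁻¹ • (c + star c) with hd
    have hdsa : IsSelfAdjoint d := by
      show star d = d
      rw [hd, star_smul, star_add, star_star, star_trivial, add_comm]
    have hdC : d ∈ C := IsIdl_smulR hC.idl _ (hC.idl.add _ hc _ (hC.idl.star _ hc))
    have hπd : π d = π c := by
      have h1 : star (π c) = π c := (IsSelfAdjoint.of_nonneg h0).star_eq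
      have h2 : π ((2 : ℝ)⁻¹ • (c + star c)) = (2 : ℝ)⁻¹ • π (c + star c) := by
        have h3 : ((2 : ℝ)⁻¹ • (c + star c) : A) = (((2 : ℝ)⁻¹ : ℝ) : ℂ) • (c + star c) :=
          (Complex.coe_smul _ _).symm
        have h4 : ((2 : ℝ)⁻¹ • π (c + star c) : B) = (((2 : ℝ)⁻¹ : ℝ) : ℂ) • π (c + star c) :=
          (Complex.coe_smul _ _).symm
        rw [h3, h4, map_smul]
      rw [hd, h2, map_add, map_star, h1, ← two_smul ℝ (π c), smul_smul]
      norm_num
    have hpC : cfc (fun t : ℝ => max t 0) d ∈ C :=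
      cfc_mem hC.idl hC.closed hdsa hdC _ (by fun_prop) (by simp)
    have hp0 : 0 ≤ cfc (fun t : ℝ => max t 0) d := cfc_nonneg fun t _ => le_max_right _ _
    have hπp : π (cfc (fun t : ℝ => max t 0) d) = π c := by
      have h5 : IsSelfAdjoint (π d) := by rw [hπd]; exact IsSelfAdjoint.of_nonneg h0
      rw [StarAlgHomClass.map_cfc π (fun t : ℝ => max t 0) d (by fun_prop) (quo_continuous π) hdsa h5,
        hπd]
      conv_rhs => rw [← cfc_id ℝ (π c) (IsSelfAdjoint.of_nonneg h0)]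
      refine cfc_congr fun t ht => ?_
      have ht0 : 0 ≤ t := spectrum_nonneg_of_nonneg h0 ht
      simp [ht0]
    obtain ⟨r, hr, s, hsC, h1, h2, h3⟩ := hC.pi _ hpC hp0 ε hε
    refine ⟨π r, ⟨r, hr, rfl⟩, π s, ⟨s, hsC, rfl⟩, ?_, ?_, ?_⟩
    · rw [← hπp, ← map_star, ← map_mul, ← map_mul, ← map_sub]
      exact (quo_norm_le π _).trans_lt h1
    · rw [← hπp, ← map_star, ← map_mul, ← map_mul, ← map_sub]
      exact (quo_norm_le π _).trans_lt h2
    · rw [← hπp, ← map_star, ← map_mul, ← map_mul]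
      exact (quo_norm_le π _).trans_lt h3

/-- The quotient test: `x ∈ gen g` as soon as `x` dies in some ⋆-homomorphic image with kernel `gen g`;
conversely to prove `x ∈ gen g` it is enough to show `π x = 0` for every surjection `π` killing `g`. -/
theorem mem_gen_of_quo (g x : A)
    (h : ∀ (B : Type u) (_ : CStarAlgebra B) (_ : PartialOrder B) (_ : StarOrderedRing B) (π : A →⋆ₐ[ℂ] B),
      Function.Surjective π → π g = 0 → π x = 0) : x ∈ gen g := by
  obtain ⟨B, i1, i2, i3, π, h1, h2, h3⟩ := exists_quo (gen g) (gen_idl g) (gen_closed g)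
  exact (h2 x).1 (h B i1 i2 i3 π h1 ((h2 g).2 (mem_gen g)))

theorem zero_of_mem_gen (π : A →⋆ₐ[ℂ] B) {g x : A} (hx : x ∈ gen g) (hg : π g = 0) : π x = 0 := by
  have hz : IsIdl ({0} : Set B) :=
    { zero := rfl
      add := fun x hx y hy => by
        rw [Set.mem_singleton_iff] at hx hy ⊢
        rw [hx, hy, add_zero]
      left := fun a x hx => by
        rw [Set.mem_singleton_iff] at hx ⊢
        rw [hx, mul_zero]
      right := fun a x hx => by
        rw [Set.mem_singleton_iff] at hx ⊢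
        rw [hx, zero_mul]
      star := fun x hx => by
        rw [Set.mem_singleton_iff] at hx ⊢
        rw [hx, star_zero] }
  have h1 : π x ∈ ({0} : Set B) := gen_image π hx ({0} : Set B) ⟨hz, isClosed_singleton, hg⟩
  exact h1

/-- Lifts with norm control. -/
theorem exists_lift_norm (π : A →⋆ₐ[ℂ] B) (hs : Function.Surjective π)
    (hl : ∀ (x : A) (ε : ℝ), 0 < ε → ∃ j, π j = 0 ∧ ‖x + j‖ < ‖π x‖ + ε) (b : B) (ε : ℝ) (hε : 0 < ε) :
    ∃ a : A, π a = b ∧ ‖a‖ < ‖b‖ + ε := by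
  obtain ⟨a, rfl⟩ := hs b
  obtain ⟨j, hj, hlt⟩ := hl a ε hε
  exact ⟨a + j, by rw [map_add, hj, add_zero], hlt⟩

/-- Factorisation through a quotient map. -/
theorem exists_factor (π : A →⋆ₐ[ℂ] B) (hs : Function.Surjective π) {E : Type u} [CStarAlgebra E]
    (φ : A →⋆ₐ[ℂ] E) (h : ∀ x, π x = 0 → φ x = 0) : ∃ ψ : B →⋆ₐ[ℂ] E, ∀ x, ψ (π x) = φ x := by
  have key : ∀ x y, π x = π y → φ x = φ y := fun x y hxy => by
    have h1 : φ (x - y) = 0 := h _ (by rw [map_sub, hxy, sub_self])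
    rwa [map_sub, sub_eq_zero] at h1
  have hinv : ∀ b, π (Function.surjInv hs b) = b := Function.surjInv_eq hs
  refine ⟨{ toFun := fun b => φ (Function.surjInv hs b)
            map_one' := ?_
            map_mul' := ?_
            map_zero' := ?_
            map_add' := ?_
            commutes' := ?_
            map_star' := ?_ }, ?_⟩
  · rw [← map_one φ]; exact key _ _ (by rw [hinv, map_one])
  · intro x y
    rw [← map_mul]; exact key _ _ (by rw [map_mul, hinv, hinv, hinv])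
  · rw [← map_zero φ]; exact key _ _ (by rw [hinv, map_zero])
  · intro x y
    rw [← map_add]; exact key _ _ (by rw [map_add, hinv, hinv, hinv])
  · intro r
    have h1 : φ (algebraMap ℂ A r) = algebraMap ℂ E r := AlgHomClass.commutes φ r
    rw [← h1]; exact key _ _ (by rw [hinv]; exact (AlgHomClass.commutes π r).symm)
  · intro x
    rw [← map_star]; exact key _ _ (by rw [map_star, hinv, hinv])
  · intro x
    exact key _ _ (hinv _)

end Crest.Agent.R110
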