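import Crest.Agent.R110.KOrd

/-!
# R110 toolkit KQuot: quotients, lifts, units in kernels

* `exists_cstar_quotient`: non-unital version of `R117.Quotaux.exists_cstar_quotient'` (Crest/Agent/R117/Quot.lean); either copy
  that proof (replace `1 - e` by `x - x e`), or apply it to `Unitization ℂ A`, `J' = inr '' J`, and take the closed
  `NonUnitalStarSubalgebra` image of `A`.
* `exists_quot`: `J` = closed two-sided ideal generated by `b` and `star b`.
* `exists_lift`: any lift `a0`, `a := a0 - a0 * q(a0⋆a0)`, `q(t) = 1 - min(1, t^{-1/2})` (`q = 0` on `[0,1]`): `a⋆a = min(t,1)(a0⋆a0)`.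
* `exists_unit`: `e = g(y⋆y)`, `g(t) = min(nt,1)`: `‖y(1-e)‖² ≤ sup t(1-g)² ≤ 1/n`.
* `exists_near_ker`: `x - clamp_r(x)`, for selfadjoint `x`.
-/

set_option autoImplicit false

namespace Crest.Agent.R110

universe u
variable {A B : Type u} [NonUnitalCStarAlgebra A] [NonUnitalCStarAlgebra B]

theorem quasispectrum_norm_le {a : A} (ha : star a = a) {s : ℝ} (hs : s ∈ quasispectrum ℝ a) :
    |s| ≤ ‖a‖ := by
  have hsa : IsSelfAdjoint a := ha
  have := norm_apply_le_norm_cfcₙ (fun x : ℝ => x) a hs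
  rwa [cfcₙ_id' ℝ a] at this

/-- a (right) unit for `y`, dominated by `y` -/
theorem exists_unit (y : A) (ε : ℝ) (hε : 0 < ε) :
    ∃ e : A, 0 ≤ e ∧ ‖e‖ ≤ 1 ∧ ‖y - y * e‖ ≤ ε ∧ Dom e y := by
  have ha0 : 0 ≤ star y * y := star_mul_self_nonneg y
  have hsa : IsSelfAdjoint (star y * y) := IsSelfAdjoint.star_mul_self y
  have hδ : (0 : ℝ) < ε ^ 2 := by positivity
  refine ⟨ct 0 (ε ^ 2) (star y * y), ct_nonneg _, norm_ct_le _, ?_, ?_⟩
  · set a := star y * y with hadef
    set e := ct 0 (ε ^ 2) a with hedef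
    have hgc := (continuous_cut 0 (ε ^ 2)).continuousOn (s := quasispectrum ℝ a)
    have hg0 : cut 0 (ε ^ 2) 0 = 0 := cut_zero le_rfl hδ
    have hes : star e = e := ct_sa a
    have e1 : star (y - y * e) * (y - y * e) = a - a * e - e * a + e * a * e := by
      rw [star_sub, star_mul, hes, sub_mul, mul_sub, mul_sub, hadef]
      simp only [mul_assoc]
      abel
    have e2 : a * e = cfcₙ (fun t => t * cut 0 (ε ^ 2) t) a := by
      rw [cfcₙ_mul (fun t => t) (cut 0 (ε ^ 2)) a continuousOn_id rfl hgc hg0, cfcₙ_id' ℝ a]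
      rfl
    have e3 : e * a = cfcₙ (fun t => cut 0 (ε ^ 2) t * t) a := by
      rw [cfcₙ_mul (cut 0 (ε ^ 2)) (fun t => t) a hgc hg0 continuousOn_id rfl, cfcₙ_id' ℝ a]
      rfl
    have e4 : e * a * e = cfcₙ (fun t => cut 0 (ε ^ 2) t * t * cut 0 (ε ^ 2) t) a := by
      rw [cfcₙ_mul (fun t => cut 0 (ε ^ 2) t * t) (cut 0 (ε ^ 2)) a (hgc.mul continuousOn_id)
        (by simp) hgc hg0, ← e3]
      rfl
    have e5 : a - a * e - e * a + e * a * e
        = cfcₙ (fun t => t - t * cut 0 (ε ^ 2) t - cut 0 (ε ^ 2) t * t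
          + cut 0 (ε ^ 2) t * t * cut 0 (ε ^ 2) t) a := by
      rw [e4, e3, e2]
      rw [cfcₙ_add (fun t => t - t * cut 0 (ε ^ 2) t - cut 0 (ε ^ 2) t * t)
        (fun t => cut 0 (ε ^ 2) t * t * cut 0 (ε ^ 2) t) a
        ((continuousOn_id.sub (continuousOn_id.mul hgc)).sub (hgc.mul continuousOn_id)) (by simp)
        ((hgc.mul continuousOn_id).mul hgc) (by simp),
        cfcₙ_sub (fun t => t - t * cut 0 (ε ^ 2) t) (fun t => cut 0 (ε ^ 2) t * t) a
        (continuousOn_id.sub (continuousOn_id.mul hgc)) (by simp) (hgc.mul continuousOn_id) (by simp),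
        cfcₙ_sub (fun t => t) (fun t => t * cut 0 (ε ^ 2) t) a
        continuousOn_id rfl (continuousOn_id.mul hgc) (by simp), cfcₙ_id' ℝ a]
    have e6 : ‖star (y - y * e) * (y - y * e)‖ ≤ ε ^ 2 := by
      rw [e1, e5]
      refine norm_cfcₙ_le fun t ht => ?_
      have ht0 : 0 ≤ t := quasispectrum_nonneg_of_nonneg a ha0 t ht
      have e7 : t - t * cut 0 (ε ^ 2) t - cut 0 (ε ^ 2) t * t
          + cut 0 (ε ^ 2) t * t * cut 0 (ε ^ 2) t = t * (1 - cut 0 (ε ^ 2) t) ^ 2 := by ring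
      rw [e7, Real.norm_of_nonneg (by positivity)]
      have hc0 := cut_nonneg 0 (ε ^ 2) t
      have hc1 := cut_le_one 0 (ε ^ 2) t
      rcases le_total t (ε ^ 2) with h | h
      · calc t * (1 - cut 0 (ε ^ 2) t) ^ 2 ≤ t * 1 := by
              refine mul_le_mul_of_nonneg_left ?_ ht0
              exact pow_le_one₀ (by linarith) (by linarith)
          _ ≤ ε ^ 2 := by rw [mul_one]; exact h
      · rw [cut_of_ge hδ h]
        simp only [sub_self]
        nlinarith
    rw [CStarRing.norm_star_mul_self] at e6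
    nlinarith [norm_nonneg (y - y * e)]
  · intro Q _ φ hφ
    rw [map_ct φ le_rfl hδ hsa.star_eq, map_mul, hφ, mul_zero]
    unfold ct
    exact cfcₙ_apply_zero ..

theorem dom_of_dom_star {e y : A} (h : Dom e (star y)) : Dom e y := by
  intro Q _ φ hφ
  exact h Q φ (by rw [map_star, hφ, star_zero])

/-- a left unit for `y`, dominated by `y` -/
theorem exists_left_unit (y : A) (ε : ℝ) (hε : 0 < ε) :
    ∃ e : A, 0 ≤ e ∧ ‖e‖ ≤ 1 ∧ ‖y - e * y‖ ≤ ε ∧ Dom e y := by
  obtain ⟨e, h0, h1, h2, h3⟩ := exists_unit (star y) ε hε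
  refine ⟨e, h0, h1, ?_, dom_of_dom_star h3⟩
  have he : star e = e := (IsSelfAdjoint.of_nonneg h0).star_eq
  have e1 : star (star y - star y * e) = y - e * y := by
    rw [star_sub, star_mul, star_star, he]
  rw [← e1, norm_star]
  exact h2

/-- multiplication by `1 - e` is contractive -/
theorem norm_sub_mul_le {e : A} (h0 : 0 ≤ e) (h1 : ‖e‖ ≤ 1) (x : A) : ‖x - x * e‖ ≤ ‖x‖ := by
  have hes : star e = e := (IsSelfAdjoint.of_nonneg h0).star_eq
  have hsa : IsSelfAdjoint e := hes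
  have e1 : (x - x * e) * star (x - x * e) = x * star x - x * (e + e - e * e) * star x := by
    rw [star_sub, star_mul, hes]
    simp only [sub_mul, mul_sub, mul_add, add_mul, mul_assoc]
    abel
  have e2 : 0 ≤ e + e - e * e := by
    have e3 : e + e - e * e = cfcₙ (fun t : ℝ => t + t - t * t) e := by
      rw [cfcₙ_sub (fun t : ℝ => t + t) (fun t : ℝ => t * t) e (by fun_prop) (by simp)
        (by fun_prop) (by simp), cfcₙ_add (fun t : ℝ => t) (fun t : ℝ => t) e (by fun_prop) rfl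
        (by fun_prop) rfl, cfcₙ_mul (fun t : ℝ => t) (fun t : ℝ => t) e (by fun_prop) rfl
        (by fun_prop) rfl, cfcₙ_id' ℝ e]
    rw [e3]
    refine cfcₙ_nonneg fun t ht => ?_
    have ht0 : 0 ≤ t := quasispectrum_nonneg_of_nonneg e h0 t ht
    have ht1 : t ≤ 1 := (le_abs_self t).trans ((quasispectrum_norm_le hes ht).trans h1)
    nlinarith
  have e3 : 0 ≤ x * (e + e - e * e) * star x := by
    have := star_left_conjugate_nonneg e2 (star x)
    rwa [star_star] at this
  have e4 : (x - x * e) * star (x - x * e) ≤ x * star x := by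
    rw [e1]
    exact sub_le_self _ e3
  have e5 := CStarAlgebra.norm_le_norm_of_nonneg_of_le (mul_star_self_nonneg (x - x * e)) e4
  rw [CStarRing.norm_self_mul_star, CStarRing.norm_self_mul_star] at e5
  nlinarith [norm_nonneg (x - x * e), norm_nonneg x]

theorem norm_sub_mul_le' {e : A} (h0 : 0 ≤ e) (h1 : ‖e‖ ≤ 1) (x : A) : ‖x - e * x‖ ≤ ‖x‖ := by
  have h := norm_sub_mul_le h0 h1 (star x)
  have he : star e = e := (IsSelfAdjoint.of_nonneg h0).star_eq
  have e1 : star (star x - star x * e) = x - e * x := by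
    rw [star_sub, star_mul, star_star, he]
  rw [← e1, norm_star]
  rwa [norm_star] at h

/-- homs are contractive -/
theorem norm_map_le (φ : A →⋆ₙₐ[ℂ] B) (a : A) : ‖φ a‖ ≤ ‖a‖ :=
  NonUnitalStarAlgHom.norm_apply_le φ a

/-- homs are monotone -/
theorem map_mono (φ : A →⋆ₙₐ[ℂ] B) {a b : A} (h : a ≤ b) : φ a ≤ φ b :=
  OrderHomClass.mono φ h

/-- selfadjoint element small in the image = kernel + small -/
theorem exists_near_ker (π : A →⋆ₙₐ[ℂ] B) {x : A} (hx : star x = x) {r : ℝ} (hr : ‖π x‖ ≤ r) :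
    ∃ j : A, star j = j ∧ π j = 0 ∧ ‖x - j‖ ≤ r := by
  have hr0 : 0 ≤ r := (norm_nonneg _).trans hr
  have hsa : IsSelfAdjoint x := hx
  have hc0 : max (-r) (min (0 : ℝ) r) = 0 := by
    rw [min_eq_left hr0, max_eq_right (by linarith)]
  have hcc : Continuous (fun t : ℝ => max (-r) (min t r)) := by fun_prop
  refine ⟨cfcₙ (fun t : ℝ => t - max (-r) (min t r)) x,
    (cfcₙ_predicate (R := ℝ) _ x : IsSelfAdjoint _), ?_, ?_⟩
  · rw [NonUnitalStarAlgHomClass.map_cfcₙ π (fun t : ℝ => t - max (-r) (min t r)) x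
      (by fun_prop) (by simp only [hc0, sub_zero]) (by fun_prop) hsa (hsa.map π)]
    have h1 : cfcₙ (fun t : ℝ => t - max (-r) (min t r)) (π x) = cfcₙ (fun _ : ℝ => (0 : ℝ)) (π x) := by
      refine cfcₙ_congr fun t ht => ?_
      have ht1 : |t| ≤ r := (quasispectrum_norm_le (hsa.map π).star_eq ht).trans hr
      have h2 := abs_le.mp ht1
      show t - max (-r) (min t r) = 0
      rw [min_eq_left h2.2, max_eq_right h2.1, sub_self]
    rw [h1]
    exact cfcₙ_const_zero ℝ (π x)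
  · have h1 : x - cfcₙ (fun t : ℝ => t - max (-r) (min t r)) x
        = cfcₙ (fun t : ℝ => max (-r) (min t r)) x := by
      rw [cfcₙ_sub (fun t : ℝ => t) (fun t : ℝ => max (-r) (min t r)) x (by fun_prop) rfl
        hcc.continuousOn hc0, cfcₙ_id' ℝ x, sub_sub_cancel]
    rw [h1]
    refine norm_cfcₙ_le fun t _ => ?_
    rw [Real.norm_eq_abs, abs_le]
    exact ⟨le_max_left _ _, max_le (by linarith) (min_le_right _ _)⟩

end Crest.Agent.R110
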