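import Crest.Agent.R110.KQuotA
import Crest.Agent.R110.KQuotC

/-!
# R110 toolkit KQuot: quotients, lifts, units in kernels

* `exists_cstar_quotient`: non-unital version of `R117.Quotaux.exists_cstar_quotient'` (Crest/Agent/R117/Quot.lean); either copy
  that proof (replace `1 - e` by `x - x e`), or apply it to `Unitization ℂ A`, `J' = inr '' J`, and take the closed
  `NonUnitalStarSubalgebra` image of `A`.
* `exists_quot`: `J` = closed two-sided ideal generated by `b` and `star b`.
* `exists_lift`: any lift `a0`, `a := a0 - a0 * q(a0⋆a0)`, `q(t) = 1 - min(1, t^{-1/2})` (`q = 0` on `[0,1]`): `a⋆a = min(t,1)(a0⋆a0)`.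
* `exists_unit`: `e = g(y⋆y)`, `g(t) = min(nt,1)`: `‖y(1-e)‖² ≤ sup t(1-g)² ≤ 1/n`.
* `exists_near_ker`: `x - clamp_r(x)`, for selfadjoint `x`.
-/

set_option autoImplicit false

namespace Crest.Agent.R110

universe u
variable {A B : Type u} [NonUnitalCStarAlgebra A] [NonUnitalCStarAlgebra B]

namespace KQuotAux

theorem norm_map_le' (φ : A →⋆ₙₐ[ℂ] B) (a : A) : ‖φ a‖ ≤ ‖a‖ := norm_map_le φ a

theorem continuous_hom (φ : A →⋆ₙₐ[ℂ] B) : Continuous φ := by
  refine AddMonoidHomClass.continuous_of_bound φ 1 fun a => ?_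
  rw [one_mul]
  exact norm_map_le' φ a

/-- closed two-sided ⋆-ideals (as sets) -/
structure Idl (I : Set A) : Prop where
  h0 : (0 : A) ∈ I
  hadd : ∀ a ∈ I, ∀ b ∈ I, a + b ∈ I
  hl : ∀ a : A, ∀ b ∈ I, a * b ∈ I
  hr : ∀ a : A, ∀ b ∈ I, b * a ∈ I
  hsm : ∀ c : ℂ, ∀ b ∈ I, c • b ∈ I
  hst : ∀ b ∈ I, star b ∈ I
  hcl : IsClosed I

theorem ker_idl (φ : A →⋆ₙₐ[ℂ] B) : Idl {a : A | φ a = 0} where
  h0 := map_zero φ
  hadd a ha b hb := by
    simp only [Set.mem_ofPred_eq] at ha hb ⊢
    rw [map_add, ha, hb, add_zero]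
  hl a b hb := by
    simp only [Set.mem_ofPred_eq] at hb ⊢
    rw [map_mul, hb, mul_zero]
  hr a b hb := by
    simp only [Set.mem_ofPred_eq] at hb ⊢
    rw [map_mul, hb, zero_mul]
  hsm c b hb := by
    simp only [Set.mem_ofPred_eq] at hb ⊢
    rw [map_smul, hb, smul_zero]
  hst b hb := by
    simp only [Set.mem_ofPred_eq] at hb ⊢
    rw [map_star, hb, star_zero]
  hcl := isClosed_eq (continuous_hom φ) continuous_const

/-- the closed two-sided ⋆-ideal generated by `b` -/
def gn (b : A) : Set A := ⋂₀ {I : Set A | Idl I ∧ b ∈ I}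

theorem gn_idl (b : A) : Idl (gn b) where
  h0 := by
    rintro I ⟨hI, -⟩
    exact hI.h0
  hadd x hx y hy := by
    rintro I ⟨hI, hb⟩
    exact hI.hadd x (hx I ⟨hI, hb⟩) y (hy I ⟨hI, hb⟩)
  hl x y hy := by
    rintro I ⟨hI, hb⟩
    exact hI.hl x y (hy I ⟨hI, hb⟩)
  hr x y hy := by
    rintro I ⟨hI, hb⟩
    exact hI.hr x y (hy I ⟨hI, hb⟩)
  hsm c y hy := by
    rintro I ⟨hI, hb⟩
    exact hI.hsm c y (hy I ⟨hI, hb⟩)
  hst y hy := by
    rintro I ⟨hI, hb⟩
    exact hI.hst y (hy I ⟨hI, hb⟩)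
  hcl := isClosed_sInter fun I hI => hI.1.hcl

theorem mem_gn (b : A) : b ∈ gn b := by
  rintro I ⟨-, hb⟩
  exact hb

/-- homs that kill the kernel of a surjection factor through it -/
theorem exists_factor {Q : Type u} [NonUnitalCStarAlgebra Q] (π : A →⋆ₙₐ[ℂ] B)
    (hπ : Function.Surjective π) (φ : A →⋆ₙₐ[ℂ] Q) (h : ∀ a, π a = 0 → φ a = 0) :
    ∃ ψ : B →⋆ₙₐ[ℂ] Q, ∀ a, φ a = ψ (π a) := by
  have key : ∀ a a' : A, π a = π a' → φ a = φ a' := by
    intro a a' haa
    have h1 : π (a - a') = 0 := by rw [map_sub, haa, sub_self]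
    have h2 := h _ h1
    rw [map_sub] at h2
    exact sub_eq_zero.1 h2
  have hs : ∀ y : B, π (Function.surjInv hπ y) = y := Function.surjInv_eq hπ
  refine ⟨{ toFun := fun y => φ (Function.surjInv hπ y)
            map_smul' := ?_
            map_zero' := ?_
            map_add' := ?_
            map_mul' := ?_
            map_star' := ?_ }, ?_⟩
  · intro c y
    have : φ (Function.surjInv hπ (c • y)) = φ (c • Function.surjInv hπ y) := by
      apply key
      rw [hs, map_smul, hs]
    rw [this, map_smul]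
    rfl
  · have : φ (Function.surjInv hπ 0) = φ 0 := by
      apply key
      rw [hs, map_zero]
    simpa using this
  · intro x y
    have : φ (Function.surjInv hπ (x + y)) =
        φ (Function.surjInv hπ x + Function.surjInv hπ y) := by
      apply key
      rw [hs, map_add, hs, hs]
    simpa using this
  · intro x y
    have : φ (Function.surjInv hπ (x * y)) =
        φ (Function.surjInv hπ x * Function.surjInv hπ y) := by
      apply key
      rw [hs, map_mul, hs, hs]
    simpa using this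
  · intro x
    have : φ (Function.surjInv hπ (star x)) = φ (star (Function.surjInv hπ x)) := by
      apply key
      rw [hs, map_star, hs]
    simpa [map_star] using this
  · intro a
    exact key _ _ (hs (π a)).symm

/-- the function `q` of the lifting lemma -/
noncomputable def qf (t : ℝ) : ℝ := 1 - (Real.sqrt (max t 1))⁻¹

theorem qf_cont : Continuous qf := by
  unfold qf
  refine continuous_const.sub ?_
  refine Continuous.inv₀ (by fun_prop) fun t => ?_
  have : 0 < Real.sqrt (max t 1) := Real.sqrt_pos.2 (lt_of_lt_of_le one_pos (le_max_right _ _))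
  exact this.ne'

theorem qf_of_le {t : ℝ} (h : t ≤ 1) : qf t = 0 := by
  unfold qf
  rw [max_eq_right h]
  simp

theorem qf_zero : qf 0 = 0 := qf_of_le zero_le_one

theorem qf_bound {t : ℝ} (h : 0 ≤ t) : |t - t * qf t - (t * qf t - t * (qf t * qf t))| ≤ 1 := by
  have e : t - t * qf t - (t * qf t - t * (qf t * qf t)) = t * (1 - qf t) ^ 2 := by ring
  rw [e]
  have e2 : (1 - qf t) ^ 2 = (max t 1)⁻¹ := by
    unfold qf
    rw [sub_sub_cancel, inv_pow, Real.sq_sqrt (le_trans zero_le_one (le_max_right _ _))]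
  rw [e2, abs_of_nonneg (mul_nonneg h (inv_nonneg.2 (le_trans zero_le_one (le_max_right _ _))))]
  rw [← div_eq_mul_inv]
  exact div_le_one_of_le₀ (le_max_left _ _) (le_trans zero_le_one (le_max_right _ _))

end KQuotAux

open KQuotAux in
/-- the quotient by the closed ideal generated by `b`, with its universal property -/
theorem exists_quot (b : A) :
    ∃ (B : Type u) (_ : NonUnitalCStarAlgebra B) (π : A →⋆ₙₐ[ℂ] B),
      Function.Surjective π ∧ π b = 0 ∧
      ∀ (Q : Type u) [NonUnitalCStarAlgebra Q] (φ : A →⋆ₙₐ[ℂ] Q), φ b = 0 →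
        ∃ ψ : B →⋆ₙₐ[ℂ] Q, ∀ a, φ a = ψ (π a) := by
  have hI := gn_idl b
  obtain ⟨B, hB, π, hπ, hker⟩ := exists_cstar_quotient (gn b) hI.h0 hI.hadd hI.hl hI.hr hI.hsm
    hI.hst hI.hcl
  refine ⟨B, hB, π, hπ, (hker b).2 (mem_gn b), ?_⟩
  intro Q _ φ hφ
  refine exists_factor π hπ φ fun a ha => ?_
  have := (hker a).1 ha
  exact this {a : A | φ a = 0} ⟨ker_idl φ, hφ⟩

/-- pure infiniteness passes to images -/
theorem PI.of_surj (hA : PI A) (π : A →⋆ₙₐ[ℂ] B) (hπ : Function.Surjective π) : PI B := by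
  intro y ε hε
  obtain ⟨x, rfl⟩ := hπ y
  obtain ⟨r, s, h1, h2, h3⟩ := hA x ε hε
  refine ⟨π r, π s, ?_, ?_, ?_⟩
  · refine lt_of_le_of_lt ?_ h1
    have := norm_map_le π (star r * (star x * x) * r - star x * x)
    simpa only [map_sub, map_mul, map_star] using this
  · refine lt_of_le_of_lt ?_ h2
    have := norm_map_le π (star s * (star x * x) * s - star x * x)
    simpa only [map_sub, map_mul, map_star] using this
  · refine lt_of_le_of_lt ?_ h3
    have := norm_map_le π (star r * (star x * x) * s)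
    simpa only [map_sub, map_mul, map_star] using this

open KQuotAux in
/-- contractive lifts -/
theorem exists_lift (π : A →⋆ₙₐ[ℂ] B) (hπ : Function.Surjective π) (b : B) (hb : ‖b‖ ≤ 1) :
    ∃ a : A, π a = b ∧ ‖a‖ ≤ 1 := by
  obtain ⟨a0, rfl⟩ := hπ b
  set h : A := star a0 * a0 with hh
  have hsa : IsSelfAdjoint h := IsSelfAdjoint.star_mul_self a0
  have hnn : 0 ≤ h := star_mul_self_nonneg a0
  set q : A := cfcₙ qf h with hq
  have hqsa : star q = q := (cfcₙ_predicate (p := IsSelfAdjoint) qf h).star_eq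
  refine ⟨a0 - a0 * q, ?_, ?_⟩
  · have h1 : π q = cfcₙ qf (π h) :=
      NonUnitalStarAlgHomClass.map_cfcₙ π qf h qf_cont.continuousOn qf_zero (continuous_hom π)
        hsa (hsa.map π)
    have h2 : cfcₙ qf (π h) = 0 := by
      have hnorm : ‖π h‖ ≤ 1 := by
        rw [hh, map_mul, map_star, CStarRing.norm_star_mul_self]
        nlinarith [norm_nonneg (π a0)]
      have : cfcₙ qf (π h) = cfcₙ (fun _ : ℝ => (0 : ℝ)) (π h) := by
        refine cfcₙ_congr fun t ht => ?_
        have hsa' : IsSelfAdjoint (π h) := hsa.map π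
        have h1 : ‖t‖ ≤ ‖π h‖ := by
          have := norm_apply_le_norm_cfcₙ (fun x : ℝ => x) (π h) ht
          rwa [cfcₙ_id' ℝ (π h)] at this
        exact qf_of_le ((le_abs_self t).trans (by
          rw [← Real.norm_eq_abs]; exact h1.trans hnorm))
      rw [this, cfcₙ_const_zero]
    rw [map_sub, map_mul, h1, h2, mul_zero, sub_zero]
  · have hid : cfcₙ (fun x : ℝ => x) h = h := cfcₙ_id' ℝ h
    have e : star (a0 - a0 * q) * (a0 - a0 * q) =
        cfcₙ (fun t : ℝ => t - t * qf t - (t * qf t - t * (qf t * qf t))) h := by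
      have c1 : ContinuousOn qf (quasispectrum ℝ h) := qf_cont.continuousOn
      have c0 : ContinuousOn (fun t : ℝ => t) (quasispectrum ℝ h) := continuousOn_id
      have m1 : cfcₙ (fun t : ℝ => t * qf t) h = h * q := by
        rw [cfcₙ_mul (fun t : ℝ => t) qf h c0 rfl c1 qf_zero, hid]
      have m1' : h * q = q * h := by
        have : cfcₙ (fun t : ℝ => qf t * t) h = q * h := by
          rw [cfcₙ_mul qf (fun t : ℝ => t) h c1 qf_zero c0 rfl, hid]
        rw [← m1, ← this]
        exact cfcₙ_congr fun t _ => mul_comm _ _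
      have m2 : cfcₙ (fun t : ℝ => t * (qf t * qf t)) h = h * (q * q) := by
        rw [cfcₙ_mul (fun t : ℝ => t) (fun t => qf t * qf t) h c0 rfl (c1.mul c1)
          (by simp [qf_zero]), cfcₙ_mul qf qf h c1 qf_zero c1 qf_zero, hid]
      rw [cfcₙ_sub (fun t : ℝ => t - t * qf t) (fun t => t * qf t - t * (qf t * qf t)) h
        (c0.sub (c0.mul c1)) (by simp [qf_zero]) ((c0.mul c1).sub (c0.mul (c1.mul c1)))
        (by simp [qf_zero]),
        cfcₙ_sub (fun t : ℝ => t) (fun t => t * qf t) h c0 rfl (c0.mul c1) (by simp [qf_zero]),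
        cfcₙ_sub (fun t : ℝ => t * qf t) (fun t => t * (qf t * qf t)) h (c0.mul c1)
        (by simp [qf_zero]) (c0.mul (c1.mul c1)) (by simp [qf_zero]), m1, m2, hid]
      rw [star_sub, star_mul, hqsa, sub_mul, mul_sub, mul_sub]
      have a1 : star a0 * (a0 * q) = h * q := by rw [hh, mul_assoc]
      have a2 : q * star a0 * a0 = h * q := by rw [mul_assoc, ← hh, ← m1']
      have a3 : q * star a0 * (a0 * q) = h * (q * q) := by
        rw [← mul_assoc, a2, mul_assoc]
      rw [a1, a2, a3]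
    have hn : ‖star (a0 - a0 * q) * (a0 - a0 * q)‖ ≤ 1 := by
      rw [e]
      refine norm_cfcₙ_le fun t ht => ?_
      rw [Real.norm_eq_abs]
      exact qf_bound (quasispectrum_nonneg_of_nonneg h hnn t ht)
    rw [CStarRing.norm_star_mul_self] at hn
    nlinarith [norm_nonneg (a0 - a0 * q)]


end Crest.Agent.R110
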