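import Crest.Agent.R110.KCut
import Crest.Agent.R117.Quot

/-!
# R110 toolkit KQuot: quotients, lifts, units in kernels

* `exists_cstar_quotient`: non-unital version of `R117.Quotaux.exists_cstar_quotient'` (Crest/Agent/R117/Quot.lean); either copy
  that proof (replace `1 - e` by `x - x e`), or apply it to `Unitization ℂ A`, `J' = inr '' J`, and take the closed
  `NonUnitalStarSubalgebra` image of `A`.
* `exists_quot`: `J` = closed two-sided ideal generated by `b` and `star b`.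
* `exists_lift`: any lift `a0`, `a := a0 - a0 * q(a0⋆a0)`, `q(t) = 1 - min(1, t^{-1/2})` (`q = 0` on `[0,1]`): `a⋆a = min(t,1)(a0⋆a0)`.
* `exists_unit`: `e = g(y⋆y)`, `g(t) = min(nt,1)`: `‖y(1-e)‖² ≤ sup t(1-g)² ≤ 1/n`.
* `exists_near_ker`: `x - clamp_r(x)`, for selfadjoint `x`.
-/

set_option autoImplicit false

namespace Crest.Agent.R110

universe u
variable {A B : Type u} [NonUnitalCStarAlgebra A] [NonUnitalCStarAlgebra B]

theorem exists_cstar_quotient (J : Set A) (h0 : (0 : A) ∈ J) (hadd : ∀ a ∈ J, ∀ b ∈ J, a + b ∈ J)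
    (hl : ∀ a : A, ∀ b ∈ J, a * b ∈ J) (hr : ∀ a : A, ∀ b ∈ J, b * a ∈ J)
    (hsm : ∀ c : ℂ, ∀ b ∈ J, c • b ∈ J) (hst : ∀ b ∈ J, star b ∈ J) (hcl : IsClosed J) :
    ∃ (B : Type u) (_ : NonUnitalCStarAlgebra B) (π : A →⋆ₙₐ[ℂ] B),
      Function.Surjective π ∧ ∀ a, π a = 0 ↔ a ∈ J := by
  let ι : A →⋆ₙₐ[ℂ] Unitization ℂ A := Unitization.inrNonUnitalStarAlgHom ℂ A
  have hι : ∀ a : A, ι a = (a : Unitization ℂ A) := fun a => rfl
  have hiso : Isometry ι := Unitization.isometry_inr (𝕜 := ℂ) (A := A)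
  let J' : Set (Unitization ℂ A) := ι '' J
  have hfst : ∀ z : Unitization ℂ A, ‖z.fst‖ ≤ ‖z‖ := fun z => by
    rw [Unitization.norm_eq_sup]
    exact le_max_left _ _
  obtain ⟨B0, instB0, π0, hsurj, hker, hnorm, hlift⟩ :=
    Crest.Agent.R117.Quotaux.exists_cstar_quotient' J'
      ⟨0, h0, map_zero ι⟩
      (by
        rintro _ ⟨a, ha, rfl⟩ _ ⟨b, hb, rfl⟩
        exact ⟨a + b, hadd a ha b hb, map_add ι a b⟩)
      (by
        rintro e _ ⟨b, hb, rfl⟩
        refine ⟨e.fst • b + e.snd * b, hadd _ (hsm _ _ hb) _ (hl _ _ hb), ?_⟩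
        rw [hι, hι]
        apply Unitization.ext
        · simp
        · simp)
      (by
        rintro e _ ⟨b, hb, rfl⟩
        refine ⟨e.fst • b + b * e.snd, hadd _ (hsm _ _ hb) _ (hr _ _ hb), ?_⟩
        rw [hι, hι]
        apply Unitization.ext
        · simp
        · simp)
      (by
        rintro _ ⟨b, hb, rfl⟩
        exact ⟨star b, hst b hb, map_star ι b⟩)
      (hiso.isClosedEmbedding.isClosedMap J hcl)
  let φ : A →⋆ₙₐ[ℂ] B0 := (π0 : Unitization ℂ A →⋆ₙₐ[ℂ] B0).comp ι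
  have hφ : ∀ a, φ a = π0 (ι a) := fun a => rfl
  let R : NonUnitalStarSubalgebra ℂ B0 := NonUnitalStarAlgHom.range φ
  have hRmem : ∀ y : B0, y ∈ R ↔ ∃ a, φ a = y := fun y => NonUnitalStarAlgHom.mem_range φ
  have hRcl : IsClosed (R : Set B0) := by
    rw [← closure_subset_iff_isClosed]
    intro y hy
    obtain ⟨x, rfl⟩ := hsurj y
    by_contra hcon
    have hc : x.fst ≠ 0 := by
      intro hx
      apply hcon
      show π0 x ∈ R
      rw [hRmem]
      refine ⟨x.snd, ?_⟩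
      rw [hφ, hι]
      congr 1
      apply Unitization.ext
      · simp [hx]
      · simp
    have hpos : 0 < ‖x.fst‖ := norm_pos_iff.2 hc
    rw [Metric.mem_closure_iff] at hy
    obtain ⟨b, hb, hd⟩ := hy (‖x.fst‖ / 2) (half_pos hpos)
    obtain ⟨a, rfl⟩ := (hRmem b).1 hb
    rw [dist_eq_norm, hφ, ← map_sub] at hd
    obtain ⟨j, ⟨b', hb', rfl⟩, hj2⟩ := hlift (x - ι a) (‖x.fst‖ / 2) (half_pos hpos)
    have h3 := hfst (x - ι a + ι b')
    have h4 : (x - ι a + ι b').fst = x.fst := by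
      rw [hι, hι, sub_eq_add_neg, Unitization.fst_add, Unitization.fst_add, Unitization.fst_neg,
        Unitization.fst_inr, Unitization.fst_inr]
      ring
    rw [h4] at h3
    linarith
  refine ⟨R, NonUnitalStarSubalgebra.nonUnitalCStarAlgebra R (h_closed := hRcl),
    NonUnitalStarAlgHom.rangeRestrict φ, ?_, ?_⟩
  · rintro ⟨y, hy⟩
    obtain ⟨a, ha⟩ := (hRmem y).1 hy
    exact ⟨a, Subtype.ext ha⟩
  · intro a
    constructor
    · intro h
      have h1 : π0 (ι a) = 0 := congrArg Subtype.val h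
      obtain ⟨b, hb, hb2⟩ := (hker _).1 h1
      rwa [hiso.injective hb2] at hb
    · intro h
      exact Subtype.ext ((hker _).2 ⟨a, h, rfl⟩)

end Crest.Agent.R110
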