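import Crest.Agent.R110.KCompA

/-! # R110 toolkit KUnit: approximate units of closed ideals

`exists_unit`: `k = ∑ (star (z i) * z i + z i * star (z i)) ∈ I`, `e = k (k + δ)⁻¹`, `(1-e) k (1-e) ≤ δ`,
so `‖z i (1 - e)‖² = ‖(1-e) z i⋆ z i (1-e)‖ ≤ δ`.
-/

set_option autoImplicit false

namespace Crest.Agent.R110

universe u

open Crest.Agent.R117 (IsIdl)

variable {A : Type u} [CStarAlgebra A] [PartialOrder A] [StarOrderedRing A]
variable {B : Type u} [CStarAlgebra B] [PartialOrder B] [StarOrderedRing B]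

/-- `u = δ (k + δ)⁻¹`, `e = 1 - u = w k`. -/
theorem unit_key {k : A} (hk : 0 ≤ k) (δ : ℝ) (hδ : 0 < δ) :
    ∃ u w : A, 0 ≤ u ∧ u ≤ 1 ∧ ‖u * k * u‖ ≤ δ ∧ 1 - u = w * k := by
  have hsa : IsSelfAdjoint k := IsSelfAdjoint.of_nonneg hk
  have hsp : ∀ x ∈ spectrum ℝ k, 0 ≤ x := fun x hx => spectrum_nonneg_of_nonneg hk hx
  have hne : ∀ x ∈ spectrum ℝ k, x + δ ≠ 0 := fun x hx => by
    have := hsp x hx; positivity
  have hc1 : ContinuousOn (fun t : ℝ => δ / (t + δ)) (spectrum ℝ k) :=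
    ContinuousOn.div continuousOn_const (by fun_prop) hne
  have hc2 : ContinuousOn (fun t : ℝ => 1 / (t + δ)) (spectrum ℝ k) :=
    ContinuousOn.div continuousOn_const (by fun_prop) hne
  refine ⟨cfc (fun t : ℝ => δ / (t + δ)) k, cfc (fun t : ℝ => 1 / (t + δ)) k, ?_, ?_, ?_, ?_⟩
  · refine cfc_nonneg fun t ht => ?_
    have := hsp t ht
    positivity
  · refine cfc_le_one _ _ fun t ht => ?_
    have h0 := hsp t ht
    rw [div_le_one (by positivity)]
    linarith
  · have h2 : cfc (fun t : ℝ => δ / (t + δ)) k * k * cfc (fun t : ℝ => δ / (t + δ)) k =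
        cfc (fun t : ℝ => (δ / (t + δ)) * t * (δ / (t + δ))) k := by
      rw [cfc_mul _ _ _ (by fun_prop) hc1, cfc_mul _ _ _ hc1 (by fun_prop), cfc_id' ℝ k]
    rw [h2]
    refine norm_cfc_le hδ.le fun t ht => ?_
    have h0 := hsp t ht
    rw [Real.norm_of_nonneg (by positivity)]
    have : δ / (t + δ) * t * (δ / (t + δ)) = δ * ((δ * t) / (t + δ) ^ 2) := by
      field_simp
    rw [this]
    have h3 : (δ * t) / (t + δ) ^ 2 ≤ 1 := by
      rw [div_le_one (by positivity)]
      nlinarith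
    nlinarith
  · have h4 : cfc (fun t : ℝ => 1 / (t + δ)) k * k = cfc (fun t : ℝ => 1 / (t + δ) * t) k := by
      rw [cfc_mul _ _ _ hc2 (by fun_prop), cfc_id' ℝ k]
    rw [h4, ← cfc_one ℝ k, ← cfc_sub _ _ _ (by fun_prop) hc1]
    refine cfc_congr fun t ht => ?_
    have := hne t ht
    field_simp
    simp

theorem exists_unit {I : Set A} (hI : IsIdl I) (hc : IsClosed I) {n : ℕ} (z : Fin n → A) (hz : ∀ i, z i ∈ I)
    (ε : ℝ) (hε : 0 < ε) :
    ∃ e ∈ I, 0 ≤ e ∧ e ≤ 1 ∧ ∀ i, ‖z i * (1 - e)‖ < ε ∧ ‖(1 - e) * z i‖ < ε := by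
  classical
  set k : A := ∑ i, (star (z i) * z i + z i * star (z i)) with hk
  have hterm : ∀ i, 0 ≤ star (z i) * z i + z i * star (z i) := fun i =>
    add_nonneg (star_mul_self_nonneg _) (mul_star_self_nonneg _)
  have hk0 : 0 ≤ k := Finset.sum_nonneg fun i _ => hterm i
  have hkI : k ∈ I := by
    have : ∀ s : Finset (Fin n), ∑ i ∈ s, (star (z i) * z i + z i * star (z i)) ∈ I := by
      intro s
      induction s using Finset.induction_on with
      | empty => simpa using hI.zero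
      | insert a s ha ih =>
        rw [Finset.sum_insert ha]
        exact hI.add _ (hI.add _ (hI.left _ _ (hz a)) _ (hI.right _ _ (hz a))) _ ih
    exact this _
  obtain ⟨u, w, hu0, hu1, huk, huw⟩ := unit_key hk0 ((ε / 2) ^ 2) (by positivity)
  have husa : star u = u := (IsSelfAdjoint.of_nonneg hu0).star_eq
  refine ⟨1 - u, ?_, sub_nonneg.2 hu1, sub_le_self _ hu0, fun i => ?_⟩
  · rw [huw]; exact hI.left _ _ hkI
  · have hle : star (z i) * z i + z i * star (z i) ≤ k := by
      rw [hk]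
      exact Finset.single_le_sum (f := fun i => star (z i) * z i + z i * star (z i))
        (fun j _ => hterm j) (Finset.mem_univ i)
    have h1 : star (z i) * z i ≤ k :=
      (le_add_of_nonneg_right (mul_star_self_nonneg _)).trans hle
    have h2 : z i * star (z i) ≤ k :=
      (le_add_of_nonneg_left (star_mul_self_nonneg _)).trans hle
    have hconj : ∀ x : A, 0 ≤ x → x ≤ k → ‖u * x * u‖ ≤ (ε / 2) ^ 2 := by
      intro x hx0 hxk
      have h3 : u * x * u ≤ u * k * u := by
        have := star_left_conjugate_le_conjugate hxk u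
        rwa [husa] at this
      have h4 : 0 ≤ u * x * u := by
        have := star_left_conjugate_nonneg hx0 u
        rwa [husa] at this
      exact (CStarAlgebra.norm_le_norm_of_nonneg_of_le h4 h3).trans huk
    have hsub : (1 : A) - (1 - u) = u := sub_sub_cancel 1 u
    rw [hsub]
    have hfin : ∀ t : ℝ, 0 ≤ t → t * t ≤ (ε / 2) ^ 2 → t < ε := by
      intro t ht h
      nlinarith
    constructor
    · apply hfin _ (norm_nonneg _)
      rw [← CStarRing.norm_star_mul_self, star_mul, husa]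
      have := hconj _ (star_mul_self_nonneg (z i)) h1
      simpa only [mul_assoc] using this
    · apply hfin _ (norm_nonneg _)
      rw [← CStarRing.norm_self_mul_star, star_mul, husa]
      have := hconj _ (mul_star_self_nonneg (z i)) h2
      simpa only [mul_assoc] using this

theorem exists_unit_one {I : Set A} (hI : IsIdl I) (hc : IsClosed I) (z : A) (hz : z ∈ I)
    (ε : ℝ) (hε : 0 < ε) :
    ∃ e ∈ I, 0 ≤ e ∧ e ≤ 1 ∧ ‖z * (1 - e)‖ < ε ∧ ‖(1 - e) * z‖ < ε := by
  obtain ⟨e, h1, h2, h3, h4⟩ := exists_unit hI hc (n := 1) (fun _ => z) (fun _ => hz) ε hε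
  exact ⟨e, h1, h2, h3, h4 0⟩

end Crest.Agent.R110
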