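import Crest.Agent.R110.KCmp

/-!
# R110 piece LemA: helper5's Lemma A for a projection (pointwise form)

Variant without square roots (helper35).  `e := 1/(16 M)`, `τ := e⁶/16000`, `η := e⁵/2`, `ε' := η²/64`.
`T := c⋆ k`, `G := T T⋆`, `P := (G - e)_+`, `H := (G P)⋆ (G P)`; copies `r, s` of `H`; `R1 := G P r`, `R2 := G P s`, so
`R_i⋆ R_j ≈ δ_ij H` and `T (T⋆ P r) = R1` exactly.  `gg η t := t / (max η t)²`, `γ := gg η b`: `γ b (b-η)_+ = (b-η)_+`, `‖γ‖ ≤ 1/η`.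
`lemA_w`: `b := R1 R1⋆`, `s := p - b γ` (selfadjoint, `p s = s`, `(b-η)_+ s = 0`), `Dom p (s s)`, `compare`: `w := s y`;
`‖R1⋆ w‖² = ‖w⋆ (b - (b-η)_+) w‖ ≤ η ‖w‖²`.
Coverage: `‖k x‖² ≤ τ‖x‖² + M‖w⋆ T x‖²` for all `x`; `x = T⋆ P r` gives `‖φ H‖ ≤ e⁴`, so `‖φ P‖ ≤ e`, `‖φ G‖ ≤ 2e`,
`‖φ k‖² ≤ τ + 4 M e ≤ 1/2`.
-/

set_option autoImplicit false

namespace Crest.Agent.R110

universe u

namespace LemAaux

/-- `t / (max η t)^2` -/
noncomputable def gg (η t : ℝ) : ℝ := t / (max η t) ^ 2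

theorem continuous_gg {η : ℝ} (hη : 0 < η) : Continuous (gg η) := by
  unfold gg
  refine continuous_id.div ((continuous_const.max continuous_id).pow 2) fun t => ?_
  have : 0 < max η t := lt_of_lt_of_le hη (le_max_left _ _)
  positivity

theorem gg_zero (η : ℝ) : gg η 0 = 0 := by simp [gg]

theorem gg_facts {A : Type u} [NonUnitalCStarAlgebra A] {η : ℝ} (hη : 0 < η) {b : A}
    (hb : 0 ≤ b) :
    ∃ γ : A, star γ = γ ∧ γ * b = b * γ ∧ ‖γ‖ ≤ 1 / η ∧ γ * b * ps η b = ps η b ∧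
      ps η b * b = b * ps η b ∧ ‖b - ps η b‖ ≤ η ∧ γ * ps η b = ps η b * γ := by
  have hsa : IsSelfAdjoint b := IsSelfAdjoint.of_nonneg hb
  have hg : Continuous (gg η) := continuous_gg hη
  have hp : Continuous (pp η) := continuous_pp η
  have hp0 : pp η 0 = 0 := pp_zero hη.le
  have hbid : cfcₙ (fun t : ℝ => t) b = b := cfcₙ_id' ℝ b
  have hq : ∀ x ∈ quasispectrum ℝ b, 0 ≤ x := quasispectrum_nonneg_of_nonneg b hb
  refine ⟨cfcₙ (gg η) b, ?_, ?_, ?_, ?_, ?_, ?_, ?_⟩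
  · exact (cfcₙ_predicate (gg η) b : IsSelfAdjoint _).star_eq
  · have := (cfcₙ_commute_cfcₙ (gg η) (fun t : ℝ => t) b).eq
    rw [hbid] at this
    exact this
  · refine norm_cfcₙ_le fun x hx => ?_
    have hx0 := hq x hx
    have hm : 0 < max η x := lt_of_lt_of_le hη (le_max_left _ _)
    rw [Real.norm_eq_abs, gg, abs_of_nonneg (by positivity), div_le_div_iff₀ (by positivity) hη,
      one_mul]
    have h1 : η ≤ max η x := le_max_left _ _
    have h2 : x ≤ max η x := le_max_right _ _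
    nlinarith
  · have h1 : cfcₙ (gg η) b * b * ps η b = cfcₙ (fun t => gg η t * t * pp η t) b := by
      rw [cfcₙ_mul (fun t => gg η t * t) (pp η) b (by fun_prop) (by simp [gg_zero]) (by fun_prop) hp0,
        cfcₙ_mul (gg η) (fun t => t) b (by fun_prop) (gg_zero η) (by fun_prop) rfl, hbid]
      rfl
    rw [h1]
    unfold ps
    congr 1
    funext t
    by_cases ht : t ≤ η
    · rw [pp_of_le ht, mul_zero]
    · push Not at ht
      have : gg η t * t = 1 := by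
        rw [gg, max_eq_right ht.le]
        have : t ≠ 0 := by linarith
        field_simp
      rw [this, one_mul]
  · have := (cfcₙ_commute_cfcₙ (pp η) (fun t : ℝ => t) b).eq
    rw [hbid] at this
    exact this
  · have h1 : b - ps η b = cfcₙ (fun t => t - pp η t) b := by
      rw [cfcₙ_sub (fun t => t) (pp η) b (by fun_prop) rfl (by fun_prop) hp0, hbid]
      rfl
    rw [h1]
    refine norm_cfcₙ_le fun x hx => ?_
    have hx0 := hq x hx
    rw [Real.norm_eq_abs]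
    by_cases ht : x ≤ η
    · rw [pp_of_le ht, sub_zero, abs_of_nonneg hx0]; exact ht
    · push Not at ht
      rw [pp_of_ge ht.le, sub_sub_cancel, abs_of_nonneg hη.le]
  · exact (cfcₙ_commute_cfcₙ (gg η) (pp η) b).eq

theorem ineq_of_ps {Q : Type u} [NonUnitalCStarAlgebra Q] {k V : Q} {τ M : ℝ} (hτ : 0 ≤ τ)
    (hM : 0 ≤ M) (h : ps τ (XT k V M) = 0) (x : Q) :
    ‖k * x‖ ^ 2 ≤ τ * ‖x‖ ^ 2 + M * ‖V * x‖ ^ 2 := by
  have hsa : star (XT k V M) = XT k V M := by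
    unfold XT
    rw [star_sub, star_smul, star_mul, star_mul, star_star, star_star, star_trivial M]
  have h1 := conj_le_of_ps_eq_zero hτ hsa h x
  have h2 : star x * XT k V M * x = star (k * x) * (k * x) - M • (star (V * x) * (V * x)) := by
    unfold XT
    rw [star_mul, star_mul, mul_sub, sub_mul, mul_smul_comm, smul_mul_assoc]
    simp only [mul_assoc]
  rw [h2, sub_le_iff_le_add] at h1
  have h3 := CStarAlgebra.norm_le_norm_of_nonneg_of_le (star_mul_self_nonneg (k * x)) h1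
  rw [CStarRing.norm_star_mul_self] at h3
  calc ‖k * x‖ ^ 2 = ‖k * x‖ * ‖k * x‖ := by ring
    _ ≤ ‖τ • (star x * x) + M • (star (V * x) * (V * x))‖ := h3
    _ ≤ ‖τ • (star x * x)‖ + ‖M • (star (V * x) * (V * x))‖ := norm_add_le _ _
    _ = τ * ‖x‖ ^ 2 + M * ‖V * x‖ ^ 2 := by
      rw [norm_smul, norm_smul, CStarRing.norm_star_mul_self, CStarRing.norm_star_mul_self,
        Real.norm_of_nonneg hτ, Real.norm_of_nonneg hM]
      ring

theorem proj_norm {A : Type u} [NonUnitalCStarAlgebra A] {p : A} (hp : star p = p)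
    (hpp : p * p = p) : ‖p‖ * ‖p‖ = ‖p‖ := by
  rw [← CStarRing.norm_star_mul_self, hp, hpp]

theorem proj_norm_le {A : Type u} [NonUnitalCStarAlgebra A] {p : A} (hp : star p = p)
    (hpp : p * p = p) : ‖p‖ ≤ 1 := by
  have h := proj_norm hp hpp
  by_contra h1
  push Not at h1
  nlinarith

theorem proj_eq_zero {A : Type u} [NonUnitalCStarAlgebra A] {p : A} (hp : star p = p)
    (hpp : p * p = p) (h1 : ‖p‖ < 1) : p = 0 := by
  have h := proj_norm hp hpp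
  have h0 := norm_nonneg p
  rw [← norm_eq_zero]
  by_contra h2
  have h3 : 0 < ‖p‖ := lt_of_le_of_ne h0 (Ne.symm h2)
  nlinarith

theorem norm_sq_eq {A : Type u} [NonUnitalCStarAlgebra A] (x : A) : ‖x‖ ^ 2 = ‖star x * x‖ := by
  rw [CStarRing.norm_star_mul_self]; ring

/-- the vector `w` : avoids `R1` -/
theorem lemA_w {D : Type u} [NonUnitalCStarAlgebra D] (hD : PI D) {p R1 R2 H : D}
    (hp : star p = p) (hpp : p * p = p) (hR1 : p * R1 = R1) (hR2 : p * R2 = R2) {η ε' ε : ℝ}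
    (hη : 0 < η) (hη1 : η ≤ 1) (hε : 0 < ε) (hε' : ε' = η ^ 2 / 64) (hn : ‖R1‖ ≤ 17)
    (h11 : ‖star R1 * R1 - H‖ < ε') (h22 : ‖star R2 * R2 - H‖ < ε')
    (h12 : ‖star R1 * R2‖ < ε') :
    ∃ w : D, p * w = w ∧ ‖star w * w - p‖ < ε ∧ ‖star R1 * w‖ ^ 2 ≤ η * ‖w‖ ^ 2 := by
  have hε'0 : 0 < ε' := by rw [hε']; positivity
  obtain ⟨b, hb⟩ : ∃ b : D, b = R1 * star R1 := ⟨_, rfl⟩
  have hb0 : 0 ≤ b := by rw [hb]; exact mul_star_self_nonneg R1
  have hbs : star b = b := by rw [hb, star_mul, star_star]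
  have hpb : p * b = b := by rw [hb, ← mul_assoc, hR1]
  have hbp : b * p = b := by
    have := congrArg star hpb
    rwa [star_mul, hp, hbs] at this
  obtain ⟨γ, hγs, hγb, hγn, hγP, hPb, hbP, -⟩ := gg_facts hη hb0
  obtain ⟨P, hP⟩ : ∃ P : D, P = ps η b := ⟨_, rfl⟩
  rw [← hP] at hγP hPb hbP
  have hPs : star P = P := by rw [hP]; exact ps_sa b
  -- `q = b γ`
  have hPγb : P * (b * γ) = P := by
    have := congrArg star hγP
    rw [star_mul, star_mul, hPs, hγs, hbs] at this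
    exact this
  have hPp : P * p = P := by
    calc P * p = P * (b * γ) * p := by rw [hPγb]
      _ = P * (γ * b) * p := by rw [hγb]
      _ = P * (γ * (b * p)) := by simp only [mul_assoc]
      _ = P * (b * γ) := by rw [hbp, hγb]
      _ = P := hPγb
  obtain ⟨s, hs⟩ : ∃ s : D, s = p - b * γ := ⟨_, rfl⟩
  have hss : star s = s := by
    rw [hs, star_sub, hp, star_mul, hγs, hbs, hγb]
  have hps : p * s = s := by
    rw [hs, mul_sub, hpp, ← mul_assoc, hpb]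
  have hPs0 : P * s = 0 := by
    rw [hs, mul_sub, hPp, hPγb, sub_self]
  have hp0 : 0 ≤ p := by
    have := star_mul_self_nonneg p
    rwa [hp, hpp] at this
  have hs0 : 0 ≤ s * s := by
    have := star_mul_self_nonneg s
    rwa [hss] at this
  have hdom : Dom p (s * s) := by
    intro Q _ φ hφ
    have hφs : φ s = 0 := by
      have h1 : ‖φ s‖ ^ 2 = 0 := by
        rw [norm_sq_eq, ← map_star, hss, ← map_mul, hφ, norm_zero]
      exact norm_eq_zero.mp (pow_eq_zero_iff (two_ne_zero) |>.mp h1)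
    have hφp : φ p = φ (γ * b) := by
      rw [hs, map_sub, sub_eq_zero] at hφs
      rw [hφs, hγb]
    have hR2n : ‖φ R2‖ ≤ 1 / η * 17 * ε' := by
      have h1 : φ R2 = φ (γ * (R1 * (star R1 * R2))) := by
        conv_lhs => rw [← hR2, map_mul, hφp, ← map_mul]
        rw [hb]
        simp only [mul_assoc]
      rw [h1]
      calc ‖φ (γ * (R1 * (star R1 * R2)))‖ ≤ ‖γ * (R1 * (star R1 * R2))‖ := norm_map_le φ _
        _ ≤ ‖γ‖ * (‖R1‖ * ‖star R1 * R2‖) :=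
          (norm_mul_le _ _).trans (by gcongr; exact norm_mul_le _ _)
        _ ≤ 1 / η * (17 * ε') := by gcongr
        _ = 1 / η * 17 * ε' := by ring
    have hHn : ‖φ H‖ ≤ ‖φ R2‖ ^ 2 + ε' := by
      have h1 : φ H = φ (star R2 * R2) - φ (star R2 * R2 - H) := by
        rw [map_sub]; abel
      rw [h1]
      calc _ ≤ ‖φ (star R2 * R2)‖ + ‖φ (star R2 * R2 - H)‖ := norm_sub_le _ _
        _ ≤ ‖φ R2‖ ^ 2 + ε' := by
          gcongr
          · rw [norm_sq_eq, map_mul, map_star]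
          · exact (norm_map_le φ _).trans h22.le
    have hR1n : ‖φ R1‖ ^ 2 ≤ ‖φ H‖ + ε' := by
      have h1 : ‖φ R1‖ ^ 2 = ‖φ H + φ (star R1 * R1 - H)‖ := by
        rw [norm_sq_eq, map_sub, map_mul, map_star]; congr 1; abel
      rw [h1]
      exact (norm_add_le _ _).trans (by gcongr; exact (norm_map_le φ _).trans h11.le)
    apply proj_eq_zero
    · rw [← map_star, hp]
    · rw [← map_mul, hpp]
    · have h1 : ‖φ p‖ ≤ 1 / η * ‖φ R1‖ ^ 2 := by
        rw [hφp, map_mul, hb]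
        calc _ ≤ ‖φ γ‖ * ‖φ (R1 * star R1)‖ := norm_mul_le _ _
          _ ≤ 1 / η * ‖φ R1‖ ^ 2 := by
            gcongr
            · exact (norm_map_le φ _).trans hγn
            · rw [map_mul, map_star, CStarRing.norm_self_mul_star]
              exact (by ring_nf; exact le_rfl)
      have h2 : 1 / η * 17 * ε' = 17 / 64 * η := by rw [hε']; field_simp
      rw [h2] at hR2n
      have h3 : ‖φ R2‖ ^ 2 ≤ (17 / 64 * η) ^ 2 := by
        gcongr
      have h4 : ‖φ R1‖ ^ 2 ≤ η / 2 := by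
        rw [hε'] at hHn hR1n
        nlinarith
      calc ‖φ p‖ ≤ 1 / η * ‖φ R1‖ ^ 2 := h1
        _ ≤ 1 / η * (η / 2) := by gcongr
        _ = 1 / 2 := by field_simp
        _ < 1 := by norm_num
  obtain ⟨y, hy⟩ := compare hD hp0 hs0 hdom ε hε
  refine ⟨s * y, ?_, ?_, ?_⟩
  · rw [← mul_assoc, hps]
  · have h1 : star (s * y) * (s * y) = star y * (s * s) * y := by
      rw [star_mul, hss]; simp only [mul_assoc]
    rw [h1]
    exact hy
  · have h1 : star (star R1 * (s * y)) * (star R1 * (s * y)) =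
        star (s * y) * (b - P) * (s * y) := by
      have h2 : P * (s * y) = 0 := by rw [← mul_assoc, hPs0, zero_mul]
      rw [mul_assoc (star (s * y)), sub_mul, h2, sub_zero, hb, star_mul, star_star]
      simp only [mul_assoc]
    rw [norm_sq_eq, h1]
    calc _ ≤ ‖star (s * y) * (b - P)‖ * ‖s * y‖ := norm_mul_le _ _
      _ ≤ (‖star (s * y)‖ * ‖b - P‖) * ‖s * y‖ := by gcongr; exact norm_mul_le _ _
      _ ≤ (‖s * y‖ * η) * ‖s * y‖ := by rw [norm_star]; gcongr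
      _ = η * ‖s * y‖ ^ 2 := by ring

end LemAaux

open LemAaux in
set_option maxHeartbeats 2000000 in
theorem lemA (M : ℝ) (hM : 1 ≤ M) :
    ∃ τ : ℝ, 0 < τ ∧ τ ≤ 1 / 8 ∧ ∀ (D : Type u) [NonUnitalCStarAlgebra D], PI D → ∀ (p c k : D),
      star p = p → p * p = p → c * p = c → ‖c‖ ≤ 2 → star k = k → ‖k‖ ≤ 1 → ∀ ε : ℝ, 0 < ε →
      ∃ w : D, p * w = w ∧ ‖star w * w - p‖ ≤ ε ∧
        ∀ (Q : Type u) [NonUnitalCStarAlgebra Q] (φ : D →⋆ₙₐ[ℂ] Q),
          φ (ps τ (XT k (star w * star c * k) M)) = 0 → ‖φ k‖ ^ 2 ≤ 1 / 2 := by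
  obtain ⟨e, he⟩ : ∃ e : ℝ, e = 1 / (16 * M) := ⟨_, rfl⟩
  have hM0 : 0 < M := by linarith
  have he0 : 0 < e := by rw [he]; positivity
  have heM : M * e = 1 / 16 := by rw [he]; field_simp
  have he1 : e ≤ 1 / 16 := by nlinarith
  obtain ⟨τ, hτ⟩ : ∃ τ : ℝ, τ = e ^ 6 / 16000 := ⟨_, rfl⟩
  obtain ⟨η, hη⟩ : ∃ η : ℝ, η = e ^ 5 / 2 := ⟨_, rfl⟩
  have hτ0 : 0 < τ := by rw [hτ]; positivity
  have hη0 : 0 < η := by rw [hη]; positivity
  have he61 : e ^ 6 ≤ 1 := pow_le_one₀ he0.le (by linarith)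
  have he51 : e ^ 5 ≤ 1 := pow_le_one₀ he0.le (by linarith)
  have hτ1 : τ ≤ 1 / 8 := by rw [hτ]; linarith
  have hη1 : η ≤ 1 := by rw [hη]; linarith
  refine ⟨τ, hτ0, hτ1, ?_⟩
  intro D _ hD p c k hp hpp hcp hc hk hk1 ε hε
  obtain ⟨ε', hε'⟩ : ∃ ε' : ℝ, ε' = η ^ 2 / 64 := ⟨_, rfl⟩
  have hε'0 : 0 < ε' := by rw [hε']; positivity
  have hε'1 : ε' ≤ 1 := by rw [hε']; nlinarith
  have hpn : ‖p‖ ≤ 1 := proj_norm_le hp hpp
  obtain ⟨T, hT⟩ : ∃ T : D, T = star c * k := ⟨_, rfl⟩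
  have hpT : p * T = T := by
    have h1 : p * star c = star c := by
      have := congrArg star hcp
      rwa [star_mul, hp] at this
    rw [hT, ← mul_assoc, h1]
  have hTn : ‖T‖ ≤ 2 := by
    rw [hT]
    calc _ ≤ ‖star c‖ * ‖k‖ := norm_mul_le _ _
      _ ≤ 2 * 1 := by rw [norm_star]; gcongr
      _ = 2 := by norm_num
  obtain ⟨G, hG⟩ : ∃ G : D, G = T * star T := ⟨_, rfl⟩
  have hG0 : 0 ≤ G := by rw [hG]; exact mul_star_self_nonneg T
  have hGs : star G = G := by rw [hG, star_mul, star_star]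
  have hGn : ‖G‖ ≤ 4 := by
    rw [hG, CStarRing.norm_self_mul_star]
    nlinarith [norm_nonneg T]
  have hpG : p * G = G := by rw [hG, ← mul_assoc, hpT]
  obtain ⟨γ, hγs, hγG, hγn, hγP, hPG, hGP, hγP'⟩ := gg_facts he0 hG0
  obtain ⟨P, hP⟩ : ∃ P : D, P = ps e G := ⟨_, rfl⟩
  rw [← hP] at hγP hPG hGP hγP'
  have hPs : star P = P := by rw [hP]; exact ps_sa G
  have hPn : ‖P‖ ≤ 4 := by rw [hP]; exact (norm_ps_le he0.le hGs).trans hGn
  obtain ⟨H, hH⟩ : ∃ H : D, H = star (G * P) * (G * P) := ⟨_, rfl⟩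
  have hH0 : 0 ≤ H := by rw [hH]; exact star_mul_self_nonneg _
  have hGPn : ‖G * P‖ ≤ 16 := by
    calc _ ≤ ‖G‖ * ‖P‖ := norm_mul_le _ _
      _ ≤ 4 * 4 := by gcongr
      _ = 16 := by norm_num
  have hHn : ‖H‖ ≤ 256 := by
    rw [hH, CStarRing.norm_star_mul_self]
    nlinarith [norm_nonneg (G * P)]
  obtain ⟨r, s, hr, hs, hrs⟩ := copies2 hD hH0 ε' hε'0
  obtain ⟨R1, hR1⟩ : ∃ R1 : D, R1 = G * P * r := ⟨_, rfl⟩
  obtain ⟨R2, hR2⟩ : ∃ R2 : D, R2 = G * P * s := ⟨_, rfl⟩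
  have h11 : ‖star R1 * R1 - H‖ < ε' := by
    have : star R1 * R1 = star r * H * r := by
      rw [hR1, hH, star_mul]; simp only [mul_assoc]
    rwa [this]
  have h22 : ‖star R2 * R2 - H‖ < ε' := by
    have : star R2 * R2 = star s * H * s := by
      rw [hR2, hH, star_mul]; simp only [mul_assoc]
    rwa [this]
  have h12 : ‖star R1 * R2‖ < ε' := by
    have : star R1 * R2 = star r * H * s := by
      rw [hR1, hR2, hH, star_mul]; simp only [mul_assoc]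
    rwa [this]
  have hpR1 : p * R1 = R1 := by rw [hR1, ← mul_assoc, ← mul_assoc, hpG]
  have hpR2 : p * R2 = R2 := by rw [hR2, ← mul_assoc, ← mul_assoc, hpG]
  have hR1n2 : ‖R1‖ ^ 2 ≤ 257 := by
    have h1 : star R1 * R1 = H + (star R1 * R1 - H) := by abel
    rw [norm_sq_eq, h1]
    calc _ ≤ ‖H‖ + ‖star R1 * R1 - H‖ := norm_add_le _ _
      _ ≤ 256 + 1 := by linarith
      _ = 257 := by norm_num
  have hR1n : ‖R1‖ ≤ 17 := by nlinarith [norm_nonneg R1]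
  obtain ⟨w, hpw, hw, hRw⟩ := lemA_w hD hp hpp hpR1 hpR2 hη0 hη1 (lt_min hε one_pos) hε' hR1n
    h11 h22 h12
  have hwn : ‖w‖ ^ 2 ≤ 2 := by
    have h1 : star w * w = p + (star w * w - p) := by abel
    rw [norm_sq_eq, h1]
    calc _ ≤ ‖p‖ + ‖star w * w - p‖ := norm_add_le _ _
      _ ≤ 1 + 1 := by linarith [hw.trans_le (min_le_right ε 1)]
      _ = 2 := by norm_num
  refine ⟨w, hpw, hw.le.trans (min_le_left _ _), ?_⟩
  intro Q _ φ hφ
  -- the basic inequality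
  have hXs : star (XT k (star w * star c * k) M) = XT k (star w * star c * k) M := by
    unfold XT
    rw [star_sub, star_smul, star_mul, star_mul (star (star w * star c * k)), star_star, star_star,
      star_trivial M]
  have hXφ : φ (XT k (star w * star c * k) M) = XT (φ k) (star (φ w) * φ T) M := by
    unfold XT
    have hsmul : ∀ x : D, φ (M • x) = M • φ x := by
      intro x
      have h1 : M • x = (M : ℂ) • x := (Complex.coe_smul M x).symm
      have h2 : M • φ x = (M : ℂ) • φ x := (Complex.coe_smul M (φ x)).symm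
      rw [h1, h2, map_smul]
    rw [map_sub, hsmul, map_mul, map_star, map_mul, map_star, mul_assoc (star w), ← hT, map_mul,
      map_star]
  rw [map_ps φ hτ0.le hXs, hXφ] at hφ
  have key := fun x => ineq_of_ps hτ0.le hM0.le hφ x
  -- the vector `x1`
  obtain ⟨x1, hx1⟩ : ∃ x1 : D, x1 = star T * (P * r) := ⟨_, rfl⟩
  have hTx1 : T * x1 = R1 := by
    rw [hx1, ← mul_assoc, ← hG, hR1, mul_assoc]
  have hx1' : x1 = star T * (γ * R1) := by
    rw [hx1, hR1]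
    congr 1
    rw [← mul_assoc, ← mul_assoc, hγP]
  have hx1n : ‖x1‖ ^ 2 ≤ 1028 / e ^ 2 := by
    have h1 : ‖x1‖ ≤ 2 * (1 / e * ‖R1‖) := by
      rw [hx1']
      calc _ ≤ ‖star T‖ * ‖γ * R1‖ := norm_mul_le _ _
        _ ≤ 2 * (1 / e * ‖R1‖) := by
          rw [norm_star]
          gcongr
          exact (norm_mul_le _ _).trans (by gcongr)
    calc ‖x1‖ ^ 2 ≤ (2 * (1 / e * ‖R1‖)) ^ 2 := by gcongr
      _ = 4 / e ^ 2 * ‖R1‖ ^ 2 := by field_simp; ring
      _ ≤ 4 / e ^ 2 * 257 := by gcongr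
      _ = 1028 / e ^ 2 := by ring
  have hφx1 : ‖φ x1‖ ^ 2 ≤ 1028 / e ^ 2 := by
    refine le_trans ?_ hx1n
    gcongr
    exact norm_map_le φ x1
  have hWR : ‖star (φ w) * φ R1‖ ^ 2 ≤ 2 * η := by
    have h1 : ‖star (φ w) * φ R1‖ ≤ ‖star R1 * w‖ := by
      rw [← map_star, ← map_mul]
      refine (norm_map_le φ _).trans ?_
      rw [← norm_star (star w * R1), star_mul, star_star]
    calc _ ≤ ‖star R1 * w‖ ^ 2 := by gcongr
      _ ≤ η * ‖w‖ ^ 2 := hRw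
      _ ≤ η * 2 := by gcongr
      _ = 2 * η := by ring
  have hKx1 : ‖φ k * φ x1‖ ^ 2 ≤ τ * (1028 / e ^ 2) + M * (2 * η) := by
    refine (key (φ x1)).trans ?_
    have h1 : star (φ w) * φ T * φ x1 = star (φ w) * φ R1 := by
      rw [mul_assoc, ← map_mul, hTx1]
    rw [h1]
    gcongr
  have hφR1 : ‖φ R1‖ ^ 2 ≤ 4 * ‖φ k * φ x1‖ ^ 2 := by
    have h1 : φ R1 = φ (star c) * (φ k * φ x1) := by
      rw [← map_mul, ← map_mul, ← mul_assoc, ← hT, hTx1]
    have h2 : ‖φ R1‖ ≤ 2 * ‖φ k * φ x1‖ := by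
      rw [h1]
      refine (norm_mul_le _ _).trans ?_
      gcongr
      refine (norm_map_le φ _).trans ?_
      rw [norm_star]
      exact hc
    calc _ ≤ (2 * ‖φ k * φ x1‖) ^ 2 := by gcongr
      _ = _ := by ring
  have hφH : ‖φ H‖ ≤ e ^ 4 := by
    have h1 : φ H = star (φ R1) * φ R1 - φ (star R1 * R1 - H) := by
      rw [map_sub, map_mul, map_star]; abel
    have h2 : ‖φ H‖ ≤ ‖φ R1‖ ^ 2 + ε' := by
      rw [h1]
      refine (norm_sub_le _ _).trans ?_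
      rw [← norm_sq_eq]
      gcongr
      exact (norm_map_le φ _).trans h11.le
    have h3 : τ * (1028 / e ^ 2) = 1028 / 16000 * e ^ 4 := by
      rw [hτ]; field_simp
    have h4 : M * (2 * η) = 1 / 16 * e ^ 4 := by
      rw [hη]
      calc M * (2 * (e ^ 5 / 2)) = (M * e) * e ^ 4 := by ring
        _ = 1 / 16 * e ^ 4 := by rw [heM]
    rw [h3, h4] at hKx1
    have h5 : ε' ≤ 1 / 256 * e ^ 4 := by
      rw [hε', hη]
      have : (e ^ 5 / 2) ^ 2 / 64 = 1 / 256 * e ^ 4 * e ^ 6 := by ring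
      rw [this]
      exact mul_le_of_le_one_right (by positivity) he61
    have h6 : 0 < e ^ 4 := by positivity
    linarith
  have hφGP : ‖φ (G * P)‖ ≤ e ^ 2 := by
    have h1 : ‖φ (G * P)‖ ^ 2 ≤ (e ^ 2) ^ 2 := by
      rw [norm_sq_eq, ← map_star, ← map_mul, ← hH]
      calc _ ≤ e ^ 4 := hφH
        _ = (e ^ 2) ^ 2 := by ring
    exact (pow_le_pow_iff_left₀ (norm_nonneg _) (by positivity) two_ne_zero).mp h1
  have hφP : ‖φ P‖ ≤ e := by
    have h1 : φ P = φ γ * φ (G * P) := by rw [← map_mul, ← mul_assoc, hγP]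
    rw [h1]
    calc _ ≤ ‖φ γ‖ * ‖φ (G * P)‖ := norm_mul_le _ _
      _ ≤ 1 / e * e ^ 2 := by
        gcongr
        exact (norm_map_le φ _).trans hγn
      _ = e := by field_simp
  have hφG : ‖φ T‖ ^ 2 ≤ 2 * e := by
    have h1 : ‖φ T‖ ^ 2 = ‖φ (G - P) + φ P‖ := by
      rw [← map_add, sub_add_cancel, hG, map_mul, map_star, CStarRing.norm_self_mul_star]
      ring
    rw [h1]
    calc _ ≤ ‖φ (G - P)‖ + ‖φ P‖ := norm_add_le _ _
      _ ≤ e + e := by
        gcongr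
        exact (norm_map_le φ _).trans hGP
      _ = 2 * e := by ring
  -- conclusion
  have hfin : ∀ x : Q, ‖φ k * x‖ ^ 2 ≤ 1 / 2 * ‖x‖ ^ 2 := by
    intro x
    refine (key x).trans ?_
    have h1 : ‖star (φ w) * φ T * x‖ ^ 2 ≤ 4 * e * ‖x‖ ^ 2 := by
      have h2 : ‖star (φ w) * φ T * x‖ ≤ ‖w‖ * ‖φ T‖ * ‖x‖ := by
        refine (norm_mul_le _ _).trans ?_
        gcongr
        refine (norm_mul_le _ _).trans ?_
        rw [norm_star]
        gcongr
        exact norm_map_le φ w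
      calc _ ≤ (‖w‖ * ‖φ T‖ * ‖x‖) ^ 2 := by gcongr
        _ = ‖w‖ ^ 2 * ‖φ T‖ ^ 2 * ‖x‖ ^ 2 := by ring
        _ ≤ 2 * (2 * e) * ‖x‖ ^ 2 := by gcongr
        _ = 4 * e * ‖x‖ ^ 2 := by ring
    have h3 : M * (4 * e * ‖x‖ ^ 2) = 1 / 4 * ‖x‖ ^ 2 := by
      calc _ = 4 * (M * e) * ‖x‖ ^ 2 := by ring
        _ = 1 / 4 * ‖x‖ ^ 2 := by rw [heM]; ring
    calc _ ≤ 1 / 8 * ‖x‖ ^ 2 + M * (4 * e * ‖x‖ ^ 2) := by gcongr
      _ = 3 / 8 * ‖x‖ ^ 2 := by rw [h3]; ring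
      _ ≤ 1 / 2 * ‖x‖ ^ 2 := by
        have := sq_nonneg ‖x‖
        linarith
  have hks : star (φ k) = φ k := by rw [← map_star, hk]
  have h1 := hfin (φ k)
  have h2 : ‖φ k * φ k‖ = ‖φ k‖ ^ 2 := by
    rw [norm_sq_eq, hks]
  rw [h2] at h1
  by_cases h0 : ‖φ k‖ = 0
  · rw [h0]; norm_num
  · have h3 : 0 < ‖φ k‖ ^ 2 := by positivity
    have h4 : (‖φ k‖ ^ 2) ^ 2 = ‖φ k‖ ^ 2 * ‖φ k‖ ^ 2 := by ring
    rw [h4] at h1
    exact le_of_mul_le_mul_right h1 h3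

end Crest.Agent.R110
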