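import Crest.Agent.R110.Final

/-! assembly check of S0145 (the real file is `Crest/Agent/S0145.lean`) -/

set_option autoImplicit false

namespace Crest.Agent.R110

theorem main
    (C : Type*) [NonUnitalCStarAlgebra C]
    (hC : ∀ x : C, Crest.OpAlg.IsProperlyInfinite (star x * x))
    (a b c : C) (ha : ∃ x : C, a = star x * x) (hb : ∃ y : C, b = star y * y) (ε : ℝ) (hε : 0 < ε) :
    ∃ s t : C, ‖star s * a * s - a‖ < ε ∧ ‖star t * b * t - b‖ < ε ∧ ‖star s * c * t‖ < ε := by
  obtain ⟨x, rfl⟩ := ha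
  obtain ⟨y, rfl⟩ := hb
  exact final (show PI C from hC) (star_mul_self_nonneg x) (star_mul_self_nonneg y) ε hε

end Crest.Agent.R110
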