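import Crest.Agent.R110.KCmp

/-!
# R110 Theorem S' (comparable case)

`normW`: `W ≥ 0` with `Lev β`-type factors; `a := ct s (2s) β`, `Dom a (ps (1/8) W)`: `φ (ps (1/8) W) = 0 ⇒ φ (ps s β) = 0 ⇒ ‖φ β‖ ≤ s ⇒ φ a = 0`.
`compare_ps` (τ = 1/8): `w0`, `w0⋆w0 ≈_{ε'} a`, `w0 w0⋆ ≤ 16 W`; scale `w := (1+ε')^{-1/2} w0` so `‖w‖ ≤ 1`, `w w⋆ ≤ 16 W`.  `XT kH (w⋆z⋆kH) (M/16) ≥ kH² - M kH z W z⋆ kH`,
then `ps_eq_zero_of_le` in `Q`.  `Lev β w`: `cβ = β ⇒ cW = W ⇒ cw = w`.

`Sprime`: given `M`, take `τ0` of `lemA (16 M)`, `τ := τ0/2`, `η` with `16 M η² ≤ τ0/4`; `S1`; `π := exists_quot (ps (1/4) (yA yA⋆))`; in `D'`: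
`Dom (ps s πg) (ps (2s) πg)` by `S1` (`g = α+β`; `φ = ψ∘π` kills `ps (1/4) (yA yA⋆)` so `‖φ yA‖² ≤ 1/4`); `exists_proj`: `p`; `Dom p (π β)`;
`compare`: `‖r⋆ (πβ) r - p‖ ≤ 1/8`; `u := (πβ)^{1/2} r p`, `‖u⋆u - p‖ ≤ 1/8`, `u p = u`, `c := π z * u`, `‖c‖ ≤ 2`; `lemA (16M)` with `k = π kH`, `ε = 1/8`: `w_p`;
`w' := u w_p = (πβ)^{1/2} (r p w_p)`; lift `r p w_p` to `r'`, `w0 := β^{1/2} r'`.  `h1`: `‖w'⋆w' - p‖ ≤ 1/8·(9/8) + 1/8 ≤ 0.27`: `‖ψ w'‖² ≤ 1/2 ⇒ ‖ψ p‖ < 1 ⇒ ψ p = 0 ⇒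
ψ (ps s πg) = 0 ⇒ ‖ψ π β‖ ≤ ‖ψ π g‖ ≤ s ⇒ ψ π (ps s β) = 0`.  `h2` = `lemA`.  `glue` with `16 M`, then `normW`.
-/

set_option autoImplicit false

namespace Crest.Agent.R110

universe u

theorem normW {D : Type u} [NonUnitalCStarAlgebra D] (hD : PI D) {β k z W a0 : D} (hβ : 0 ≤ β) (hβn : ‖β‖ ≤ 1)
    (hk : star k = k) (hW : 0 ≤ W) (hWL : Lev β W) {s M τ : ℝ} (hs : 0 < s) (hM : 1 ≤ M) (hτ : 0 < τ)
    (hA : ∀ (Q : Type u) [NonUnitalCStarAlgebra Q] (φ : D →⋆ₙₐ[ℂ] Q), φ (ps (1 / 8) W) = 0 → φ (ps s β) = 0)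
    (hB : ∀ (Q : Type u) [NonUnitalCStarAlgebra Q] (φ : D →⋆ₙₐ[ℂ] Q),
      φ (ps τ (k * k - (16 * M) • (k * z * W * star z * k))) = 0 → φ a0 = 0) (ε : ℝ) (hε : 0 < ε) :
    ∃ w : D, ‖w‖ ≤ 1 ∧ Lev β w ∧ ‖star w * w - ct s (2 * s) β‖ ≤ ε ∧
      ∀ (Q : Type u) [NonUnitalCStarAlgebra Q] (φ : D →⋆ₙₐ[ℂ] Q),
        φ (ps τ (XT k (star w * star z * k) M)) = 0 → φ a0 = 0 := by
  have hβs : star β = β := (IsSelfAdjoint.of_nonneg hβ).star_eq
  have hWs : star W = W := (IsSelfAdjoint.of_nonneg hW).star_eq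
  have h2s : s < 2 * s := by linarith
  set a : D := ct s (2 * s) β with ha
  have ha0 : 0 ≤ a := ct_nonneg β
  have han : ‖a‖ ≤ 1 := norm_ct_le β
  have hdom : Dom a (ps (1 / 8) W) := by
    intro Q _ φ hφ
    have h1 := hA Q φ hφ
    have hφβ : 0 ≤ φ β := by
      have := OrderHomClass.mono φ hβ
      rwa [map_zero] at this
    rw [map_ps φ hs.le hβs] at h1
    rw [ps_eq_zero_iff hs.le hφβ] at h1
    rw [ha, map_ct φ hs.le h2s hβs]
    exact ct_eq_zero hs.le h2s hφβ h1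
  set δ : ℝ := min (ε / 2) 1 with hδ
  have hδ0 : 0 < δ := lt_min (by linarith) one_pos
  obtain ⟨w0, hw1, hw2, hw3⟩ := compare_ps hD ha0 hW (by norm_num : (0 : ℝ) < 1 / 8) hdom δ hδ0
    (min_le_right _ _)
  -- the bound on w0 w0⋆
  have hw4 : w0 * star w0 ≤ (16 : ℝ) • W := by
    refine hw3.trans ?_
    have h1 : (1 + ‖a‖) / (1 / 8) ≤ 16 := by
      rw [div_le_iff₀ (by norm_num)]; linarith
    exact smul_le_smul_of_nonneg_right h1 hW
  set c : ℝ := (1 + δ)⁻¹ with hc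
  have hc0 : 0 < c := by positivity
  have hc1 : c ≤ 1 := inv_le_one_of_one_le₀ (by linarith)
  set r : ℝ := Real.sqrt c with hr
  have hr0 : 0 ≤ r := Real.sqrt_nonneg _
  have hrr : r * r = c := Real.mul_self_sqrt hc0.le
  set w : D := r • w0 with hw
  have hstarw : star w = r • star w0 := by rw [hw, star_smul, star_trivial]
  have hww : star w * w = c • (star w0 * w0) := by
    rw [hstarw, hw, smul_mul_smul_comm, hrr]
  have hww' : w * star w = c • (w0 * star w0) := by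
    rw [hstarw, hw, smul_mul_smul_comm, hrr]
  have hw0n : ‖star w0 * w0‖ ≤ 1 + δ := by
    have h1 : star w0 * w0 = (star w0 * w0 - a) + a := by abel
    rw [h1]
    refine (norm_add_le _ _).trans ?_
    linarith
  refine ⟨w, ?_, ?_, ?_, ?_⟩
  · have h1 : ‖w‖ * ‖w‖ ≤ 1 := by
      rw [← CStarRing.norm_star_mul_self, hww, norm_smul, Real.norm_of_nonneg hc0.le, hc]
      rw [inv_mul_le_iff₀ (by positivity), mul_one]
      exact hw0n
    nlinarith [norm_nonneg w]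
  · intro d hd
    have h1 := hw2 d (hWL d hd)
    rw [hw, mul_smul_comm, h1]
  · rw [hww]
    have h1 : c • (star w0 * w0) - a = c • (star w0 * w0 - a) - (1 - c) • a := by
      rw [smul_sub, sub_smul, one_smul]; abel
    rw [h1]
    refine (norm_sub_le _ _).trans ?_
    rw [norm_smul, norm_smul, Real.norm_of_nonneg hc0.le, Real.norm_of_nonneg (by linarith)]
    have h2 : c * ‖star w0 * w0 - a‖ ≤ δ := by
      have := norm_nonneg (star w0 * w0 - a)
      nlinarith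
    have h3 : 1 - c ≤ δ := by
      rw [hc]
      have : 1 - (1 + δ)⁻¹ = δ * (1 + δ)⁻¹ := by field_simp; ring
      rw [this]
      calc δ * (1 + δ)⁻¹ ≤ δ * 1 := by
            apply mul_le_mul_of_nonneg_left _ hδ0.le
            exact hc1
        _ = δ := mul_one _
    have h4 : (1 - c) * ‖a‖ ≤ δ := by
      have := norm_nonneg a
      nlinarith
    have h5 : δ ≤ ε / 2 := min_le_left _ _
    linarith
  · intro Q _ φ hφ
    apply hB Q φ
    have hT : XT k (star w * star z * k) M =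
        k * k - M • (k * z * (w * star w) * star (k * z)) := by
      unfold XT
      simp only [star_mul, star_star, hk, mul_assoc]
    have hX : k * k - (16 * M) • (k * z * W * star z * k) =
        k * k - M • (k * z * ((16 : ℝ) • W) * star (k * z)) := by
      simp only [star_mul, hk, mul_assoc, smul_mul_assoc, mul_smul_comm, smul_smul]
      rw [mul_comm M 16]
    have hle : k * k - (16 * M) • (k * z * W * star z * k) ≤ XT k (star w * star z * k) M := by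
      rw [hT, hX]
      apply sub_le_sub_left
      apply smul_le_smul_of_nonneg_left _ (by linarith)
      apply star_right_conjugate_le_conjugate
      rw [hww']
      refine le_trans ?_ hw4
      calc c • (w0 * star w0) ≤ (1 : ℝ) • (w0 * star w0) :=
            smul_le_smul_of_nonneg_right hc1 (mul_star_self_nonneg w0)
        _ = w0 * star w0 := one_smul _ _
    have hTs : star (XT k (star w * star z * k) M) = XT k (star w * star z * k) M := by
      unfold XT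
      simp only [star_sub, star_mul, star_smul, star_trivial, star_star, mul_assoc]
    have hXs : star (k * k - (16 * M) • (k * z * W * star z * k)) =
        k * k - (16 * M) • (k * z * W * star z * k) := by
      simp only [star_sub, star_mul, star_smul, star_trivial, star_star, hk, hWs, mul_assoc]
    rw [map_ps φ hτ.le hTs] at hφ
    rw [map_ps φ hτ.le hXs]
    refine ps_eq_zero_of_le hτ.le ?_ ?_ (OrderHomClass.mono φ hle) hφ
    · rw [← map_star, hXs]
    · rw [← map_star, hTs]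

end Crest.Agent.R110
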