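import Crest.Agent.R110.GAux
import Crest.Agent.R110.GOmA

/-!
# R110 piece Proj: two equal level ideals are generated by a projection

Proof.  `k' := ct s t g` (so `k' = 1` on levels `≥ t`).  `Dom k' (ps t g)`: if `φ (ps t g) = 0` then `φ (ps s g) = 0`, `‖φ g‖ ≤ s`,
`φ k' = ct s t (φ g) = 0`.  `compare`: `‖r⋆ (ps t g) r - k'‖ < ε`; `copies2` for `ps t g`: `p_i⋆ (ps t g) p_j ≈ δ_ij (ps t g)` (choose after
`r`); `x_i := (ps t g)^{1/2} p_i r` : `x_i⋆ x_j ≈ δ_ij k'` (within `ε = 1/100`), and `k' x_i = x_i`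
(`ct_mul_ps`; `k' (ps t g)^{1/2} = (ps t g)^{1/2}`).
In the unitization `D⁺¹ = Unitization ℂ D` (a unital C⋆-algebra) let `h := (1 - k')^{1/2}`, `v := x_1 + h`.  `h x_1 = 0` (as `(1-k') x_1 = 0`), so
`v⋆v = x_1⋆x_1 + 1 - k'` is within `ε` of `1`, invertible.  `p := 1 - v (v⋆v)⁻¹ v⋆`: a projection; `v ≡ 1 mod D`, so `p ∈ D`.
* `Dom p g`: if `φ g = 0` then `φ k' = 0`, `φ x_1 = 0`, so (extend `φ` to the unitizations: `Unitization.map`/`starMap`) `v ↦ 1`, `p ↦ 0`.
* `Dom (ps s g) p`: `x_2⋆ v = x_2⋆ x_1 + x_2⋆ h = x_2⋆x_1` (`x_2⋆h = 0`), small, so `‖p x_2 - x_2‖ ≤ 2 ε`-ish.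
  If `φ p = 0` then `‖φ x_2‖` small, `‖φ k'‖ ≤ ‖φ x_2‖² + ε < 1`, `‖φ g‖ ≤ t` (`norm_le_of_norm_ct_lt_one`), `φ (ps t g) = 0`, so by `h` `φ (ps s g) = 0`.
-/

set_option autoImplicit false
set_option linter.unusedVariables false

namespace Crest.Agent.R110

universe u
variable {D : Type u} [NonUnitalCStarAlgebra D]

/-- an almost projection is close to a projection -/
theorem exists_proj_near {P : D} (hP : star P = P) {δ : ℝ} (hδ : δ ≤ 1 / 100) (h : ‖P * P - P‖ ≤ δ) :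
    star (ct (1 / 3) (2 / 3) P) = ct (1 / 3) (2 / 3) P ∧
    ct (1 / 3) (2 / 3) P * ct (1 / 3) (2 / 3) P = ct (1 / 3) (2 / 3) P ∧ ‖ct (1 / 3) (2 / 3) P - P‖ ≤ 1 / 20 := by
  have hsa : IsSelfAdjoint P := hP
  have hc : Continuous (cut (1 / 3) (2 / 3)) := continuous_cut _ _
  have h0 : cut (1 / 3) (2 / 3) 0 = 0 := cut_zero (by norm_num) (by norm_num)
  have key : ∀ u ∈ quasispectrum ℝ P, |u * u - u| ≤ δ := by
    intro u hu
    have h1 := norm_apply_le_norm_cfcₙ (fun x : ℝ => x * x - x) P hu (by fun_prop) (by simp) hsa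
    rw [cfcₙ_sub (fun x : ℝ => x * x) (fun x : ℝ => x) P (by fun_prop) (by simp) (by fun_prop) rfl,
      cfcₙ_mul (fun x : ℝ => x) (fun x : ℝ => x) P (by fun_prop) rfl (by fun_prop) rfl, cfcₙ_id' ℝ P hsa] at h1
    rw [Real.norm_eq_abs] at h1
    exact h1.trans h
  have key2 : ∀ u ∈ quasispectrum ℝ P, u ≤ 1 / 20 ∧ -(1 / 20) ≤ u ∨ 19 / 20 ≤ u ∧ u ≤ 21 / 20 := by
    intro u hu
    have h1 := abs_le.1 ((key u hu).trans hδ)
    obtain ⟨h1, h2⟩ := h1
    by_cases h3 : u ≤ 1 / 2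
    · left
      constructor <;> nlinarith
    · right
      push Not at h3
      constructor <;> nlinarith
  refine ⟨ct_sa _, ?_, ?_⟩
  · unfold ct
    rw [← cfcₙ_mul (cut (1 / 3) (2 / 3)) (cut (1 / 3) (2 / 3)) P hc.continuousOn h0 hc.continuousOn h0]
    apply cfcₙ_congr
    intro u hu
    rcases key2 u hu with ⟨h1, h2⟩ | ⟨h1, h2⟩
    · simp only [cut_of_le (show (1 / 3 : ℝ) < 2 / 3 by norm_num) (show u ≤ 1 / 3 by linarith), mul_zero]
    · simp only [cut_of_ge (show (1 / 3 : ℝ) < 2 / 3 by norm_num) (show 2 / 3 ≤ u by linarith), mul_one]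
  · have h1 : ct (1 / 3) (2 / 3) P - P = cfcₙ (fun u : ℝ => cut (1 / 3) (2 / 3) u - u) P := by
      rw [cfcₙ_sub (cut (1 / 3) (2 / 3)) (fun u : ℝ => u) P hc.continuousOn h0 (by fun_prop) rfl, cfcₙ_id' ℝ P hsa]
      rfl
    rw [h1]
    refine norm_cfcₙ_le fun u hu => ?_
    rw [Real.norm_eq_abs, abs_le]
    rcases key2 u hu with ⟨h1, h2⟩ | ⟨h1, h2⟩
    · simp only [cut_of_le (show (1 / 3 : ℝ) < 2 / 3 by norm_num) (show u ≤ 1 / 3 by linarith)]
      constructor <;> linarith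
    · simp only [cut_of_ge (show (1 / 3 : ℝ) < 2 / 3 by norm_num) (show 2 / 3 ≤ u by linarith)]
      constructor <;> linarith

/-- `m = 1 - sqrt(1 - k')` -/
theorem exists_m {g : D} (hg : 0 ≤ g) {s t : ℝ} (hs : 0 < s) (hst : s < t) :
    ∃ m : D, star m = m ∧ ‖m‖ ≤ 1 ∧ m + m - m * m = ct s t g ∧ m * ps t g = ps t g ∧ Dom m g := by
  set F : ℝ → ℝ := fun u => 1 - Real.sqrt (1 - cut s t u) with hF
  have hFc : Continuous F := by
    have := continuous_cut s t
    rw [hF]; fun_prop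
  have hF0 : F 0 = 0 := by
    rw [hF]; simp [cut_zero hs.le hst]
  have hgs : IsSelfAdjoint g := hg.isSelfAdjoint
  have hF01 : ∀ u, 0 ≤ F u ∧ F u ≤ 1 := by
    intro u
    have h1 := cut_nonneg s t u
    have h2 : Real.sqrt (1 - cut s t u) ≤ 1 := by
      rw [Real.sqrt_le_one]; linarith
    exact ⟨by rw [hF]; simp only; linarith, by rw [hF]; simp only; linarith [Real.sqrt_nonneg (1 - cut s t u)]⟩
  refine ⟨cfcₙ F g, ?_, ?_, ?_, ?_, ?_⟩
  · exact (cfcₙ_predicate (R := ℝ) F g).star_eq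
  · refine norm_cfcₙ_le fun u hu => ?_
    rw [Real.norm_of_nonneg (hF01 u).1]; exact (hF01 u).2
  · unfold ct
    have h1 : (cut s t) = fun u => (F u + F u) - F u * F u := by
      funext u
      have h2 : Real.sqrt (1 - cut s t u) * Real.sqrt (1 - cut s t u) = 1 - cut s t u :=
        Real.mul_self_sqrt (by linarith [cut_le_one s t u])
      rw [hF]; simp only; nlinarith
    rw [h1, cfcₙ_sub (fun u => F u + F u) (fun u => F u * F u) g (by fun_prop) (by simp [hF0]) (by fun_prop) (by simp [hF0]),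
      cfcₙ_add F F g (by fun_prop) hF0 (by fun_prop) hF0, cfcₙ_mul F F g (by fun_prop) hF0 (by fun_prop) hF0]
  · unfold ps
    rw [← cfcₙ_mul F (pp t) g (by fun_prop) hF0 (continuous_pp t).continuousOn (pp_zero (by linarith))]
    congr 1
    funext u
    rcases le_total u t with h1 | h1
    · rw [pp_of_le h1, mul_zero]
    · have : F u = 1 := by rw [hF]; simp only; rw [cut_of_ge hst h1]; simp
      rw [this, one_mul]
  · intro Q _ φ h
    have h2 : φ (cfcₙ F g) = cfcₙ F (φ g) :=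
      NonUnitalStarAlgHomClass.map_cfcₙ φ F g (by fun_prop) hF0 (by fun_prop) hgs (hgs.map φ)
    rw [h2, h]
    exact cfcₙ_apply_zero


theorem exists_xs (hD : PI D) {g k' : D} (hg : 0 ≤ g) (hk : 0 ≤ k') {t : ℝ} (hk' : Dom k' (ps t g)) {ε : ℝ} (hε : 0 < ε) :
    ∃ c1 c2 : D, ‖star (CFC.sqrt (ps t g) * c1) * (CFC.sqrt (ps t g) * c1) - k'‖ ≤ ε ∧
      ‖star (CFC.sqrt (ps t g) * c2) * (CFC.sqrt (ps t g) * c2) - k'‖ ≤ ε ∧
      ‖star (CFC.sqrt (ps t g) * c1) * (CFC.sqrt (ps t g) * c2)‖ ≤ ε := by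
  have hh : 0 ≤ ps t g := ps_nonneg g
  have hsq : CFC.sqrt (ps t g) * CFC.sqrt (ps t g) = ps t g := CFC.sqrt_mul_sqrt_self _ hh
  have key : ∀ a b : D, star (CFC.sqrt (ps t g) * a) * (CFC.sqrt (ps t g) * b) = star a * ps t g * b := by
    intro a b
    rw [star_mul, sqrt_sa]
    calc star a * CFC.sqrt (ps t g) * (CFC.sqrt (ps t g) * b) = star a * (CFC.sqrt (ps t g) * CFC.sqrt (ps t g)) * b := by
          noncomm_ring
      _ = _ := by rw [hsq]
  obtain ⟨r, hr⟩ := compare hD hk hh hk' (ε / 2) (by positivity)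
  set δ : ℝ := ε / 2 / (1 + ‖r‖ ^ 2) with hδ
  have hpos : 0 < 1 + ‖r‖ ^ 2 := by positivity
  have hδ0 : 0 < δ := by positivity
  have hδr : ‖r‖ * δ * ‖r‖ ≤ ε / 2 := by
    rw [hδ]
    have : ‖r‖ * (ε / 2 / (1 + ‖r‖ ^ 2)) * ‖r‖ = (ε / 2) * (‖r‖ ^ 2 / (1 + ‖r‖ ^ 2)) := by ring
    rw [this]
    have h1 : ‖r‖ ^ 2 / (1 + ‖r‖ ^ 2) ≤ 1 := by rw [div_le_one hpos]; linarith
    nlinarith
  obtain ⟨p, q, hp, hq, hpq⟩ := copies2 hD hh δ hδ0
  have bd : ∀ X : D, ‖X‖ ≤ δ → ‖star r * X * r‖ ≤ ε / 2 := by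
    intro X hX
    refine (norm_mul3_le _ _ _).trans ?_
    rw [norm_star]
    refine le_trans ?_ hδr
    exact mul_le_mul_of_nonneg_right (mul_le_mul_of_nonneg_left hX (norm_nonneg _)) (norm_nonneg _)
  refine ⟨p * r, q * r, ?_, ?_, ?_⟩
  · rw [key]
    have : star (p * r) * ps t g * (p * r) - k' = star r * (star p * ps t g * p - ps t g) * r + (star r * ps t g * r - k') := by
      rw [star_mul]; noncomm_ring
    rw [this]
    have := bd _ hp.le
    calc _ ≤ _ := norm_add_le _ _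
      _ ≤ ε / 2 + ε / 2 := add_le_add this hr.le
      _ = ε := by ring
  · rw [key]
    have : star (q * r) * ps t g * (q * r) - k' = star r * (star q * ps t g * q - ps t g) * r + (star r * ps t g * r - k') := by
      rw [star_mul]; noncomm_ring
    rw [this]
    have := bd _ hq.le
    calc _ ≤ _ := norm_add_le _ _
      _ ≤ ε / 2 + ε / 2 := add_le_add this hr.le
      _ = ε := by ring
  · rw [key]
    have : star (p * r) * ps t g * (q * r) = star r * (star p * ps t g * q) * r := by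
      rw [star_mul]; noncomm_ring
    rw [this]
    linarith [bd _ hpq.le]

theorem exists_proj (hD : PI D) {g : D} (hg : 0 ≤ g) {s t : ℝ} (hs : 0 < s) (hst : s < t)
    (h : Dom (ps s g) (ps t g)) :
    ∃ p : D, star p = p ∧ p * p = p ∧ Dom p g ∧ Dom (ps s g) p := by
  have hgs : star g = g := hg.isSelfAdjoint.star_eq
  set k' := ct s t g with hk'
  have hk0 : 0 ≤ k' := ct_nonneg _
  have hk1 : ‖k'‖ ≤ 1 := norm_ct_le _
  have hkd : Dom k' (ps t g) := by
    intro Q _ φ hφ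
    have h1 := h Q φ hφ
    rw [map_ps φ hs.le hgs, ps_eq_zero_iff hs.le (map_nonneg' φ hg)] at h1
    rw [hk', map_ct φ hs.le hst hgs]
    exact ct_eq_zero hs.le hst (map_nonneg' φ hg) h1
  obtain ⟨m, hms, hm1, hmm, hmp, hmg⟩ := exists_m hg hs hst
  obtain ⟨c1, c2, h11, h22, h12⟩ := exists_xs hD hg hk0 hkd (ε := 1 / 2000) (by norm_num)
  set x1 := CFC.sqrt (ps t g) * c1 with hx1
  set x2 := CFC.sqrt (ps t g) * c2 with hx2
  have hmsq : m * CFC.sqrt (ps t g) = CFC.sqrt (ps t g) := mul_sqrt_of_mul (ps_nonneg g) hmp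
  have hmx1 : m * x1 = x1 := by rw [hx1, ← mul_assoc, hmsq]
  have hmx2 : m * x2 = x2 := by rw [hx2, ← mul_assoc, hmsq]
  have hx1m : star x1 * m = star x1 := by
    have := congrArg star hmx1
    rwa [star_mul, hms] at this
  have nx : ∀ x : D, ‖star x * x - k'‖ ≤ 1 / 2000 → ‖x‖ ≤ 11 / 10 := by
    intro x hx
    have h1 : ‖star x * x‖ ≤ 1 / 2000 + 1 := by
      calc ‖star x * x‖ = ‖(star x * x - k') + k'‖ := by rw [sub_add_cancel]
        _ ≤ _ := (norm_add_le _ _).trans (add_le_add hx hk1)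
    rw [CStarRing.norm_star_mul_self] at h1
    nlinarith [norm_nonneg x]
  have nx1 := nx x1 h11
  have nx2 := nx x2 h22
  set y := m - x1 with hy
  have hys : star y = m - star x1 := by rw [hy, star_sub, hms]
  have ny : ‖y‖ ≤ 21 / 10 := by
    calc ‖y‖ ≤ ‖m‖ + ‖x1‖ := norm_sub_le _ _
      _ ≤ _ := by linarith
  have ny' : ‖star y‖ ≤ 21 / 10 := by rw [norm_star]; exact ny
  set n := y + star y - star y * y with hn
  have hn' : n = k' - star x1 * x1 := by
    have hmm' : m + m - m * m = k' := hmm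
    rw [hn, hys, hy, ← hmm']
    calc m - x1 + (m - star x1) - (m - star x1) * (m - x1)
        = m - x1 + (m - star x1) - (m * m - m * x1 - star x1 * m + star x1 * x1) := by noncomm_ring
      _ = _ := by rw [hmx1, hx1m]; noncomm_ring
  have nn : ‖n‖ ≤ 1 / 2000 := by rw [hn', norm_sub_rev]; exact h11
  set P := y + star y - y * star y with hP
  have hPs : star P = P := by
    rw [hP]; simp; abel
  have hPP : P * P - P = -(n - y * n - n * star y + y * n * star y) := by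
    rw [hP, hn]; noncomm_ring
  have nPP : ‖P * P - P‖ ≤ 1 / 100 := by
    rw [hPP, norm_neg]
    have e1 : ‖y * n‖ ≤ 21 / 10 * (1 / 2000) := (norm_mul_le _ _).trans (mul_le_mul ny nn (norm_nonneg _) (by norm_num))
    have e2 : ‖n * star y‖ ≤ (1 / 2000) * (21 / 10) := (norm_mul_le _ _).trans (mul_le_mul nn ny' (norm_nonneg _) (by norm_num))
    have e3 : ‖y * n * star y‖ ≤ 21 / 10 * (1 / 2000) * (21 / 10) :=
      (norm_mul_le _ _).trans (mul_le_mul e1 ny' (norm_nonneg _) (by norm_num))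
    calc ‖n - y * n - n * star y + y * n * star y‖ ≤ ‖n - y * n - n * star y‖ + ‖y * n * star y‖ := norm_add_le _ _
      _ ≤ (‖n - y * n‖ + ‖n * star y‖) + ‖y * n * star y‖ := by gcongr; exact norm_sub_le _ _
      _ ≤ ((‖n‖ + ‖y * n‖) + ‖n * star y‖) + ‖y * n * star y‖ := by gcongr; exact norm_sub_le _ _
      _ ≤ 1 / 100 := by linarith
  obtain ⟨p1, p2, p3⟩ := exists_proj_near hPs le_rfl nPP
  set p := ct (1 / 3) (2 / 3) P with hp
  clear_value p P n y x1 x2
  refine ⟨p, p1, p2, ?_, ?_⟩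
  · intro Q _ φ hφ
    have e1 : φ (ps t g) = 0 := by
      rw [map_ps φ (by linarith) hgs, hφ]
      exact (ps_eq_zero_iff (by linarith) le_rfl).2 (by rw [norm_zero]; linarith)
    have e2 : φ (CFC.sqrt (ps t g)) = 0 := by
      rw [map_sqrt' φ (ps_nonneg g), e1]; simp
    have e3 : φ m = 0 := hmg Q φ hφ
    have e4 : φ y = 0 := by rw [hy, map_sub, e3, hx1, map_mul, e2]; simp
    have e5 : φ P = 0 := by rw [hP]; simp [map_sub, map_add, map_mul, map_star, e4]
    rw [hp, map_ct φ (by norm_num) (by norm_num) hPs, e5]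
    exact ct_eq_zero (by norm_num) (by norm_num) le_rfl (by simp)
  · intro Q _ φ hφ
    have e1 : ‖φ P‖ ≤ 1 / 20 := by
      have : φ P = -φ (p - P) := by rw [map_sub, hφ]; simp
      rw [this, norm_neg]
      exact (norm_map_le φ _).trans p3
    -- P x2 ≈ x2
    have e2 : P * x2 - x2 = -(star x1 * x2 - y * (star x1 * x2)) := by
      have f1 : star y * x2 = x2 - star x1 * x2 := by rw [hys, sub_mul, hmx2]
      calc P * x2 - x2 = y * x2 + star y * x2 - y * (star y * x2) - x2 := by rw [hP]; noncomm_ring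
        _ = y * x2 + (x2 - star x1 * x2) - y * (x2 - star x1 * x2) - x2 := by rw [f1]
        _ = _ := by noncomm_ring
    have e3 : ‖P * x2 - x2‖ ≤ 31 / 10 * (1 / 2000) := by
      rw [e2, norm_neg]
      have f1 : ‖y * (star x1 * x2)‖ ≤ 21 / 10 * (1 / 2000) := (norm_mul_le _ _).trans (mul_le_mul ny h12 (norm_nonneg _) (by norm_num))
      calc _ ≤ ‖star x1 * x2‖ + ‖y * (star x1 * x2)‖ := norm_sub_le _ _
        _ ≤ _ := by linarith
    have e4 : ‖φ x2‖ ≤ 1 / 10 := by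
      have f1 : φ x2 = φ P * φ x2 - φ (P * x2 - x2) := by rw [map_sub, map_mul]; abel
      have f2 : ‖φ P * φ x2‖ ≤ 1 / 20 * (11 / 10) :=
        (norm_mul_le _ _).trans (mul_le_mul e1 ((norm_map_le φ _).trans nx2) (norm_nonneg _) (by norm_num))
      have f3 : ‖φ (P * x2 - x2)‖ ≤ 31 / 10 * (1 / 2000) := (norm_map_le φ _).trans e3
      rw [f1]
      calc _ ≤ ‖φ P * φ x2‖ + ‖φ (P * x2 - x2)‖ := norm_sub_le _ _
        _ ≤ _ := by linarith
    have e5 : ‖φ k'‖ < 1 := by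
      have f1 : φ k' = star (φ x2) * φ x2 - φ (star x2 * x2 - k') := by
        rw [map_sub, map_mul, map_star]; abel
      rw [f1]
      have f2 : ‖star (φ x2) * φ x2‖ ≤ 1 / 10 * (1 / 10) := by
        rw [CStarRing.norm_star_mul_self]
        exact mul_le_mul e4 e4 (norm_nonneg _) (by norm_num)
      have f3 : ‖φ (star x2 * x2 - k')‖ ≤ 1 / 2000 := (norm_map_le φ _).trans h22
      calc _ ≤ ‖star (φ x2) * φ x2‖ + ‖φ (star x2 * x2 - k')‖ := norm_sub_le _ _
        _ < 1 := by linarith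
    rw [hk', map_ct φ hs.le hst hgs] at e5
    have e6 := norm_le_of_norm_ct_lt_one hs.le hst (map_nonneg' φ hg) e5
    apply h Q φ
    rw [map_ps φ (by linarith) hgs, ps_eq_zero_iff (by linarith) (map_nonneg' φ hg)]
    exact e6

end Crest.Agent.R110
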