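import Crest.Agent.R110.KCmp

/-!
# R110 piece S1 (Theorem S', first scheme)

Proof.  `g := α + β`, `l := ct (s/2) s g`.  `Dom l β`: if `φ β = 0` then `φ α = 0`, `φ g = 0`, `φ l = 0`.  `compare`: `r` with
`‖r⋆βr - l‖ < 1/4`; `y1 := CFC.sqrt β * r` (so `star y1 * y1 = r⋆βr`; `Lev β y1`: `c β = β ⇒ c β^{1/2} = β^{1/2}`, as
`‖(cβ^{1/2} - β^{1/2})‖² = ‖(c-1)β(c-1)⋆‖ = 0`).
`x3 := ct (2s) (3s) α`;  `e` := `exists_unit (x3 * z * y1) η` : `‖x3 z y1 - x3 z y1 e‖ ≤ η`, `Dom e (x3 * z * y1)`.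
`yA := y1 - y1 * e`.
If `‖φ yA‖² ≤ 1/4` and `φ (ps (2s) g) = 0`: `‖φ g‖ ≤ 2s` (`ps_eq_zero_iff`), `0 ≤ φ α ≤ φ g` so `‖φ α‖ ≤ 2s`
(`CStarAlgebra.norm_le_norm_of_nonneg_of_le`), `φ x3 = 0` (`ct_eq_zero`), so `φ (x3 z y1) = 0`, `φ e = 0`, `φ yA = φ y1`,
`‖φ (r⋆βr)‖ = ‖φ y1‖² ≤ 1/4`, `‖φ l‖ ≤ 1/2 < 1`, so `‖φ g‖ ≤ s` (`norm_le_of_norm_ct_lt_one`), `φ (ps s g) = 0`.
-/

set_option autoImplicit false

namespace Crest.Agent.R110

universe u
variable {D : Type u} [NonUnitalCStarAlgebra D]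

private theorem S1_unit_sqrt {b c : D} (hb : 0 ≤ b) (h : c * b = b) : c * CFC.sqrt b = CFC.sqrt b := by
  have hs : star (CFC.sqrt b) = CFC.sqrt b := (IsSelfAdjoint.of_nonneg (CFC.sqrt_nonneg b)).star_eq
  have hbs : star b = b := (IsSelfAdjoint.of_nonneg hb).star_eq
  have hq : CFC.sqrt b * CFC.sqrt b = b := CFC.sqrt_mul_sqrt_self b hb
  have h1 : b * star c = b := by
    have := congrArg star h
    rwa [star_mul, hbs] at this
  have h2 : (c * CFC.sqrt b - CFC.sqrt b) * star (c * CFC.sqrt b - CFC.sqrt b) = 0 := by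
    rw [star_sub, star_mul, hs]
    calc (c * CFC.sqrt b - CFC.sqrt b) * (CFC.sqrt b * star c - CFC.sqrt b)
        = c * (CFC.sqrt b * CFC.sqrt b) * star c - c * (CFC.sqrt b * CFC.sqrt b)
          - (CFC.sqrt b * CFC.sqrt b) * star c + CFC.sqrt b * CFC.sqrt b := by
          simp only [sub_mul, mul_sub, mul_assoc]; abel
      _ = 0 := by rw [hq, h, h1]; abel
  have h3 := (CStarRing.mul_star_self_eq_zero_iff _).1 h2
  exact sub_eq_zero.1 h3

private theorem S1_map_nonneg {Q : Type u} [NonUnitalCStarAlgebra Q] (φ : D →⋆ₙₐ[ℂ] Q) {a : D}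
    (ha : 0 ≤ a) : 0 ≤ φ a := by
  have := map_mono φ ha
  rwa [map_zero] at this

theorem S1 (hD : PI D) {α β z : D} (hα : 0 ≤ α) (hβ : 0 ≤ β) (hdom : Dom α β) {s : ℝ} (hs : 0 < s)
    {η : ℝ} (hη : 0 < η) :
    ∃ yA : D, Lev β yA ∧ ‖ct (2 * s) (3 * s) α * z * yA‖ ≤ η ∧
      ∀ (Q : Type u) [NonUnitalCStarAlgebra Q] (φ : D →⋆ₙₐ[ℂ] Q),
        ‖φ yA‖ ^ 2 ≤ 1 / 4 → φ (ps (2 * s) (α + β)) = 0 → φ (ps s (α + β)) = 0 := by
  have hg : 0 ≤ α + β := add_nonneg hα hβ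
  have hgs : star (α + β) = α + β := (IsSelfAdjoint.of_nonneg hg).star_eq
  have hαs : star α = α := (IsSelfAdjoint.of_nonneg hα).star_eq
  have hdl : Dom (ct (s / 2) s (α + β)) β := by
    intro Q _ φ hφ
    rw [map_ct φ (by linarith) (by linarith) hgs, map_add, hdom Q φ hφ, hφ, add_zero]
    exact ct_eq_zero (by linarith) (by linarith) le_rfl (by rw [norm_zero]; linarith)
  obtain ⟨r, hr⟩ := compare hD (ct_nonneg (x := s / 2) (y := s) (α + β)) hβ hdl (1 / 4) (by norm_num)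
  obtain ⟨e, he0, he1, he2, hed⟩ := exists_unit (ct (2 * s) (3 * s) α * z * (CFC.sqrt β * r)) η hη
  refine ⟨CFC.sqrt β * r - CFC.sqrt β * r * e, ?_, ?_, ?_⟩
  · intro c hc
    have := S1_unit_sqrt hβ hc
    rw [mul_sub, ← mul_assoc, ← mul_assoc, ← mul_assoc, this]
  · rw [mul_sub, ← mul_assoc _ (CFC.sqrt β * r) e]
    exact he2
  · intro Q _ φ h1 h2
    have hφg : 0 ≤ φ (α + β) := S1_map_nonneg φ hg
    have hφα : 0 ≤ φ α := S1_map_nonneg φ hα
    rw [map_ps φ (by linarith) hgs] at h2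
    have h3 : ‖φ (α + β)‖ ≤ 2 * s := (ps_eq_zero_iff (by linarith) hφg).1 h2
    have h4 : ‖φ α‖ ≤ 2 * s := by
      refine le_trans (CStarAlgebra.norm_le_norm_of_nonneg_of_le hφα ?_) h3
      exact map_mono φ (le_add_of_nonneg_right hβ)
    have h5 : φ (ct (2 * s) (3 * s) α) = 0 := by
      rw [map_ct φ (by linarith) (by linarith) hαs]
      exact ct_eq_zero (by linarith) (by linarith) hφα h4
    have h6 : φ e = 0 := by
      apply hed Q φ
      rw [map_mul, map_mul, h5, zero_mul, zero_mul]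
    have h7 : φ (CFC.sqrt β * r - CFC.sqrt β * r * e) = φ (CFC.sqrt β * r) := by
      rw [map_sub, map_mul φ _ e, h6, mul_zero, sub_zero]
    rw [h7] at h1
    have hsq : star (CFC.sqrt β * r) * (CFC.sqrt β * r) = star r * β * r := by
      rw [star_mul, (IsSelfAdjoint.of_nonneg (CFC.sqrt_nonneg β)).star_eq]
      calc star r * CFC.sqrt β * (CFC.sqrt β * r) = star r * (CFC.sqrt β * CFC.sqrt β) * r := by
            simp only [mul_assoc]
        _ = _ := by rw [CFC.sqrt_mul_sqrt_self β hβ]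
    have h8 : ‖φ (star r * β * r)‖ ≤ 1 / 4 := by
      rw [← hsq, map_mul, map_star, CStarRing.norm_star_mul_self, ← sq]
      exact h1
    have h9 : ‖φ (ct (s / 2) s (α + β))‖ < 1 := by
      have e1 : φ (ct (s / 2) s (α + β)) =
          φ (star r * β * r) - φ (star r * β * r - ct (s / 2) s (α + β)) := by
        rw [← map_sub]; congr 1; abel
      rw [e1]
      have e2 := norm_map_le φ (star r * β * r - ct (s / 2) s (α + β))
      have e3 := norm_sub_le (φ (star r * β * r)) (φ (star r * β * r - ct (s / 2) s (α + β)))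
      linarith
    rw [map_ct φ (by linarith) (by linarith) hgs] at h9
    have h10 := norm_le_of_norm_ct_lt_one (by linarith) (by linarith) hφg h9
    rw [map_ps φ hs.le hgs]
    exact (ps_eq_zero_iff hs.le hφg).2 h10

end Crest.Agent.R110
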