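import Crest.Agent.R110.S1
import Crest.Agent.R110.Proj
import Crest.Agent.R110.LemA
import Crest.Agent.R110.Glue
import Crest.Agent.R110.NormW

/-!
# R110 Theorem S' (comparable case)

`normW`: `W ≥ 0` with `Lev β`-type factors; `a := ct s (2s) β`, `Dom a (ps (1/8) W)`: `φ (ps (1/8) W) = 0 ⇒ φ (ps s β) = 0 ⇒ ‖φ β‖ ≤ s ⇒ φ a = 0`.
`compare_ps` (τ = 1/8): `w0`, `w0⋆w0 ≈_{ε'} a`, `w0 w0⋆ ≤ 16 W`; scale `w := (1+ε')^{-1/2} w0` so `‖w‖ ≤ 1`, `w w⋆ ≤ 16 W`.  `XT kH (w⋆z⋆kH) (M/16) ≥ kH² - M kH z W z⋆ kH`,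
then `ps_eq_zero_of_le` in `Q`.  `Lev β w`: `cβ = β ⇒ cW = W ⇒ cw = w`.

`Sprime`: given `M`, take `τ0` of `lemA (16 M)`, `τ := τ0/2`, `η` with `16 M η² ≤ τ0/4`; `S1`; `π := exists_quot (ps (1/4) (yA yA⋆))`; in `D'`:
`Dom (ps s πg) (ps (2s) πg)` by `S1` (`g = α+β`; `φ = ψ∘π` kills `ps (1/4) (yA yA⋆)` so `‖φ yA‖² ≤ 1/4`); `exists_proj`: `p`; `Dom p (π β)`;
`compare`: `‖r⋆ (πβ) r - p‖ ≤ 1/8`; `u := (πβ)^{1/2} r p`, `‖u⋆u - p‖ ≤ 1/8`, `u p = u`, `c := π z * u`, `‖c‖ ≤ 2`; `lemA (16M)` with `k = π kH`, `ε = 1/8`: `w_p`;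
`w' := u w_p = (πβ)^{1/2} (r p w_p)`; lift `r p w_p` to `r'`, `w0 := β^{1/2} r'`.  `h1`: `‖w'⋆w' - p‖ ≤ 1/8·(9/8) + 1/8 ≤ 0.27`: `‖ψ w'‖² ≤ 1/2 ⇒ ‖ψ p‖ < 1 ⇒ ψ p = 0 ⇒
ψ (ps s πg) = 0 ⇒ ‖ψ π β‖ ≤ ‖ψ π g‖ ≤ s ⇒ ψ π (ps s β) = 0`.  `h2` = `lemA`.  `glue` with `16 M`, then `normW`.
-/

set_option autoImplicit false

namespace Crest.Agent.R110

universe u

/-- a projection of norm `< 1` is zero -/
private theorem sp_proj_zero {Q : Type u} [NonUnitalCStarAlgebra Q] {q : Q} (h1 : star q = q) (h2 : q * q = q)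
    (h3 : ‖q‖ < 1) : q = 0 := by
  by_contra hne
  have h4 : ‖q‖ = ‖q‖ * ‖q‖ := by
    conv_lhs => rw [← h2]
    conv_lhs => enter [1, 1]; rw [← h1]
    exact CStarRing.norm_star_mul_self
  have h5 : 0 < ‖q‖ := norm_pos_iff.mpr hne
  nlinarith

private theorem sp_sqrt_mul {D : Type u} [NonUnitalCStarAlgebra D] {β c : D} (hβ : 0 ≤ β) (hc : c * β = β) :
    c * CFC.sqrt β = CFC.sqrt β := by
  have hr : CFC.sqrt β * CFC.sqrt β = β := CFC.sqrt_mul_sqrt_self β hβ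
  have hsa : star (CFC.sqrt β) = CFC.sqrt β := (IsSelfAdjoint.of_nonneg (CFC.sqrt_nonneg β)).star_eq
  have hβs : star β = β := (IsSelfAdjoint.of_nonneg hβ).star_eq
  have hc' : β * star c = β := by
    have h1 : star (c * β) = star β := by rw [hc]
    rwa [star_mul, hβs] at h1
  rw [← sub_eq_zero, ← norm_eq_zero, ← mul_self_eq_zero, ← CStarRing.norm_self_mul_star, norm_eq_zero,
    star_sub, star_mul, hsa, sub_mul, mul_sub, mul_sub]
  have e1 : c * CFC.sqrt β * (CFC.sqrt β * star c) = β := by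
    calc c * CFC.sqrt β * (CFC.sqrt β * star c) = c * (CFC.sqrt β * CFC.sqrt β) * star c := by
          simp only [mul_assoc]
      _ = β := by rw [hr, hc, hc']
  have e2 : c * CFC.sqrt β * CFC.sqrt β = β := by rw [mul_assoc, hr, hc]
  have e3 : CFC.sqrt β * (CFC.sqrt β * star c) = β := by rw [← mul_assoc, hr, hc']
  rw [e1, e2, e3, hr, sub_self]

theorem Sprime (M : ℝ) (hM : 1 ≤ M) :
    ∃ τ : ℝ, 0 < τ ∧ ∀ (D : Type u) [NonUnitalCStarAlgebra D], PI D → ∀ (α β z : D),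
      0 ≤ α → ‖α‖ ≤ 1 → 0 ≤ β → ‖β‖ ≤ 1 → ‖z‖ ≤ 1 → Dom α β → ∀ s : ℝ, 0 < s → ∀ ε : ℝ, 0 < ε →
      ∃ w : D, ‖w‖ ≤ 1 ∧ Lev β w ∧ ‖star w * w - ct s (2 * s) β‖ ≤ ε ∧
        ∀ (Q : Type u) [NonUnitalCStarAlgebra Q] (φ : D →⋆ₙₐ[ℂ] Q),
          φ (ps τ (XT (ct (3 * s) (4 * s) α) (star w * star z * ct (3 * s) (4 * s) α) M)) = 0 →
            φ (ps (5 * s) α) = 0 := by
  have hM' : (1 : ℝ) ≤ 16 * M := by linarith
  obtain ⟨τ0, hτ0, hτ8, hlemA⟩ := lemA.{u} (16 * M) hM'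
  refine ⟨τ0 / 2, by positivity, ?_⟩
  intro D _ hD α β z hα hαn hβ hβn hz hdom s hs ε hε
  -- the error `η`
  obtain ⟨η, hη, hMη⟩ : ∃ η : ℝ, 0 < η ∧ 16 * M * η ^ 2 ≤ τ0 / 4 := by
    refine ⟨τ0 / (16 * M), by positivity, ?_⟩
    have h1 : 16 * M * (τ0 / (16 * M)) ^ 2 = τ0 * (τ0 / (16 * M)) := by
      field_simp
    rw [h1]
    have h2 : τ0 / (16 * M) ≤ 1 / 4 := by
      rw [div_le_iff₀ (by positivity)]
      nlinarith
    nlinarith
  obtain ⟨yA, hyAL, hyAη, hyAS⟩ := S1 hD (z := z) hα hβ hdom hs hη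
  obtain ⟨D', _, π, hπ, hπb, huniv⟩ := exists_quot (ps (1 / 4) (yA * star yA))
  have hD' : PI D' := PI.of_surj hD π hπ
  set g : D := α + β with hg
  have hg0 : 0 ≤ g := add_nonneg hα hβ
  have hgs : star g = g := (IsSelfAdjoint.of_nonneg hg0).star_eq
  have hαs : star α = α := (IsSelfAdjoint.of_nonneg hα).star_eq
  have hβs : star β = β := (IsSelfAdjoint.of_nonneg hβ).star_eq
  have mapnn : ∀ {E F : Type u} [NonUnitalCStarAlgebra E] [NonUnitalCStarAlgebra F] (φ : E →⋆ₙₐ[ℂ] F) {a : E},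
      0 ≤ a → 0 ≤ φ a := by
    intro E F _ _ φ a ha
    have := map_mono φ ha
    rwa [map_zero] at this
  have hπg0 : 0 ≤ π g := mapnn π hg0
  have hπβ0 : 0 ≤ π β := mapnn π hβ
  -- the two level ideals of `π g` agree
  have hlev : Dom (ps s (π g)) (ps (2 * s) (π g)) := by
    intro Q _ ψ hψ
    have hπgs : star (π g) = π g := by rw [← map_star, hgs]
    have h1 : (ψ.comp π) (ps (2 * s) g) = 0 := by
      rw [map_ps (ψ.comp π) (by positivity) hgs, NonUnitalStarAlgHom.comp_apply, ← map_ps ψ (by positivity) hπgs]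
      exact hψ
    have h2 : ‖(ψ.comp π) yA‖ ^ 2 ≤ 1 / 4 := by
      have h3 : (ψ.comp π) (ps (1 / 4) (yA * star yA)) = 0 := by
        rw [NonUnitalStarAlgHom.comp_apply, hπb, map_zero]
      rw [map_ps (ψ.comp π) (by norm_num) (by rw [star_mul, star_star]),
        ps_eq_zero_iff (by norm_num) (mapnn (ψ.comp π) (mul_star_self_nonneg yA)), map_mul, map_star,
        CStarRing.norm_self_mul_star] at h3
      rw [sq]; exact h3
    have h4 := hyAS Q (ψ.comp π) h2 h1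
    rw [map_ps (ψ.comp π) hs.le hgs, NonUnitalStarAlgHom.comp_apply, ← map_ps ψ hs.le hπgs] at h4
    exact h4
  obtain ⟨p, hps, hpp, hpg, hgp⟩ := exists_proj hD' hπg0 hs (by linarith : s < 2 * s) hlev
  have hp0 : 0 ≤ p := by
    have h1 := star_mul_self_nonneg p
    rwa [hps, hpp] at h1
  have hpn : ‖p‖ ≤ 1 := by
    by_contra hcon
    push Not at hcon
    have h4 : ‖p‖ = ‖p‖ * ‖p‖ := by
      conv_lhs => rw [← hpp]
      conv_lhs => enter [1, 1]; rw [← hps]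
      exact CStarRing.norm_star_mul_self
    nlinarith
  have hpβ : Dom p (π β) := by
    intro Q _ ψ hψ
    refine hpg Q ψ ?_
    have h1 : (ψ.comp π) β = 0 := by rw [NonUnitalStarAlgHom.comp_apply]; exact hψ
    have h2 : (ψ.comp π) α = 0 := hdom Q (ψ.comp π) h1
    have h3 : ψ (π g) = (ψ.comp π) α + (ψ.comp π) β := by
      rw [NonUnitalStarAlgHom.comp_apply, NonUnitalStarAlgHom.comp_apply, hg, map_add, map_add]
    rw [h3, h1, h2, add_zero]
  obtain ⟨r, hr⟩ := compare hD' hp0 hπβ0 hpβ (1 / 16) (by norm_num)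
  have hsq : CFC.sqrt β * CFC.sqrt β = β := CFC.sqrt_mul_sqrt_self β hβ
  have hsqs : star (CFC.sqrt β) = CFC.sqrt β := (IsSelfAdjoint.of_nonneg (CFC.sqrt_nonneg β)).star_eq
  set b : D' := π (CFC.sqrt β) with hb
  have hbb : star b * b = π β := by
    rw [hb, ← map_star, ← map_mul, hsqs, hsq]
  obtain ⟨u', hu'⟩ : ∃ u' : D', u' = b * r * p := ⟨_, rfl⟩
  have huu : star u' * u' - p = star p * (star r * π β * r - p) * p := by
    rw [hu', star_mul, star_mul, mul_sub, sub_mul, ← hbb, hps, hpp, hpp]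
    simp only [mul_assoc]
  have huun : ‖star u' * u' - p‖ ≤ 1 / 16 := by
    rw [huu]
    calc ‖star p * (star r * π β * r - p) * p‖ ≤ ‖star p * (star r * π β * r - p)‖ * ‖p‖ := norm_mul_le _ _
      _ ≤ (‖star p‖ * ‖star r * π β * r - p‖) * ‖p‖ := by gcongr; exact norm_mul_le _ _
      _ ≤ (1 * (1 / 16)) * 1 := by
          have := hr.le
          have h1 : ‖star p‖ ≤ 1 := by rw [norm_star]; exact hpn
          gcongr
      _ = 1 / 16 := by norm_num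
  have hup : u' * p = u' := by rw [hu', mul_assoc, hpp]
  have hun : ‖u'‖ ≤ 2 := by
    have h1 : ‖u'‖ * ‖u'‖ ≤ 17 / 16 := by
      rw [← CStarRing.norm_star_mul_self]
      calc ‖star u' * u'‖ = ‖(star u' * u' - p) + p‖ := by rw [sub_add_cancel]
        _ ≤ ‖star u' * u' - p‖ + ‖p‖ := norm_add_le _ _
        _ ≤ 17 / 16 := by linarith
    nlinarith [norm_nonneg u']
  obtain ⟨c, hc⟩ : ∃ c : D', c = π z * u' := ⟨_, rfl⟩
  have hcp : c * p = c := by rw [hc, mul_assoc, hup]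
  have hcn : ‖c‖ ≤ 2 := by
    calc ‖c‖ = ‖π z * u'‖ := by rw [hc]
      _ ≤ ‖π z‖ * ‖u'‖ := norm_mul_le _ _
      _ ≤ 1 * 2 := by
          have h1 : ‖π z‖ ≤ 1 := (norm_map_le π z).trans hz
          gcongr
      _ = 2 := by norm_num
  set kH : D := ct (3 * s) (4 * s) α with hkH
  have hkHs : star kH = kH := ct_sa α
  have hkHn : ‖kH‖ ≤ 1 := norm_ct_le α
  obtain ⟨wp, hwp, hwpn, hwpL⟩ := hlemA D' hD' p c (π kH) hps hpp hcp hcn
    (by rw [← map_star, hkHs]) ((norm_map_le π kH).trans hkHn) (1 / 8) (by norm_num)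
  obtain ⟨r', hr'⟩ := hπ (r * p * wp)
  obtain ⟨w0, hw0⟩ : ∃ w0 : D, w0 = CFC.sqrt β * r' := ⟨_, rfl⟩
  have hπw0 : π w0 = u' * wp := by
    rw [hw0, map_mul, hr', ← hb, hu']
    simp only [mul_assoc]
  have hwpsq : ‖wp‖ ^ 2 ≤ 9 / 8 := by
    rw [sq, ← CStarRing.norm_star_mul_self]
    calc ‖star wp * wp‖ = ‖(star wp * wp - p) + p‖ := by rw [sub_add_cancel]
      _ ≤ ‖star wp * wp - p‖ + ‖p‖ := norm_add_le _ _
      _ ≤ 9 / 8 := by linarith
  have hw'w' : ‖star (π w0) * π w0 - p‖ ≤ 1 / 2 - 1 / 8 := by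
    have e1 : star (π w0) * π w0 - p = star wp * (star u' * u' - p) * wp + (star wp * wp - p) := by
      rw [hπw0, star_mul, mul_sub, sub_mul]
      have e2 : star wp * p * wp = star wp * wp := by rw [mul_assoc, hwp]
      rw [e2]
      simp only [mul_assoc]
      abel
    rw [e1]
    calc ‖star wp * (star u' * u' - p) * wp + (star wp * wp - p)‖
        ≤ ‖star wp * (star u' * u' - p) * wp‖ + ‖star wp * wp - p‖ := norm_add_le _ _
      _ ≤ ‖wp‖ * (1 / 16) * ‖wp‖ + 1 / 8 := by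
          gcongr
          calc ‖star wp * (star u' * u' - p) * wp‖ ≤ ‖star wp * (star u' * u' - p)‖ * ‖wp‖ := norm_mul_le _ _
            _ ≤ (‖star wp‖ * ‖star u' * u' - p‖) * ‖wp‖ := by gcongr; exact norm_mul_le _ _
            _ ≤ ‖wp‖ * (1 / 16) * ‖wp‖ := by rw [norm_star]; gcongr
      _ = (1 / 16) * ‖wp‖ ^ 2 + 1 / 8 := by ring
      _ ≤ 1 / 2 - 1 / 8 := by nlinarith
  -- h1
  have h1 : ∀ (Q : Type u) [NonUnitalCStarAlgebra Q] (ψ : D' →⋆ₙₐ[ℂ] Q), ‖ψ (π w0)‖ ^ 2 ≤ 1 / 2 →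
      ψ (π (ps s β)) = 0 := by
    intro Q _ ψ hψ
    have e1 : ψ p = 0 := by
      refine sp_proj_zero (by rw [← map_star, hps]) (by rw [← map_mul, hpp]) ?_
      have e2 : ψ p = star (ψ (π w0)) * ψ (π w0) - ψ (star (π w0) * π w0 - p) := by
        rw [map_sub, map_mul, map_star]; abel
      rw [e2]
      calc ‖star (ψ (π w0)) * ψ (π w0) - ψ (star (π w0) * π w0 - p)‖
          ≤ ‖star (ψ (π w0)) * ψ (π w0)‖ + ‖ψ (star (π w0) * π w0 - p)‖ := norm_sub_le _ _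
        _ ≤ 1 / 2 + (1 / 2 - 1 / 8) := by
            gcongr
            · rw [CStarRing.norm_star_mul_self, ← sq]; exact hψ
            · exact (norm_map_le ψ _).trans hw'w'
        _ < 1 := by norm_num
    have e3 : ψ (ps s (π g)) = 0 := hgp Q ψ e1
    have hπgs : star (π g) = π g := by rw [← map_star, hgs]
    rw [map_ps ψ hs.le hπgs, ps_eq_zero_iff hs.le (mapnn ψ hπg0)] at e3
    have e4 : ψ (π β) ≤ ψ (π g) := map_mono ψ (map_mono π (by rw [hg]; exact le_add_of_nonneg_left hα))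
    have e5 : ‖ψ (π β)‖ ≤ s := (CStarAlgebra.norm_le_norm_of_nonneg_of_le (mapnn ψ hπβ0) e4).trans e3
    rw [map_ps π hs.le hβs, map_ps ψ hs.le (by rw [← map_star, hβs]),
      ps_eq_zero_iff hs.le (mapnn ψ hπβ0)]
    exact e5
  -- h2
  have h2 : ∀ (Q : Type u) [NonUnitalCStarAlgebra Q] (ψ : D' →⋆ₙₐ[ℂ] Q),
      ψ (π (ps τ0 (XT kH (star w0 * star z * kH) (16 * M)))) = 0 → ‖ψ (π kH)‖ ^ 2 ≤ 1 / 2 := by
    intro Q _ ψ hψ
    refine hwpL Q ψ ?_
    have hXs : star (XT kH (star w0 * star z * kH) (16 * M)) = XT kH (star w0 * star z * kH) (16 * M) := by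
      unfold XT
      have e0 : ∀ y : D, star (star y * y) = star y * y := fun y => by rw [star_mul, star_star]
      rw [star_sub, star_smul, e0, e0, show star (16 * M) = 16 * M from star_trivial _]
    have hπX : π (XT kH (star w0 * star z * kH) (16 * M)) = XT (π kH) (star wp * star c * π kH) (16 * M) := by
      have e1 : π (star w0 * star z * kH) = star wp * star c * π kH := by
        rw [map_mul, map_mul, map_star, map_star, hπw0, hc, star_mul, star_mul]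
        simp only [mul_assoc]
      unfold XT
      have e2 : ∀ y : D, π ((16 * M) • y) = (16 * M) • π y := by
        intro y
        have h3 : ((16 * M) • y : D) = ((16 * M : ℝ) : ℂ) • y := (Complex.coe_smul _ _).symm
        have h4 : ((16 * M) • π y : D') = ((16 * M : ℝ) : ℂ) • π y := (Complex.coe_smul _ _).symm
        rw [h3, h4, map_smul]
      rw [map_sub, e2, map_mul, map_mul, map_star, map_star, e1]
    rw [map_ps π hτ0.le hXs, hπX] at hψ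
    exact hψ
  obtain ⟨f, hfs, hA, hB⟩ := glue hD hα hβ hαn hβn hz hs hM' hτ0 hτ8 hη hMη hyAη π hπ huniv h1 h2
  set W : D := yA * star yA + (w0 - w0 * f) * star (w0 - w0 * f) with hW
  have hW0 : 0 ≤ W := add_nonneg (mul_star_self_nonneg _) (mul_star_self_nonneg _)
  have hWL : Lev β W := by
    intro c' hc'
    have e1 : c' * yA = yA := hyAL c' hc'
    have e2 : c' * w0 = w0 := by rw [hw0, ← mul_assoc, sp_sqrt_mul hβ hc']
    rw [hW, mul_add, ← mul_assoc, ← mul_assoc, e1, mul_sub, ← mul_assoc c' w0 f, e2]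
  exact normW hD hβ hβn hkHs hW0 hWL hs hM (by positivity : 0 < τ0 / 2) hA hB ε hε


end Crest.Agent.R110
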